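import Vale.Agent.P249.Scales.Reduction

/-!
# P249, all distortions: assembly

A mixture of maps that is almost isometric at every pair, each map bounded by a small power, gives an embedding with every distortion above one and a small power dimension.
-/

open Finset MeasureTheory

namespace Vale.Agent.P249.AllD

open Vale.Agent.P249.Scales

/-- Some low-dimensional maps with weights are almost isometric on average at every pair and
bounded by a small power of `n` at every pair. -/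
def MixtureEmbeds (p : ℝ) [Fact (1 ≤ ENNReal.ofReal p)] : Prop :=
  ∀ ε : ℝ, 0 < ε → ∀ δ : ℝ, 0 < δ → ∀ A : ℝ, 0 < A → ∃ C : ℝ,
    ∀ {ι : Type} [Fintype ι] [Nonempty ι] {m : ℕ} (v : ι → Lsp p m), Function.Injective v →
      (m : ℝ) ≤ A * (Fintype.card ι : ℝ) ^ (p + 3) →
        ∃ (k : ℕ) (w : Fin k → ℝ) (N : Fin k → ℕ) (G : ∀ l, ι → Fin (N l) → ℝ),
          (∀ l, 0 ≤ w l) ∧ ∑ l, w l = 1 ∧
          (∀ l, (N l : ℝ) ≤ C * (Fintype.card ι : ℝ) ^ δ) ∧
          (∀ l x y, ∑ i, |G l x i - G l y i| ^ p ≤ C * (Fintype.card ι : ℝ) ^ δ * dst v x y ^ p) ∧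
          ∀ x y, |(∑ l, w l * ∑ i, |G l x i - G l y i| ^ p) - dst v x y ^ p| ≤ ε * dst v x y ^ p

variable {p : ℝ} [Fact (1 ≤ ENNReal.ofReal p)]

/-- Mixtures are sampled. -/
theorem mixture_embeds {ι : Type} [Fintype ι] {m k : ℕ} (v : ι → Lsp p m) {ε B Nm : ℝ}
    (hε : 0 < ε) (hε8 : ε ≤ 1 / 8) (hB : 0 ≤ B) (hNm : 0 ≤ Nm)
    (w : Fin k → ℝ) (N : Fin k → ℕ) (G : ∀ l, ι → Fin (N l) → ℝ)
    (hw0 : ∀ l, 0 ≤ w l) (hw1 : ∑ l, w l = 1) (hN : ∀ l, (N l : ℝ) ≤ Nm)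
    (hG : ∀ l x y, ∑ i, |G l x i - G l y i| ^ p ≤ B * dst v x y ^ p)
    (hmix : ∀ x y, |(∑ l, w l * ∑ i, |G l x i - G l y i| ^ p) - dst v x y ^ p|
      ≤ 2 * ε * dst v x y ^ p) :
    ∃ (d : ℕ) (f : ι → Fin d → ℝ),
      (d : ℝ) ≤ (4 * (2 * B + 2) / ε ^ 2 * Real.log (2 * (Fintype.card ι : ℝ) ^ 2 + 2) + 1) * Nm ∧
      ∀ x y, (1 - 4 * ε) * dst v x y ^ p ≤ ∑ k, |f x k - f y k| ^ p ∧
        ∑ k, |f x k - f y k| ^ p ≤ (1 + 4 * ε) * dst v x y ^ p := by
  classical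
  have hp1 := one_le_p (p := p)
  have hp0 : 0 < p := by linarith
  let val : Fin k → ι × ι → ℝ := fun l e => ∑ i, |G l e.1 i - G l e.2 i| ^ p
  let dp : ι × ι → ℝ := fun e => dst v e.1 e.2 ^ p
  have hdp : ∀ e, 0 ≤ dp e := fun e => Real.rpow_nonneg (dst_nonneg _ _ _) _
  have hval : ∀ l e, 0 ≤ val l e ∧ val l e ≤ B * dp e := fun l e =>
    ⟨sum_nonneg fun i _ => Real.rpow_nonneg (abs_nonneg _) _, hG l e.1 e.2⟩
  have hk : Nonempty (Fin k) := by
    rcases k with _ | k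
    · simp at hw1
    · exact ⟨0⟩
  -- normalised features
  let E : ι × ι → ℝ := fun e => ∑ l, w l * val l e
  have hE : ∀ e, |E e - dp e| ≤ 2 * ε * dp e := fun e => hmix e.1 e.2
  let φ : ι × ι → Fin k → ℝ := fun e l => if E e = 0 then 1 else val l e / E e
  let _ : MeasurableSpace (Fin k) := ⊤
  have : MeasurableSingletonClass (Fin k) := ⟨fun _ => trivial⟩
  let μ : Measure (Fin k) := Measure.sum fun l => ENNReal.ofReal (w l) • Measure.dirac l
  have hμ : ∀ g : Fin k → ℝ, ∫ l, g l ∂μ = ∑ l, w l * g l := by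
    intro g
    simp only [μ, Measure.sum_fintype]
    rw [integral_finsetSum_measure fun l _ => Integrable.of_finite.smul_measure ENNReal.ofReal_ne_top]
    refine sum_congr rfl fun l _ => ?_
    rw [integral_smul_measure, integral_dirac, ENNReal.toReal_ofReal (hw0 l), smul_eq_mul]
  have hμ1 : IsProbabilityMeasure μ := ⟨by
    simp [μ, Measure.sum_fintype, ← ENNReal.ofReal_sum_of_nonneg fun l _ => hw0 l, hw1]⟩
  set T : ℝ := 2 * B + 2 with hT
  set n : ℝ := (Fintype.card ι : ℝ) with hn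
  set L : ℝ := Real.log (2 * n ^ 2 + 2)
  set M : ℕ := ⌈4 * T / ε ^ 2 * L⌉₊ with hM
  have hL0 : 0 ≤ L := Real.log_nonneg (by nlinarith [sq_nonneg n])
  have hexp : 2 * (Fintype.card (ι × ι) : ℝ) < Real.exp (ε ^ 2 / (4 * (T * 1)) * M) := by
    have hc : (Fintype.card (ι × ι) : ℝ) = n ^ 2 := by rw [Fintype.card_prod]; push_cast; ring
    have h1 : L ≤ ε ^ 2 / (4 * (T * 1)) * M := by
      have h2 := Nat.le_ceil (4 * T / ε ^ 2 * L)
      rw [← hM, div_mul_eq_mul_div, div_le_iff₀ (by positivity)] at h2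
      rw [mul_one, div_mul_eq_mul_div, le_div_iff₀ (by positivity)]
      linarith
    have h3 := Real.exp_le_exp.2 h1
    rw [Real.exp_log (by positivity)] at h3
    linarith
  obtain ⟨l, u, hu0, hu⟩ := exists_sample μ (fun _ => 1) φ T 1 ε (by linarith) hε (by linarith)
    measurable_const (fun _ => zero_le_one) (integrable_const _) (by simp) (by simp)
    (fun e => measurable_of_finite _)
    (fun e j => by
      simp only [φ]
      split
      · exact zero_le_one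
      · exact div_nonneg (hval _ e).1 (sum_nonneg fun l _ => mul_nonneg (hw0 l) (hval _ e).1))
    (fun e j => by
      simp only [φ, mul_one]
      split
      · linarith
      · rename_i hne
        have hEp : 0 < E e := lt_of_le_of_ne
          (sum_nonneg fun l _ => mul_nonneg (hw0 l) (hval _ e).1) (Ne.symm hne)
        rw [div_le_iff₀ hEp]
        have h1 := (abs_le.1 (hE e)).1
        have h2 : dp e ≤ 2 * E e := by nlinarith [hdp e]
        nlinarith [(hval j e).2, hdp e])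
    (fun e => by
      rw [hμ]
      simp only [φ]
      split
      · simp [hw1]
      · rename_i hne
        simp only [mul_div_assoc', ← sum_div]
        exact div_self hne)
    M hexp
  -- concatenation
  let σ : Type := Σ j : Fin M, Fin (N (l j))
  let e := (Fintype.equivFin σ).symm
  refine ⟨Fintype.card σ, fun x i => u (e i).1 ^ p⁻¹ * G (l (e i).1) x (e i).2, ?_, ?_⟩
  · simp only [σ, Fintype.card_sigma, Fintype.card_fin]
    push_cast
    refine (sum_le_card_nsmul _ _ Nm fun j _ => hN (l j)).trans ?_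
    rw [card_univ, Fintype.card_fin, nsmul_eq_mul]
    exact mul_le_mul_of_nonneg_right (Nat.ceil_lt_add_one (by positivity)).le hNm
  intro x y
  have hsum : ∑ i, |u (e i).1 ^ p⁻¹ * G (l (e i).1) x (e i).2
      - u (e i).1 ^ p⁻¹ * G (l (e i).1) y (e i).2| ^ p = ∑ j, u j * val (l j) (x, y) := by
    rw [e.sum_comp fun i : σ => |u i.1 ^ p⁻¹ * G (l i.1) x i.2
      - u i.1 ^ p⁻¹ * G (l i.1) y i.2| ^ p, Fintype.sum_sigma]
    refine sum_congr rfl fun j _ => ?_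
    simp only [val, mul_sum]
    refine sum_congr rfl fun i _ => ?_
    rw [← mul_sub, abs_mul, Real.mul_rpow (abs_nonneg _) (abs_nonneg _),
      abs_of_nonneg (Real.rpow_nonneg (hu0 j) _), ← Real.rpow_mul (hu0 j),
      inv_mul_cancel₀ hp0.ne', Real.rpow_one]
  rw [hsum]
  by_cases h0 : E (x, y) = 0
  · have hd : dp (x, y) = 0 := by
      have h1 := (abs_le.1 (hE (x, y))).1
      rw [h0] at h1
      nlinarith [hdp (x, y)]
    have hz : ∀ j, val j (x, y) = 0 := fun j =>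
      le_antisymm (by simpa [hd] using (hval j (x, y)).2) (hval j (x, y)).1
    simp only [dp] at hd
    simp [hz, hd]
  · obtain ⟨h1, h2⟩ := hu (x, y)
    simp only [φ, if_neg h0, mul_div_assoc', ← sum_div] at h1 h2
    have hEp : 0 < E (x, y) := lt_of_le_of_ne
      (sum_nonneg fun l _ => mul_nonneg (hw0 l) (hval _ _).1) (Ne.symm h0)
    rw [le_div_iff₀ hEp] at h1
    rw [div_le_iff₀ hEp] at h2
    obtain ⟨h3, h4⟩ := abs_le.1 (hE (x, y))
    change (1 - 4 * ε) * dp (x, y) ≤ _ ∧ _ ≤ (1 + 4 * ε) * dp (x, y)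
    have hεd : ε ^ 2 * dp (x, y) ≤ ε / 8 * dp (x, y) :=
      mul_le_mul_of_nonneg_right (by nlinarith) (hdp (x, y))
    have h3' := mul_le_mul_of_nonneg_left h3 (show (0 : ℝ) ≤ 1 - ε by linarith)
    have h4' := mul_le_mul_of_nonneg_left h4 (show (0 : ℝ) ≤ 1 + ε by linarith)
    constructor <;>
      linarith [mul_nonneg hε.le (hdp (x, y)), mul_nonneg (sq_nonneg ε) (hdp (x, y))]

omit [Fact (1 ≤ ENNReal.ofReal p)] in
/-- Taking roots of the two bounds. -/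
theorem root_bounds {S t s z a b D' : ℝ} (hp0 : 0 < p) (hb : 0 ≤ b) (hD : 1 ≤ D')
    (hab : b ≤ D' ^ p * a) (ht : 0 ≤ t) (ha : 0 ≤ a) (f1 : a * t ^ p ≤ S)
    (f2 : S ≤ b * t ^ p) (g1 : s * z ≤ t) (g2 : t ≤ D' * s * z) :
    a ^ p⁻¹ * s * z ≤ S ^ (1 / p) ∧ S ^ (1 / p) ≤ D' * D' * (a ^ p⁻¹ * s) * z := by
  have hS : 0 ≤ S := (mul_nonneg ha (Real.rpow_nonneg ht _)).trans f1
  have hroot : ∀ c, 0 ≤ c → (c * t ^ p) ^ p⁻¹ = c ^ p⁻¹ * t := fun c hc => by
    rw [Real.mul_rpow hc (Real.rpow_nonneg ht _), ← Real.rpow_mul ht,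
      mul_inv_cancel₀ hp0.ne', Real.rpow_one]
  rw [one_div]
  constructor
  · calc a ^ p⁻¹ * s * z ≤ a ^ p⁻¹ * t := by
          rw [mul_assoc]; exact mul_le_mul_of_nonneg_left g1 (Real.rpow_nonneg ha _)
      _ = (a * t ^ p) ^ p⁻¹ := (hroot _ ha).symm
      _ ≤ _ := Real.rpow_le_rpow (mul_nonneg ha (Real.rpow_nonneg ht _)) f1 (inv_nonneg.2 hp0.le)
  · calc S ^ p⁻¹ ≤ (b * t ^ p) ^ p⁻¹ := Real.rpow_le_rpow hS f2 (inv_nonneg.2 hp0.le)
      _ = b ^ p⁻¹ * t := hroot _ hb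
      _ ≤ (D' ^ p * a) ^ p⁻¹ * t :=
          mul_le_mul_of_nonneg_right (Real.rpow_le_rpow hb hab (inv_nonneg.2 hp0.le)) ht
      _ = D' * a ^ p⁻¹ * t := by
          rw [Real.mul_rpow (Real.rpow_nonneg (by linarith) _) ha, ← Real.rpow_mul (by linarith),
            mul_inv_cancel₀ hp0.ne', Real.rpow_one]
      _ ≤ D' * a ^ p⁻¹ * (D' * s * z) :=
          mul_le_mul_of_nonneg_left g2 (mul_nonneg (by linarith) (Real.rpow_nonneg ha _))
      _ = _ := by ring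

/-- The size of the sampled embedding. -/
theorem dim_bound {δ ε C₂ c₄ : ℝ} {n : ℝ} (hnR : 2 ≤ n) (hδ : 0 ≤ δ) (hε : 0 < ε) (hC₂ : 1 ≤ C₂)
    (hc₄0 : 0 ≤ c₄) (hlogb : Real.log (2 * n ^ 2 + 2) ≤ 4 * c₄ * n ^ (δ / 4)) :
    (4 * (2 * (C₂ * n ^ (δ / 4)) + 2) / ε ^ 2 * Real.log (2 * n ^ 2 + 2) + 1)
        * (C₂ * n ^ (δ / 4))
      ≤ (4 * (4 * C₂) / ε ^ 2 * (4 * c₄) + 1) * C₂ * n ^ δ := by
  have hB1 : 1 ≤ C₂ * n ^ (δ / 4) :=
    one_le_mul_of_one_le_of_one_le hC₂ (Real.one_le_rpow (by linarith) (by linarith))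
  have hC₂0 : 0 ≤ C₂ := by positivity
  
  have hQ : 0 ≤ (4 * (4 * C₂) / ε ^ 2 * (4 * c₄)) := by positivity
  have hN2 : n ^ (δ / 4) * n ^ (δ / 4) = n ^ (δ / 2) := by
    rw [← Real.rpow_add (by linarith)]; ring_nf
  have hN3 : n ^ (δ / 2) * n ^ (δ / 4) ≤ n ^ δ := by
    rw [← Real.rpow_add (by linarith)]
    exact Real.rpow_le_rpow_of_exponent_le (by linarith) (by linarith)
  calc (4 * (2 * (C₂ * n ^ (δ / 4)) + 2) / ε ^ 2 * Real.log (2 * n ^ 2 + 2) + 1) * (C₂ * n ^ (δ / 4))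
      ≤ (4 * (4 * (C₂ * n ^ (δ / 4))) / ε ^ 2 * (4 * c₄ * n ^ (δ / 4)) + 1) * (C₂ * n ^ (δ / 4)) := by
        refine mul_le_mul_of_nonneg_right ?_ (by linarith)
        have h2 : 0 ≤ Real.log (2 * n ^ 2 + 2) := Real.log_nonneg (by nlinarith)
        gcongr
        linarith
    _ = (4 * (4 * C₂) / ε ^ 2 * (4 * c₄) * (n ^ (δ / 4) * n ^ (δ / 4)) + 1)
          * (C₂ * n ^ (δ / 4)) := by ring
    _ ≤ ((4 * (4 * C₂) / ε ^ 2 * (4 * c₄) + 1) * n ^ (δ / 2))
          * (C₂ * n ^ (δ / 4)) := by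
        refine mul_le_mul_of_nonneg_right ?_ (by positivity)
        rw [hN2, add_mul, one_mul]
        linarith [Real.one_le_rpow (show (1 : ℝ) ≤ n by linarith) (show 0 ≤ δ / 2 by linarith)]
    _ = (4 * (4 * C₂) / ε ^ 2 * (4 * c₄) + 1) * C₂
          * (n ^ (δ / 2) * n ^ (δ / 4)) := by ring
    _ ≤ _ := mul_le_mul_of_nonneg_left hN3 (by positivity)

/-- Every distortion above one. -/
theorem dimension_reduction_of_mixture (hav : MixtureEmbeds p) (D : ℝ) (hD : 1 < D) (δ : ℝ)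
    (hδ : 0 < δ) :
    ∃ C : ℝ, ∀ (Ω : Type*) (_ : MeasurableSpace Ω) (μ : Measure Ω)
      (X : Finset (Lp ℝ (ENNReal.ofReal p) μ)), 2 ≤ X.card →
      ∃ d : ℕ, (d : ℝ) ≤ C * (X.card : ℝ) ^ δ ∧
        ∃ (f : Lp ℝ (ENNReal.ofReal p) μ → Fin d → ℝ) (s : ℝ), 0 < s ∧
          ∀ x ∈ X, ∀ y ∈ X, s * ‖x - y‖ ≤ (∑ k, |f x k - f y k| ^ p) ^ (1 / p) ∧
            (∑ k, |f x k - f y k| ^ p) ^ (1 / p) ≤ D * s * ‖x - y‖ := by
  classical
  have hp1 := one_le_p (p := p)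
  have hp0 : 0 < p := by linarith
  set D' := Real.sqrt D with hD'
  have hD'1 : 1 < D' := (Real.lt_sqrt zero_le_one).2 (by simpa using hD)
  obtain ⟨C₀, hC₀⟩ := Vale.Agent.P249.NearLinear.nearLinear p hp1 D' hD'1
  -- the accuracy
  set r := D' ^ p with hr
  have hr1 : 1 < r := Real.one_lt_rpow hD'1 hp0
  set ε := min (1 / 8) ((r - 1) / (4 * (r + 1))) with hεdef
  have hε : 0 < ε := lt_min (by norm_num) (div_pos (by linarith) (by linarith))
  have hεr : (1 + 4 * ε) ≤ r * (1 - 4 * ε) := by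
    have h1 : ε ≤ (r - 1) / (4 * (r + 1)) := min_le_right _ _
    rw [le_div_iff₀ (by linarith)] at h1
    linarith
  set A := |C₀| + 1 with hA
  obtain ⟨C₁, hC₁⟩ := hav ε hε (δ / 4) (by linarith) A (by positivity)
  set c₄ := (1 + ((1 : ℕ) + 1 : ℝ) / (δ / 4)) ^ 1 with hc₄
  set C₂ := |C₁| + 1 with hC₂
  refine ⟨(4 * (4 * C₂) / ε ^ 2 * (4 * c₄) + 1) * C₂, fun Ω _ μ X hX => ?_⟩
  obtain ⟨m, hm, g, s, hs, hg⟩ := hC₀ Ω inferInstance μ X hX
  have : Nonempty X := (Finset.card_pos.1 (by omega)).to_subtype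
  let e : Fin (Fintype.card X) ≃ X := (Fintype.equivFin X).symm
  have : Nonempty (Fin (Fintype.card X)) := e.nonempty
  let v : Fin (Fintype.card X) → Lsp p m := fun a => WithLp.toLp _ (g (e a))
  set n : ℕ := X.card with hn
  have hcard : Fintype.card (Fin (Fintype.card X)) = n := by simp [hn]
  have hnR : (2 : ℝ) ≤ n := by exact_mod_cast hX
  have hL : 0 ≤ Real.log (n : ℝ) := Real.log_nonneg (by linarith)
  have hmA : (m : ℝ) ≤ A * (n : ℝ) ^ (p + 3) := by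
    refine hm.trans ?_
    have h2 : Real.log (n : ℝ) ^ (p + 1) ≤ (n : ℝ) ^ (p + 1) := Real.rpow_le_rpow hL
      (by linarith [Real.log_le_sub_one_of_pos (show (0 : ℝ) < n by linarith)]) (by linarith)
    calc C₀ * (n : ℝ) * Real.log n ^ (p + 1) ≤ A * (n : ℝ) * (n : ℝ) ^ (p + 1) :=
          mul_le_mul (mul_le_mul_of_nonneg_right (by rw [hA]; linarith [le_abs_self C₀]) (by linarith))
            h2 (Real.rpow_nonneg hL _) (by positivity)
      _ = A * (n : ℝ) ^ (p + 2) := by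
          rw [mul_assoc, show p + 2 = 1 + (p + 1) by ring,
            Real.rpow_add (by linarith : (0 : ℝ) < n) 1 (p + 1), Real.rpow_one]
      _ ≤ _ := mul_le_mul_of_nonneg_left
          (Real.rpow_le_rpow_of_exponent_le (by linarith) (by linarith)) (by positivity)
  set B := C₂ * (n : ℝ) ^ (δ / 4) with hB
  have hn4 : 1 ≤ (n : ℝ) ^ (δ / 4) := Real.one_le_rpow (by linarith) (by linarith)
  have hB1 : 1 ≤ B := one_le_mul_of_one_le_of_one_le (by rw [hC₂]; linarith [abs_nonneg C₁]) hn4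
  have hle : C₁ * (n : ℝ) ^ (δ / 4) ≤ B :=
    mul_le_mul_of_nonneg_right (by rw [hC₂]; linarith [le_abs_self C₁]) (by linarith)
  have hinj : Function.Injective v := fun a b hab => by
    by_contra hne
    have hne' : (e a : Lp ℝ (ENNReal.ofReal p) μ) ≠ e b := fun h => hne (e.injective (Subtype.ext h))
    obtain ⟨h1, -⟩ := hg _ (e a).2 _ (e b).2
    have h0 : g (e a) = g (e b) := congr_arg WithLp.ofLp hab
    have : (∑ k, |g (e a) k - g (e b) k| ^ p) ^ (1 / p) = 0 := by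
      simp [h0, Real.zero_rpow hp0.ne', Real.zero_rpow (inv_ne_zero hp0.ne')]
    have := mul_pos hs (norm_sub_pos_iff.2 hne')
    linarith
  obtain ⟨k, w, N, G, hw0, hw1, hN, hG, hmix⟩ := hC₁ v hinj (by rw [hcard]; exact hmA)
  rw [hcard] at hN hG
  obtain ⟨d, f, hd, hf⟩ := mixture_embeds v hε (min_le_left _ _) (B := B) (Nm := B) (by linarith)
    (by linarith) w N G hw0 hw1 (fun l => (hN l).trans hle)
    (fun l x y => (hG l x y).trans
      (mul_le_mul_of_nonneg_right hle (Real.rpow_nonneg (dst_nonneg v x y) p)))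
    (fun x y => (hmix x y).trans (mul_le_mul_of_nonneg_right (by linarith)
      (Real.rpow_nonneg (dst_nonneg v x y) p)))
  rw [hcard] at hd
  have hlogb : Real.log (2 * (n : ℝ) ^ 2 + 2) ≤ 4 * c₄ * (n : ℝ) ^ (δ / 4) := by
    have h1 : Real.log (2 * (n : ℝ) ^ 2 + 2) ≤ Real.log ((n : ℝ) ^ 4) :=
      Real.log_le_log (by positivity) (by nlinarith [pow_le_pow_left₀ zero_le_two hnR 2])
    rw [Real.log_pow] at h1
    have h2 := one_add_log_pow_le (show 0 < δ / 4 by linarith) 1 (show (1 : ℝ) ≤ n by linarith)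
    rw [pow_one, ← hc₄] at h2
    push_cast at h1
    linarith
  refine ⟨d, hd.trans ?_, fun x => if h : x ∈ X then f (e.symm ⟨x, h⟩) else 0,
    (1 - 4 * ε) ^ p⁻¹ * s, mul_pos (Real.rpow_pos_of_pos (by nlinarith) _) hs, fun x hx y hy => ?_⟩
  · exact dim_bound hnR hδ.le hε (by rw [hC₂]; linarith [abs_nonneg C₁]) (by rw [hc₄]; positivity) hlogb
  · simp only [dif_pos hx, dif_pos hy]
    obtain ⟨f1, f2⟩ := hf (e.symm ⟨x, hx⟩) (e.symm ⟨y, hy⟩)
    obtain ⟨g1, g2⟩ := hg x hx y hy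
    have hdst : dst v (e.symm ⟨x, hx⟩) (e.symm ⟨y, hy⟩)
        = (∑ k, |g x k - g y k| ^ p) ^ (1 / p) := by
      rw [dst, show ∀ a, v a = WithLp.toLp _ (g (e a)) from fun _ => rfl]
      simp only [v, Equiv.apply_symm_apply]
      exact norm_sub_eq (g x) (g y)
    have ht0 := dst_nonneg v (e.symm ⟨x, hx⟩) (e.symm ⟨y, hy⟩)
    rw [← hdst] at g1 g2
    refine root_bounds hp0 (by linarith) hD'1.le hεr ht0
      (by have : ε ≤ 1 / 8 := min_le_left _ _; linarith) f1 f2 g1 g2 |>.imp id fun h => h.trans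
      (le_of_eq ?_)
    rw [hD', Real.mul_self_sqrt (by linarith)]

end Vale.Agent.P249.AllD
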