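import Mathlib

/-!
# P249, every distortion `D > 1`: definitions and pins

Dimension `C n ^ δ` suffices for every `p > 1`, `D > 1`, `δ > 0`.

* `BlockPin`: kernel averages over blocks of `K` scales, their sizes and their Lipschitz moduli.
* `DiagPin`: over scales of block lengths `K₀ 2 ^ i` the normalised block growths are summable.
* `StopPin`: a scalar inequality for multiscale stopping.
* `RegPin`: regularisation at one intensity level.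
* `LayerPin`: splitting into boundedly many layers, each bounded and of small support.
* `EmbedPin`: hashing and sampling.
* `MainPin`: the theorem.
-/

open Finset MeasureTheory

namespace Vale.Agent.P249.AllD

noncomputable section

variable {ι : Type*} [Fintype ι] {m : ℕ}

/-! ## The norm -/

/-- the `ℓ_p` norm -/
def nrm (p : ℝ) (x : Fin m → ℝ) : ℝ := (∑ ω, |x ω| ^ p) ^ p⁻¹

/-- the distance of two image points -/
def dst (p : ℝ) (f : ι → Fin m → ℝ) (a b : ι) : ℝ := nrm p (fun ω => f a ω - f b ω)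

theorem nrm_nonneg (p : ℝ) (x : Fin m → ℝ) : 0 ≤ nrm p x :=
  Real.rpow_nonneg (sum_nonneg fun _ _ => Real.rpow_nonneg (abs_nonneg _) _) _

theorem dst_nonneg (p : ℝ) (f : ι → Fin m → ℝ) (a b : ι) : 0 ≤ dst p f a b := nrm_nonneg _ _

theorem nrm_rpow {p : ℝ} (hp : 0 < p) (x : Fin m → ℝ) : nrm p x ^ p = ∑ ω, |x ω| ^ p := by
  rw [nrm, ← Real.rpow_mul (sum_nonneg fun _ _ => Real.rpow_nonneg (abs_nonneg _) _),
    inv_mul_cancel₀ hp.ne', Real.rpow_one]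

theorem nrm_mono {p : ℝ} (hp : 0 < p) {x y : Fin m → ℝ} (h : ∀ ω, |x ω| ≤ |y ω|) :
    nrm p x ≤ nrm p y :=
  Real.rpow_le_rpow (sum_nonneg fun _ _ => Real.rpow_nonneg (abs_nonneg _) _)
    (sum_le_sum fun ω _ => Real.rpow_le_rpow (abs_nonneg _) (h ω) hp.le) (inv_nonneg.2 hp.le)

theorem nrm_add {p : ℝ} (hp : 1 ≤ p) (x y : Fin m → ℝ) :
    nrm p (fun ω => x ω + y ω) ≤ nrm p x + nrm p y := by
  simpa [nrm, one_div] using Real.Lp_add_le univ x y hp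

theorem nrm_smul {p : ℝ} (hp : 0 < p) (c : ℝ) (x : Fin m → ℝ) :
    nrm p (fun ω => c * x ω) = |c| * nrm p x := by
  simp only [nrm, abs_mul, Real.mul_rpow (abs_nonneg c) (abs_nonneg _), ← mul_sum]
  rw [Real.mul_rpow (Real.rpow_nonneg (abs_nonneg _) _)
    (sum_nonneg fun _ _ => Real.rpow_nonneg (abs_nonneg _) _), ← Real.rpow_mul (abs_nonneg _),
    mul_inv_cancel₀ hp.ne', Real.rpow_one]

theorem nrm_neg (p : ℝ) (x : Fin m → ℝ) : nrm p (fun ω => -x ω) = nrm p x := by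
  simp [nrm]

theorem nrm_zero {p : ℝ} (hp : 0 < p) : nrm p (fun _ : Fin m => (0 : ℝ)) = 0 := by
  simp [nrm, Real.zero_rpow hp.ne', Real.zero_rpow (inv_ne_zero hp.ne')]

theorem nrm_sum_le {p : ℝ} (hp : 1 ≤ p) {β : Type*} (s : Finset β) (x : β → Fin m → ℝ) :
    nrm p (fun ω => ∑ b ∈ s, x b ω) ≤ ∑ b ∈ s, nrm p (x b) := by
  classical
  induction s using Finset.induction_on with
  | empty => simp [nrm_zero (m := m) (zero_lt_one.trans_le hp)]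
  | insert a s ha ih =>
    simp only [sum_insert ha]
    exact (nrm_add hp _ _).trans (by linarith)

theorem abs_le_nrm {p : ℝ} (hp : 0 < p) (x : Fin m → ℝ) (ω : Fin m) : |x ω| ≤ nrm p x := by
  have h : |x ω| ^ p ≤ ∑ i, |x i| ^ p :=
    single_le_sum (f := fun i => |x i| ^ p) (fun i _ => Real.rpow_nonneg (abs_nonneg _) _)
      (mem_univ ω)
  have h2 := Real.rpow_le_rpow (Real.rpow_nonneg (abs_nonneg _) _) h (inv_nonneg.2 hp.le)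
  rwa [← Real.rpow_mul (abs_nonneg _), mul_inv_cancel₀ hp.ne', Real.rpow_one] at h2

theorem dst_comm (p : ℝ) (f : ι → Fin m → ℝ) (a b : ι) : dst p f a b = dst p f b a := by
  simp [dst, nrm, abs_sub_comm]

theorem dst_self {p : ℝ} (hp : 0 < p) (f : ι → Fin m → ℝ) (a : ι) : dst p f a a = 0 := by
  simp [dst, nrm_zero hp]

theorem dst_triangle {p : ℝ} (hp : 1 ≤ p) (f : ι → Fin m → ℝ) (a b c : ι) :
    dst p f a c ≤ dst p f a b + dst p f b c := by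
  have h := nrm_add hp (fun ω => f a ω - f b ω) (fun ω => f b ω - f c ω)
  simpa [dst] using h

theorem dst_pos {p : ℝ} (hp : 0 < p) {f : ι → Fin m → ℝ} (hf : Function.Injective f) {a b : ι}
    (hab : a ≠ b) : 0 < dst p f a b := by
  refine (dst_nonneg _ _ _ _).lt_of_ne fun h => hab (hf (funext fun ω => ?_))
  have := abs_le_nrm hp (fun ω => f a ω - f b ω) ω
  rw [show nrm p (fun ω => f a ω - f b ω) = 0 from h.symm] at this
  simpa [sub_eq_zero] using this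

/-! ## Scales, kernels, blocks -/

/-- `R₀ 2 ^ t` -/
def Rad (R0 : ℝ) (t : ℕ) : ℝ := R0 * 2 ^ t

def wgt (p : ℝ) (f : ι → Fin m → ℝ) (R0 : ℝ) (t : ℕ) (u c : ι) : ℝ :=
  Real.exp (-(dst p f u c / Rad R0 t))

def ker (p : ℝ) (f : ι → Fin m → ℝ) (R0 : ℝ) (t : ℕ) (u c : ι) : ℝ :=
  wgt p f R0 t u c / ∑ e, wgt p f R0 t u e

/-- the growth at scale `t` -/
def gro (p : ℝ) (f : ι → Fin m → ℝ) (R0 : ℝ) (t : ℕ) (u : ι) : ℝ :=
  Real.log (∑ c, wgt p f R0 (t + 1) u c) - Real.log (∑ c, wgt p f R0 t u c)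

/-- block `b ≥ 1` consists of the scales `[(b - 1) K, b K)` -/
def blk (K b : ℕ) : Finset ℕ := Ico ((b - 1) * K) (b * K)

/-- soft weight of a scale, used for sizes -/
def eta (p : ℝ) (f : ι → Fin m → ℝ) (R0 lam : ℝ) (t : ℕ) (u : ι) : ℝ :=
  Real.exp (-(gro p f R0 t u / lam))

/-- weight with a cut at `lam + 1`, used for the averages -/
def bet (p : ℝ) (f : ι → Fin m → ℝ) (R0 lam : ℝ) (t : ℕ) (u : ι) : ℝ :=
  max 0 (min 1 (lam + 1 - gro p f R0 t u))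

def suf (p : ℝ) (f : ι → Fin m → ℝ) (R0 lam : ℝ) (K b t : ℕ) (u : ι) : ℝ :=
  min 1 (2 / (K : ℝ) * ∑ q ∈ Ico t (b * K), bet p f R0 lam q u)

def tim (p : ℝ) (f : ι → Fin m → ℝ) (R0 lam : ℝ) (K b t : ℕ) (u : ι) : ℝ :=
  suf p f R0 lam K b t u - suf p f R0 lam K b (t + 1) u

/-- the levels: `0` is the map itself, `1 ≤ b ≤ B` the block averages, `B + 1` the mean -/
def zed (p : ℝ) (f : ι → Fin m → ℝ) (R0 lam : ℝ) (K B b : ℕ) (u : ι) (ω : Fin m) : ℝ :=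
  if b = 0 then f u ω
  else if b ≤ B then ∑ t ∈ blk K b, tim p f R0 lam K b t u * ∑ c, ker p f R0 t u c * f c ω
  else (Fintype.card ι : ℝ)⁻¹ * ∑ c, f c ω

/-- block deviations -/
def dev (p : ℝ) (f : ι → Fin m → ℝ) (R0 lam : ℝ) (K B b : ℕ) (u : ι) (ω : Fin m) : ℝ :=
  if 1 ≤ b ∧ b ≤ B then
    (K : ℝ)⁻¹ * ∑ t ∈ blk K b, eta p f R0 lam t u * (Rad R0 t / Rad R0 (b * K)) *
      ∑ c, ker p f R0 t u c * |f c ω - zed p f R0 lam K B b u ω|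
  else 0

/-- block growth -/
def amp (p : ℝ) (f : ι → Fin m → ℝ) (R0 lam : ℝ) (K B b : ℕ) (u : ι) : ℝ :=
  if 1 ≤ b ∧ b ≤ B then (K : ℝ)⁻¹ * ∑ t ∈ blk K b, gro p f R0 t u * eta p f R0 lam t u else 0

/-- Sizes and moduli of the levels. -/
def BlockPin : Prop :=
  ∃ C : ℝ, 1 ≤ C ∧ ∀ p : ℝ, 1 ≤ p → ∀ (ι : Type) [Fintype ι] [Nonempty ι] (m : ℕ)
    (f : ι → Fin m → ℝ) (R0 lam : ℝ) (K B : ℕ), 0 < R0 → 1 ≤ K → 1 ≤ B → 4 ≤ lam →
    4 * Real.log (Fintype.card ι : ℝ) ≤ lam * (K : ℝ) →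
    (∀ u v, dst p f u v ≤ Rad R0 (B * K)) →
    (∀ b u, 0 ≤ amp p f R0 lam K B b u) ∧
    (∀ b u ω, 0 ≤ dev p f R0 lam K B b u ω) ∧
    (∀ b, b ≤ B → ∀ u,
      nrm p (fun ω => |zed p f R0 lam K B b u ω - zed p f R0 lam K B (b + 1) u ω| +
          dev p f R0 lam K B b u ω + dev p f R0 lam K B (b + 1) u ω) ≤
        C * Rad R0 ((b + 1) * K) * (amp p f R0 lam K B b u + amp p f R0 lam K B (b + 1) u +
          (if b = B then 1 else 0))) ∧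
    (∀ b, b ≤ B + 1 → ∀ u v,
      nrm p (fun ω => |zed p f R0 lam K B b u ω - zed p f R0 lam K B b v ω| +
          |dev p f R0 lam K B b u ω - dev p f R0 lam K B b v ω|) ≤
        C * dst p f u v * (amp p f R0 lam K B b u + amp p f R0 lam K B b v +
          (if b = 0 ∨ Rad R0 ((b - 1) * K) < dst p f u v then 1 else 0))) ∧
    (∀ b, 1 ≤ b → b ≤ B → ∀ u v, dst p f u v ≤ Rad R0 ((b - 1) * K) → ∀ ω,
      |zed p f R0 lam K B b u ω - zed p f R0 lam K B b v ω| +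
          |dev p f R0 lam K B b u ω - dev p f R0 lam K B b v ω| ≤
        C * 2 ^ K * (dst p f u v / Rad R0 ((b - 1) * K)) * dev p f R0 lam K B b u ω)

/-- The only use of `p > 1`: for one point, over geometric block lengths, the normalised growths
have bounded `p`-th power sum (use `∑ i, x_i ^ (p - 1) exp (-p x_i) ≤ C` for `x_i` geometric). -/
def DiagPin : Prop :=
  ∀ p : ℝ, 1 < p → ∃ C : ℝ, 0 ≤ C ∧ ∀ (G : ℕ → ℝ) (L : ℝ), 0 < L → (∀ t, 0 ≤ G t) →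
    (∀ T, ∑ t ∈ range T, G t ≤ L) → ∀ (Q K0 : ℕ), 1 ≤ K0 → ∀ B : ℕ → ℕ,
    ∑ i ∈ range Q, ∑ b ∈ Icc 1 (B i),
      (((K0 * 2 ^ i : ℕ) : ℝ)⁻¹ * (∑ t ∈ blk (K0 * 2 ^ i) b,
          G t * Real.exp (-(G t / (4 * L / ((K0 * 2 ^ i : ℕ) : ℝ))))) /
        (4 * L / ((K0 * 2 ^ i : ℕ) : ℝ))) ^ p ≤ C

/-! ## Stopping -/

/-- stopping indicator at normalised size `y` -/
def sta (k : ℕ) (y : ℝ) : ℝ := (max 0 (min 1 (y - 1))) ^ k

/-- normalised size of band `b` -/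
def siz (l : ℝ) (z D ρ : ℕ → ℝ) (b : ℕ) : ℝ :=
  (|z b - z (b + 1)| + D b + D (b + 1)) / ρ b / l

def chi (k B : ℕ) (l : ℝ) (z D ρ : ℕ → ℝ) (b : ℕ) : ℝ :=
  ∏ q ∈ Icc b B, (1 - sta k (siz l z D ρ q))

/-- the stopped value -/
def stv (k B : ℕ) (l : ℝ) (z D ρ : ℕ → ℝ) : ℝ :=
  z (B + 1) + ∑ b ∈ range (B + 1), chi k B l z D ρ b * (z b - z (b + 1))

/-- The stopping inequality at one coordinate and one pair: `d` is the distance, bands below `c₀`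
are below `d`, the at most three bands in `[c₀, c)` are comparable to `d`, those from `c` on are
above it and there the crude modulus `hcrude` holds from either endpoint. -/
def StopPin : Prop :=
  ∀ k : ℕ, 2 ≤ k → ∃ C : ℝ, 1 ≤ C ∧ ∀ (B c₀ c : ℕ) (l d r : ℝ) (z z' D D' X ρ : ℕ → ℝ),
    0 < l → 0 < d → 1 ≤ r → c₀ ≤ c → c ≤ B + 1 → c ≤ c₀ + 3 →
    (∀ b, 0 < ρ b) → (∀ b, 2 * ρ b ≤ ρ (b + 1)) →
    (∀ b, b < c₀ → ρ b ≤ d) → (∀ b, b < c → ρ b ≤ r * d) →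
    (∀ b, 0 ≤ D b) → (∀ b, 0 ≤ D' b) →
    z (B + 1) = z' (B + 1) → D (B + 1) = D' (B + 1) →
    (∀ b, b ≤ B + 1 → |z b - z' b| + |D b - D' b| ≤ d * X b) →
    (∀ b, c ≤ b → b ≤ B →
      |z b - z' b| + |D b - D' b| ≤ r * d * D b / ρ b ∧
      |z b - z' b| + |D b - D' b| ≤ r * d * D' b / ρ b) →
    |stv k B l z D ρ - stv k B l z' D' ρ| ≤
        C * d * (l + (∑ b ∈ Icc c₀ (B + 1), min (X b) (r * l) ^ k) ^ (k : ℝ)⁻¹) ∧
      ((∀ b, b ≤ B → siz l z D ρ b ≤ 1 ∧ siz l z' D' ρ b ≤ 1) →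
        stv k B l z D ρ - stv k B l z' D' ρ = z 0 - z' 0 ∧ |z 0 - z' 0| ≤ C * r * l * d)

/-! ## One level -/

/-- Regularisation at level `l`. -/
def RegPin : Prop :=
  ∀ p : ℝ, 1 < p → ∀ δ ε M : ℝ, 0 < δ → 0 < ε → 0 ≤ M → ∃ (C : ℝ) (n₀ : ℕ), 1 ≤ C ∧
    ∀ (ι : Type) [Fintype ι], n₀ ≤ Fintype.card ι → ∀ (m : ℕ) (f : ι → Fin m → ℝ),
    Function.Injective f → ∀ l : ℝ, (Fintype.card ι : ℝ) ^ (-M) ≤ l → l ≤ 1 →
    ∃ h : ι → Fin m → ℝ, ∀ a b, a ≠ b →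
      ∃ θ : Fin m → ℝ, (∀ ω, 0 ≤ θ ω ∧ θ ω ≤ 1) ∧
        (∀ ω, |f a ω - f b ω| ≤ l * (Fintype.card ι : ℝ) ^ (-δ) * dst p f a b → θ ω = 1) ∧
        (∀ ω, l * dst p f a b < |f a ω - f b ω| → θ ω = 0) ∧
        nrm p (fun ω => h a ω - h b ω - θ ω * (f a ω - f b ω)) ≤ ε * dst p f a b ∧
        (∀ ω, |h a ω - h b ω| ≤ C * (Fintype.card ι : ℝ) ^ δ * l * dst p f a b) ∧
        ({ω | h a ω - h b ω ≠ f a ω - f b ω} : Finset (Fin m)).card * l ^ p ≤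
          C * (Fintype.card ι : ℝ) ^ δ

/-! ## Layers and the embedding -/

/-- Boundedly many layers, `p`-additive up to `ε`, each with entries at most `μ` and
`μ ^ p` times the support at most `C n ^ δ`. -/
def LayerPin : Prop :=
  ∀ p : ℝ, 1 < p → ∀ δ ε M : ℝ, 0 < δ → 0 < ε → 0 ≤ M → ∃ (C : ℝ) (n₀ T₀ : ℕ), 1 ≤ C ∧
    ∀ (ι : Type) [Fintype ι], n₀ ≤ Fintype.card ι → ∀ (m : ℕ) (f : ι → Fin m → ℝ),
    Function.Injective f → (m : ℝ) ≤ (Fintype.card ι : ℝ) ^ M →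
    ∃ T ≤ T₀, ∃ (g : Fin T → ι → Fin m → ℝ) (μ : Fin T → ℝ), (∀ t, 0 < μ t) ∧
      ∀ a b, a ≠ b →
        (∀ t ω, |g t a ω - g t b ω| ≤ μ t * dst p f a b) ∧
        (∀ t, μ t ^ p * ({ω | g t a ω - g t b ω ≠ 0} : Finset (Fin m)).card ≤
          C * (Fintype.card ι : ℝ) ^ δ) ∧
        |(∑ t, nrm p (fun ω => g t a ω - g t b ω) ^ p) - dst p f a b ^ p| ≤
          ε * dst p f a b ^ p

/-- Hashing and sampling. -/
def EmbedPin : Prop :=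
  ∀ p : ℝ, 1 < p → ∀ δ ε M : ℝ, 0 < δ → 0 < ε → 0 ≤ M → ∃ (C : ℝ) (n₀ : ℕ),
    ∀ (ι : Type) [Fintype ι], n₀ ≤ Fintype.card ι → ∀ (m : ℕ) (f : ι → Fin m → ℝ),
    Function.Injective f → (m : ℝ) ≤ (Fintype.card ι : ℝ) ^ M →
    ∃ (d : ℕ) (F : ι → Fin d → ℝ), (d : ℝ) ≤ C * (Fintype.card ι : ℝ) ^ δ ∧
      ∀ a b, |(∑ k, |F a k - F b k| ^ p) - dst p f a b ^ p| ≤ ε * dst p f a b ^ p

/-- The theorem. -/
def MainPin : Prop :=
  ∀ p : ℝ, 1 < p → ∀ D : ℝ, 1 < D → ∀ δ : ℝ, 0 < δ → ∃ C : ℝ,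
    ∀ (Ω : Type*) (_ : MeasurableSpace Ω) (μ : Measure Ω)
      (X : Finset (Lp ℝ (ENNReal.ofReal p) μ)), 2 ≤ X.card →
      ∃ d : ℕ, (d : ℝ) ≤ C * (X.card : ℝ) ^ δ ∧
        ∃ (f : Lp ℝ (ENNReal.ofReal p) μ → Fin d → ℝ) (s : ℝ), 0 < s ∧
          ∀ x ∈ X, ∀ y ∈ X, s * ‖x - y‖ ≤ (∑ k, |f x k - f y k| ^ p) ^ (1 / p) ∧
            (∑ k, |f x k - f y k| ^ p) ^ (1 / p) ≤ D * s * ‖x - y‖

end

end Vale.Agent.P249.AllD
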