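import Vale.Agent.P249.Scales.Kernel

/-!
# P249, every distortion: averaging against the Laplace kernels

The average `avg R g` moves between two points by at most `exp (2 d / R) - 1` times the mean
oscillation `spread R g` at either of them, and the mean radius is at most twice the growth.
-/

open Finset

namespace Vale.Agent.P249.AllD

open Vale.Agent.P249.Scales

variable {ι : Type*} [Fintype ι] {V : Type*} [NormedAddCommGroup V] (u : ι → V)

/-- the normalised Laplace kernel -/
noncomputable def pk (R : ℝ) (a c : ι) : ℝ := Real.exp (-(dst u a c / R)) / Z u R a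

/-- the average of `g` around `a` -/
noncomputable def avg (R : ℝ) (g : ι → ℝ) (a : ι) : ℝ := ∑ c, pk u R a c * g c

/-- the mean oscillation of `g` around `a` -/
noncomputable def spread (R : ℝ) (g : ι → ℝ) (a : ι) : ℝ :=
  ∑ c, ∑ c', pk u R a c * pk u R a c' * |g c - g c'|

variable {u} {R : ℝ} {g : ι → ℝ}

theorem pk_pos (a c : ι) : 0 < pk u R a c := div_pos (Real.exp_pos _) (Z_pos a)

theorem sum_pk (a : ι) : ∑ c, pk u R a c = 1 := by
  simp only [pk, ← sum_div]
  exact div_self (Z_pos a).ne'

theorem spread_nonneg (a : ι) : 0 ≤ spread u R g a :=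
  sum_nonneg fun _ _ => sum_nonneg fun _ _ =>
    mul_nonneg (mul_pos (pk_pos _ _) (pk_pos _ _)).le (abs_nonneg _)

theorem sum_abs_sub_avg_le (a : ι) :
    ∑ c, pk u R a c * |g c - avg u R g a| ≤ spread u R g a := by
  refine sum_le_sum fun c _ => ?_
  have e : g c - avg u R g a = ∑ c', pk u R a c' * (g c - g c') := by
    simp only [avg, mul_sub, sum_sub_distrib, ← sum_mul, sum_pk, one_mul]
  rw [e]
  refine (mul_le_mul_of_nonneg_left (abs_sum_le_sum_abs _ _) (pk_pos a c).le).trans_eq ?_
  rw [mul_sum]
  exact sum_congr rfl fun c' _ => by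
    rw [abs_mul, abs_of_pos (pk_pos a c'), mul_assoc]

/-- the kernels of two points are comparable -/
theorem pk_le_exp_mul (hR : 0 < R) (a b c : ι) :
    pk u R b c ≤ Real.exp (2 * (dst u a b / R)) * pk u R a c := by
  have e : ∀ x, pk u R x c = Real.exp (-(dst u x c / R) - logZ u R x) := fun x => by
    rw [Real.exp_sub, exp_logZ, pk]
  rw [e, e, ← Real.exp_add, Real.exp_le_exp]
  have h1 := abs_le.1 (abs_logZ_sub (u := u) hR a b)
  have h2 : dst u a c / R ≤ dst u a b / R + dst u b c / R := by
    rw [← add_div]
    exact div_le_div_of_nonneg_right (dst_tri u a b c) hR.le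
  linarith

theorem abs_pk_sub (hR : 0 < R) (a b c : ι) :
    |pk u R b c - pk u R a c| ≤ (Real.exp (2 * (dst u a b / R)) - 1) * pk u R a c := by
  have h1 := pk_le_exp_mul (u := u) hR a b c
  have h2 := pk_le_exp_mul (u := u) hR b a c
  rw [dst_comm u b a] at h2
  have h0 := (pk_pos (u := u) (R := R) a c).le
  have h0' := (pk_pos (u := u) (R := R) b c).le
  set t := Real.exp (2 * (dst u a b / R))
  have ht : 1 ≤ t := Real.one_le_exp (by
    have := dst_nonneg u a b
    positivity)
  rw [abs_le]
  refine ⟨?_, by linarith⟩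
  rcases le_total (pk u R a c) (pk u R b c) with h | h
  · nlinarith
  · have h3 : (t - 1) * pk u R b c ≤ (t - 1) * pk u R a c :=
      mul_le_mul_of_nonneg_left h (by linarith)
    linarith

/-- a single-sided derivative bound for the average -/
theorem abs_avg_sub (hR : 0 < R) (a b : ι) :
    |avg u R g b - avg u R g a| ≤ (Real.exp (2 * (dst u a b / R)) - 1) * spread u R g a := by
  have e : avg u R g b - avg u R g a
      = ∑ c, (pk u R b c - pk u R a c) * (g c - avg u R g a) := by
    simp only [sub_mul, mul_sub, sum_sub_distrib, ← sum_mul, sum_pk, one_mul, avg]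
    ring
  rw [e]
  refine (abs_sum_le_sum_abs _ _).trans ((sum_le_sum fun c _ => ?_).trans
    ((mul_sum _ _ _).symm.trans_le (mul_le_mul_of_nonneg_left (sum_abs_sub_avg_le a)
      (sub_nonneg.2 (Real.one_le_exp (by
        have := dst_nonneg u a b
        positivity))))))
  rw [abs_mul, ← mul_assoc]
  exact mul_le_mul_of_nonneg_right (abs_pk_sub hR a b c) (abs_nonneg _)

theorem spread_le_exp_mul (hR : 0 < R) (a b : ι) :
    spread u R g b ≤ Real.exp (4 * (dst u a b / R)) * spread u R g a := by
  simp only [spread, mul_sum]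
  refine sum_le_sum fun c _ => sum_le_sum fun c' _ => ?_
  have h := mul_le_mul (pk_le_exp_mul (u := u) hR a b c) (pk_le_exp_mul (u := u) hR a b c')
    (pk_pos b c').le (mul_nonneg (Real.exp_pos _).le (pk_pos a c).le)
  refine (mul_le_mul_of_nonneg_right h (abs_nonneg _)).trans_eq ?_
  rw [show 4 * (dst u a b / R) = 2 * (dst u a b / R) + 2 * (dst u a b / R) by ring, Real.exp_add]
  ring

/-- the oscillation is at most the mean distance between the values -/
theorem spread_le_two_mul (a : ι) (z : ℝ) :
    spread u R g a ≤ 2 * ∑ c, pk u R a c * |g c - z| := by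
  calc spread u R g a
      ≤ ∑ c, ∑ c', (pk u R a c * |g c - z| * pk u R a c'
          + pk u R a c * (pk u R a c' * |g c' - z|)) := by
        refine sum_le_sum fun c _ => sum_le_sum fun c' _ => ?_
        have h := abs_sub_le (g c) z (g c')
        rw [abs_sub_comm z] at h
        have := mul_le_mul_of_nonneg_left h (mul_pos (pk_pos (u := u) (R := R) a c)
          (pk_pos (u := u) (R := R) a c')).le
        refine this.trans_eq ?_
        ring
    _ = _ := by
        simp only [sum_add_distrib, ← mul_sum, ← sum_mul, sum_pk, mul_one, one_mul]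
        ring

/-- the mean radius at scale `R` is at most `2 R` times the growth -/
theorem sum_pk_dst_le (hR : 0 < R) (a : ι) :
    ∑ c, pk u R a c * dst u a c ≤ 2 * R * growth u R a := by
  set E := ∑ c, pk u R a c * (dst u a c / (2 * R)) with hE
  have hj : Real.exp E ≤ Real.exp (growth u R a) := by
    have h := (convexOn_exp).map_sum_le (t := univ) (w := fun c => pk u R a c)
      (p := fun c => dst u a c / (2 * R)) (fun c _ => (pk_pos a c).le) (sum_pk a)
      fun c _ => Set.mem_univ _
    simp only [smul_eq_mul] at h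
    refine h.trans_eq ?_
    rw [growth, Real.exp_sub, exp_logZ, exp_logZ, Z, Z, sum_div]
    refine sum_congr rfl fun c _ => ?_
    rw [pk, div_mul_eq_mul_div, ← Real.exp_add, Z]
    congr 2
    ring
  have hle := Real.exp_le_exp.1 hj
  calc ∑ c, pk u R a c * dst u a c = 2 * R * E := by
        rw [hE, mul_sum]
        exact sum_congr rfl fun c _ => by field_simp
    _ ≤ _ := mul_le_mul_of_nonneg_left hle (by linarith)

/-- below the radius the average is Lipschitz with constant `16 spread / R` -/
theorem abs_avg_sub_le (hR : 0 < R) {a b : ι} (h : dst u a b ≤ R) :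
    |avg u R g b - avg u R g a| ≤ 16 * (dst u a b / R) * spread u R g a := by
  refine (abs_avg_sub hR a b).trans (mul_le_mul_of_nonneg_right ?_ (spread_nonneg a))
  set t := dst u a b / R
  have ht0 : 0 ≤ t := div_nonneg (dst_nonneg u a b) hR.le
  have ht1 : t ≤ 1 := (div_le_one hR).2 h
  have h1 : Real.exp (2 * t) ≤ 1 + 16 * t := by
    rw [show 2 * t = t + t by ring, Real.exp_add]
    have h2 : Real.exp t ≤ 1 + 2 * t := by
      have := Real.exp_bound' ht0 ht1 (n := 1) (by norm_num)
      norm_num at this
      linarith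
    have h3 : 0 ≤ Real.exp t := (Real.exp_pos t).le
    nlinarith
  linarith

/-- an `L`-Lipschitz function oscillates by at most `4 L R` times the growth -/
theorem spread_le_of_lipschitz (hR : 0 < R) {L : ℝ} (hL : 0 ≤ L)
    (hg : ∀ c c', |g c - g c'| ≤ L * dst u c c') (a : ι) :
    spread u R g a ≤ 4 * L * R * growth u R a := by
  refine (spread_le_two_mul a (g a)).trans ?_
  have h : ∑ c, pk u R a c * |g c - g a| ≤ L * ∑ c, pk u R a c * dst u a c := by
    rw [mul_sum]
    refine sum_le_sum fun c _ => ?_
    rw [mul_left_comm]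
    exact mul_le_mul_of_nonneg_left ((hg c a).trans_eq (by rw [dst_comm])) (pk_pos a c).le
  have := mul_le_mul_of_nonneg_left (sum_pk_dst_le (u := u) hR a) hL
  linarith

end Vale.Agent.P249.AllD
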