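import Vale.Agent.P249.AllD.Crude
import Vale.Agent.P249.AllD.Kernel

/-!
# P249, every distortion: sizes and moduli of the block averages

Each level is within `32 amp` top radii of the point, and both the level and its deviation are
Lipschitz with constant a multiple of the block growth; only below the bottom radius of the block
does the plain distance enter.
-/

open Finset

namespace Vale.Agent.P249.AllD

namespace Blocks

noncomputable section

variable {ι : Type} [Fintype ι] {m : ℕ}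

/-! ## The norm -/

theorem nrm_le_of_le {p : ℝ} (hp : 0 < p) {x y : Fin m → ℝ} (h : ∀ ω, |x ω| ≤ y ω) :
    nrm p x ≤ nrm p y :=
  nrm_mono hp fun ω => (h ω).trans (le_abs_self _)

theorem nrm_abs (p : ℝ) (x : Fin m → ℝ) : nrm p (fun ω => |x ω|) = nrm p x := by
  simp [nrm]

theorem nrm_wsum_le {p : ℝ} (hp : 1 ≤ p) {β : Type*} (s : Finset β) (w : β → ℝ)
    (g : β → Fin m → ℝ) :
    nrm p (fun ω => ∑ c ∈ s, w c * g c ω) ≤ ∑ c ∈ s, |w c| * nrm p (g c) :=
  (nrm_sum_le hp s fun c ω => w c * g c ω).trans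
    (le_of_eq (sum_congr rfl fun c _ => nrm_smul (by linarith) _ _))

/-! ## Kernels -/

section kernels

variable {p : ℝ} (f : ι → Fin m → ℝ) {R0 : ℝ}

/-- the points in `ℓ_p^m` -/
abbrev pts (p : ℝ) (f : ι → Fin m → ℝ) : ι → PiLp (ENNReal.ofReal p) (fun _ : Fin m => ℝ) :=
  fun a => WithLp.toLp _ (f a)

omit [Fintype ι] in
theorem dst_pts (hp : 1 ≤ p) [Fact (1 ≤ ENNReal.ofReal p)] (a b : ι) :
    Scales.dst (pts p f) a b = dst p f a b := by
  have ht : (ENNReal.ofReal p).toReal = p := ENNReal.toReal_ofReal (by linarith)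
  rw [Scales.dst, PiLp.norm_eq_sum (by rw [ht]; linarith), ht, one_div]
  simp [pts, dst, nrm, Real.norm_eq_abs]

theorem bridge (hp : 1 ≤ p) [Fact (1 ≤ ENNReal.ofReal p)] (R0 : ℝ) (t : ℕ) (u c : ι) :
    ker p f R0 t u c = pk (pts p f) (Rad R0 t) u c ∧
      gro p f R0 t u = Scales.growth (pts p f) (Rad R0 t) u := by
  have hR : Rad R0 (t + 1) = 2 * Rad R0 t := by simp only [Rad, pow_succ]; ring
  constructor
  · simp only [ker, wgt, pk, Scales.Z, dst_pts f hp]
  · simp only [gro, wgt, Scales.growth, Scales.logZ, Scales.Z, dst_pts f hp, hR]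

theorem sum_ker_dst (hp : 1 ≤ p) (hR0 : 0 < R0) (t : ℕ) (u : ι) :
    ∑ c, ker p f R0 t u c * dst p f u c ≤ 2 * Rad R0 t * gro p f R0 t u := by
  have : Fact (1 ≤ ENNReal.ofReal p) := ⟨by simpa using hp⟩
  rw [(bridge f hp R0 t u u).2]
  refine le_trans (le_of_eq (sum_congr rfl fun c _ => ?_)) (sum_pk_dst_le (Rad_pos hR0 t) u)
  rw [(bridge f hp R0 t u c).1, dst_pts f hp]

theorem abs_ker_sub (hp : 1 ≤ p) (hR0 : 0 < R0) {t : ℕ} {u v : ι}
    (h : dst p f u v ≤ Rad R0 t) (c : ι) :
    |ker p f R0 t u c - ker p f R0 t v c|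
      ≤ 16 * (dst p f u v / Rad R0 t) * ker p f R0 t v c := by
  rw [abs_sub_comm, dst_comm p f u v]
  exact abs_ker_sub_le hp hR0 ((dst_comm p f v u).trans_le h) c

end kernels

section levels

variable {p : ℝ} {f : ι → Fin m → ℝ} {R0 lam : ℝ} {K B b : ℕ}

theorem gro_le_eight (hR0 : 0 < R0) (hlam : 4 ≤ lam) {t : ℕ} {u : ι}
    (h : gro p f R0 t u ≤ lam + 3) :
    gro p f R0 t u ≤ 8 * (gro p f R0 t u * eta p f R0 lam t u) := by
  have h8 : Real.exp 2 ≤ 8 := by
    rw [show (2 : ℝ) = 1 + 1 by norm_num, Real.exp_add]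
    nlinarith [(Real.exp_pos (1 : ℝ)).le, Real.exp_one_lt_d9]
  exact (gro_le_mul_eta hR0 hlam h).trans
    (mul_le_mul_of_nonneg_right h8 (mul_nonneg (gro_nonneg hR0 t u) (eta_pos t u).le))

theorem zed_block (h1 : 1 ≤ b) (h2 : b ≤ B) (u : ι) (ω : Fin m) :
    zed p f R0 lam K B b u ω
      = ∑ t ∈ blk K b, tim p f R0 lam K b t u * ∑ c, ker p f R0 t u c * f c ω := by
  rw [zed, if_neg (by omega), if_pos h2]

theorem amp_block (h1 : 1 ≤ b) (h2 : b ≤ B) (u : ι) :
    amp p f R0 lam K B b u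
      = ∑ t ∈ blk K b, (K : ℝ)⁻¹ * (gro p f R0 t u * eta p f R0 lam t u) := by
  rw [amp, if_pos ⟨h1, h2⟩, mul_sum]

theorem amp_nonneg (hR0 : 0 < R0) (b : ℕ) (u : ι) :
    0 ≤ amp p f R0 lam K B b u := by
  rw [amp]
  split
  · exact mul_nonneg (by positivity) (sum_nonneg fun t _ =>
      mul_nonneg (gro_nonneg hR0 t u) (eta_pos t u).le)
  · exact le_rfl

theorem card_blk (hb : 1 ≤ b) : (blk K b).card = K := by
  obtain ⟨c, rfl⟩ : ∃ c, b = c + 1 := ⟨b - 1, by omega⟩
  simp [blk, add_mul]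

theorem nrm_avg_dist (hp : 1 ≤ p) (w : ι → ℝ) (hw : ∀ c, 0 ≤ w c) (u : ι) (x : Fin m → ℝ) :
    nrm p (fun ω => ∑ c, w c * |f c ω - x ω|)
      ≤ ∑ c, w c * dst p f u c + (∑ c, w c) * nrm p (fun ω => f u ω - x ω) := by
  refine (nrm_wsum_le hp univ w fun c ω => |f c ω - x ω|).trans ?_
  rw [sum_mul, ← sum_add_distrib]
  refine sum_le_sum fun c _ => ?_
  rw [abs_of_nonneg (hw c), nrm_abs, ← mul_add]
  refine mul_le_mul_of_nonneg_left ?_ (hw c)
  have := nrm_add hp (fun ω => f c ω - f u ω) (fun ω => f u ω - x ω)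
  simp only [sub_add_sub_cancel] at this
  rw [dst_comm p f u c]
  exact this

theorem nrm_avg_self (hp : 1 ≤ p) (hR0 : 0 < R0) (t : ℕ) (u : ι) :
    nrm p (fun ω => ∑ c, ker p f R0 t u c * (f c ω - f u ω))
      ≤ 2 * Rad R0 t * gro p f R0 t u := by
  refine le_trans ?_ (sum_ker_dst f hp hR0 t u)
  refine (nrm_wsum_le hp univ _ fun c ω => f c ω - f u ω).trans (le_of_eq ?_)
  exact sum_congr rfl fun c _ => by rw [abs_of_nonneg (ker_pos t u c).le, dst_comm p f u c]; rfl

theorem avg_sub_eq (t : ℕ) (u : ι) (x : ℝ) (ω : Fin m) :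
    ∑ c, ker p f R0 t u c * (f c ω - x) = (∑ c, ker p f R0 t u c * f c ω) - x := by
  simp only [mul_sub, sum_sub_distrib, ← sum_mul, sum_ker, one_mul]

theorem nrm_zed_self (hp : 1 ≤ p) (hR0 : 0 < R0) (hlam : 4 ≤ lam)
    (hS : ∀ u, ∑ t ∈ blk K b, tim p f R0 lam K b t u = 1) (h1 : 1 ≤ b) (h2 : b ≤ B) (u : ι) :
    nrm p (fun ω => zed p f R0 lam K B b u ω - f u ω)
      ≤ 32 * Rad R0 (b * K) * amp p f R0 lam K B b u := by
  have e : ∀ ω, zed p f R0 lam K B b u ω - f u ω = ∑ t ∈ blk K b,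
      tim p f R0 lam K b t u * ∑ c, ker p f R0 t u c * (f c ω - f u ω) := fun ω => by
    simp only [avg_sub_eq]
    simp only [mul_sub, sum_sub_distrib, ← sum_mul, hS, one_mul, zed_block h1 h2]
  simp only [e]
  refine (nrm_wsum_le hp (blk K b) _ fun t ω => ∑ c, ker p f R0 t u c * (f c ω - f u ω)).trans ?_
  rw [amp_block h1 h2, mul_sum]
  refine sum_le_sum fun t ht => ?_
  have hg := gro_nonneg (p := p) (f := f) hR0 t u
  have hR := Rad_pos hR0 t
  have hRt : Rad R0 t ≤ Rad R0 (b * K) := Rad_mono hR0 (mem_Ico.1 ht).2.le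
  rw [abs_of_nonneg (tim_nonneg b t u)]
  by_cases h0 : tim p f R0 lam K b t u = 0
  · rw [h0, zero_mul]
    have := mul_nonneg hg (eta_pos (lam := lam) (p := p) (f := f) (R0 := R0) t u).le
    have := Rad_pos hR0 (b * K)
    positivity
  have h8 := gro_le_eight hR0 hlam (by linarith [gro_lt_of_tim_ne_zero h0])
  calc tim p f R0 lam K b t u * nrm p (fun ω => ∑ c, ker p f R0 t u c * (f c ω - f u ω))
      ≤ 2 / (K : ℝ) * (2 * Rad R0 (b * K) * (8 * (gro p f R0 t u * eta p f R0 lam t u))) :=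
        mul_le_mul (tim_le_two_div b t u) ((nrm_avg_self hp hR0 t u).trans (mul_le_mul
          (by linarith) h8 hg (by linarith [Rad_pos hR0 (b * K)]))) (nrm_nonneg _ _) (by positivity)
    _ = _ := by ring

theorem nrm_mom (hp : 1 ≤ p) (hR0 : 0 < R0) (hlam : 4 ≤ lam)
    (hS : ∀ u, ∑ t ∈ blk K b, tim p f R0 lam K b t u = 1) (h1 : 1 ≤ b) (h2 : b ≤ B) (t : ℕ) (u : ι) :
    nrm p (fun ω => ∑ c, ker p f R0 t u c * |f c ω - zed p f R0 lam K B b u ω|)
      ≤ 2 * Rad R0 t * gro p f R0 t u + 32 * Rad R0 (b * K) * amp p f R0 lam K B b u := by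
  refine (nrm_avg_dist hp _ (fun c => (ker_pos t u c).le) u _).trans ?_
  rw [sum_ker, one_mul]
  refine add_le_add (sum_ker_dst f hp hR0 t u) ?_
  rw [← nrm_neg]
  simp only [neg_sub]
  exact nrm_zed_self hp hR0 hlam hS h1 h2 u

theorem nrm_dev (hp : 1 ≤ p) (hR0 : 0 < R0) (hlam : 4 ≤ lam)
    (hS : ∀ u, ∑ t ∈ blk K b, tim p f R0 lam K b t u = 1) (hK : 1 ≤ K) (h1 : 1 ≤ b) (h2 : b ≤ B) (u : ι) :
    nrm p (dev p f R0 lam K B b u) ≤ 34 * Rad R0 (b * K) * amp p f R0 lam K B b u := by
  have e : ∀ ω, dev p f R0 lam K B b u ω = ∑ t ∈ blk K b,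
      ((K : ℝ)⁻¹ * (eta p f R0 lam t u * (Rad R0 t / Rad R0 (b * K)))) *
        ∑ c, ker p f R0 t u c * |f c ω - zed p f R0 lam K B b u ω| := fun ω => by
    rw [dev, if_pos ⟨h1, h2⟩, mul_sum]
    exact sum_congr rfl fun t _ => by ring
  rw [show dev p f R0 lam K B b u = _ from funext e]
  refine (nrm_wsum_le hp (blk K b) _
    fun t ω => ∑ c, ker p f R0 t u c * |f c ω - zed p f R0 lam K B b u ω|).trans ?_
  set A := amp p f R0 lam K B b u with hA
  set T := Rad R0 (b * K) with hT
  have hA0 : 0 ≤ A := amp_nonneg hR0 b u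
  have hT0 : 0 < T := Rad_pos hR0 _
  refine (sum_le_sum (g := fun t => 2 * T * ((K : ℝ)⁻¹ * (gro p f R0 t u * eta p f R0 lam t u))
    + (K : ℝ)⁻¹ * (32 * T * A)) fun t ht => ?_).trans ?_
  · have hRt : Rad R0 t / T ≤ 1 := (div_le_one hT0).2 (Rad_mono hR0 (mem_Ico.1 ht).2.le)
    have hR := Rad_pos hR0 t
    have hη := eta_pos (lam := lam) (p := p) (f := f) (R0 := R0) t u
    have hg := gro_nonneg (p := p) (f := f) hR0 t u
    have hη1 : eta p f R0 lam t u ≤ 1 := eta_le_one hR0 hlam t u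
    rw [abs_of_nonneg (by positivity)]
    refine (mul_le_mul_of_nonneg_left (nrm_mom hp hR0 hlam hS h1 h2 t u) (by positivity)).trans ?_
    have b1 : eta p f R0 lam t u * (Rad R0 t / T) * (2 * Rad R0 t * gro p f R0 t u)
        ≤ 2 * T * (gro p f R0 t u * eta p f R0 lam t u) := by
      have := mul_le_mul hRt (Rad_mono hR0 (mem_Ico.1 ht).2.le) hR.le zero_le_one
      rw [← hT, one_mul] at this
      have := mul_le_mul_of_nonneg_left this (mul_nonneg hη.le hg)
      linarith
    have b2 : eta p f R0 lam t u * (Rad R0 t / T) ≤ 1 :=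
      mul_le_one₀ hη1 (by positivity) hRt
    have b3 := mul_le_mul_of_nonneg_right b2 (show 0 ≤ 32 * T * A by positivity)
    have := mul_le_mul_of_nonneg_left (add_le_add b1 b3) (show (0 : ℝ) ≤ (K : ℝ)⁻¹ by positivity)
    linarith
  · rw [sum_add_distrib, ← mul_sum, ← amp_block h1 h2, ← hA, sum_const, card_blk h1, nsmul_eq_mul,
      ← mul_assoc (K : ℝ), mul_inv_cancel₀ (by positivity), one_mul]
    linarith

/-- the indicator of a distance above the bottom radius -/
def flag (p : ℝ) (f : ι → Fin m → ℝ) (R0 : ℝ) (K b : ℕ) (u v : ι) : ℝ :=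
  if b = 0 ∨ Rad R0 ((b - 1) * K) < dst p f u v then 1 else 0

omit [Fintype ι] in
theorem flag_nonneg (u v : ι) : 0 ≤ flag p f R0 K b u v := by
  rw [flag]; split <;> norm_num

theorem nrm_zed_sub (hp : 1 ≤ p) (hR0 : 0 < R0) (hlam : 4 ≤ lam)
    (hS : ∀ u, ∑ t ∈ blk K b, tim p f R0 lam K b t u = 1) (h1 : 1 ≤ b) (h2 : b ≤ B) (u v : ι) :
    nrm p (fun ω => zed p f R0 lam K B b u ω - zed p f R0 lam K B b v ω)
      ≤ dst p f u v * (512 * (amp p f R0 lam K B b u + amp p f R0 lam K B b v)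
          + flag p f R0 K b u v) := by
  set d := dst p f u v with hd
  let S : ℕ → ι → Fin m → ℝ := fun t x ω => ∑ c, ker p f R0 t x c * (f c ω - f x ω)
  let A : ℕ → Fin m → ℝ := fun t ω => tim p f R0 lam K b t u * S t u ω -
    tim p f R0 lam K b t v * ((∑ c, ker p f R0 t v c * f c ω) - f u ω)
  have e : ∀ ω, zed p f R0 lam K B b u ω - zed p f R0 lam K B b v ω = ∑ t ∈ blk K b, A t ω := by
    intro ω
    simp only [A, S, avg_sub_eq]
    simp only [mul_sub, sum_sub_distrib, ← sum_mul, hS, one_mul, zed_block h1 h2]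
    ring
  simp only [e]
  refine (nrm_sum_le hp (blk K b) A).trans ?_
  refine (sum_le_sum (g := fun t => 512 * d *
    ((K : ℝ)⁻¹ * (gro p f R0 t u * eta p f R0 lam t u) +
      (K : ℝ)⁻¹ * (gro p f R0 t v * eta p f R0 lam t v)) +
    d * flag p f R0 K b u v * tim p f R0 lam K b t v) fun t ht => ?_).trans ?_
  · have hR := Rad_pos hR0 t
    have hgu := gro_nonneg (p := p) (f := f) hR0 t u
    have hgv := gro_nonneg (p := p) (f := f) hR0 t v
    have hηu := eta_pos (lam := lam) (p := p) (f := f) (R0 := R0) t u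
    have hηv := eta_pos (lam := lam) (p := p) (f := f) (R0 := R0) t v
    have hd0 : 0 ≤ d := dst_nonneg _ _ _ _
    set tu := tim p f R0 lam K b t u with htu
    set tv := tim p f R0 lam K b t v with htv
    have htu0 : 0 ≤ tu := tim_nonneg b t u
    have htv0 : 0 ≤ tv := tim_nonneg b t v
    have hu8 : tu ≠ 0 → gro p f R0 t u ≤ 8 * (gro p f R0 t u * eta p f R0 lam t u) :=
      fun h => gro_le_eight hR0 hlam (by linarith [gro_lt_of_tim_ne_zero h])
    have hv8 : tv * gro p f R0 t v
        ≤ 2 / (K : ℝ) * (8 * (gro p f R0 t v * eta p f R0 lam t v)) := by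
      by_cases h : tv = 0
      · rw [h, zero_mul]; positivity
      · exact mul_le_mul (tim_le_two_div b t v)
          (gro_le_eight hR0 hlam (by linarith [gro_lt_of_tim_ne_zero h])) hgv (by positivity)
    by_cases hbig : d ≤ Rad R0 t
    · -- the weight and the kernel move
      have hA : ∀ ω, A t ω = (tu - tv) * S t u ω
          + tv * ∑ c, (ker p f R0 t u c - ker p f R0 t v c) * (f c ω - f v ω) := by
        intro ω
        simp only [A, S, sub_mul, mul_sub, sum_sub_distrib, ← sum_mul, sum_ker, one_mul, htu, htv]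
        ring
      rw [show A t = _ from funext hA]
      refine (nrm_add hp (fun ω => (tu - tv) * S t u ω) (fun ω => tv * ∑ c,
        (ker p f R0 t u c - ker p f R0 t v c) * (f c ω - f v ω))).trans ?_
      rw [nrm_smul (by linarith), nrm_smul (by linarith), abs_of_nonneg htv0]
      have hk : nrm p (fun ω => ∑ c, (ker p f R0 t u c - ker p f R0 t v c) * (f c ω - f v ω))
          ≤ 32 * d * gro p f R0 t v := by
        refine (nrm_wsum_le hp univ _ fun c ω => f c ω - f v ω).trans ((sum_le_sum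
          (g := fun c => 16 * (d / Rad R0 t) * (ker p f R0 t v c * dst p f v c))
          fun c _ => ?_).trans ?_)
        · rw [← mul_assoc, show nrm p (fun ω => f c ω - f v ω) = dst p f c v from rfl,
            dst_comm p f v c]
          exact mul_le_mul_of_nonneg_right (abs_ker_sub f hp hR0 hbig c) (dst_nonneg _ _ _ _)
        · rw [← mul_sum]
          refine (mul_le_mul_of_nonneg_left (sum_ker_dst f hp hR0 t v) (by positivity)).trans_eq ?_
          field_simp
          ring
      have h1' : |tu - tv| * nrm p (S t u)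
          ≤ (K : ℝ)⁻¹ * (256 * d * (gro p f R0 t u * eta p f R0 lam t u)) := by
        by_cases he : tu = tv
        · rw [he, sub_self, abs_zero, zero_mul]; positivity
        refine (mul_le_mul (abs_tim_sub_le hp hR0 b t u v) ((nrm_avg_self hp hR0 t u).trans
          (mul_le_mul_of_nonneg_left (gro_le_eight hR0 hlam (gro_le_of_tim_ne hp hR0 hbig he))
            (by linarith))) (nrm_nonneg _ _) (by positivity)).trans_eq ?_
        rw [← hd]
        field_simp
        ring
      have h2' := mul_le_mul_of_nonneg_left hk htv0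
      have h3 := mul_le_mul_of_nonneg_left hv8 (show 0 ≤ 32 * d by positivity)
      have h4 : 0 ≤ d * flag p f R0 K b u v * tv :=
        mul_nonneg (mul_nonneg hd0 (flag_nonneg u v)) htv0
      have h5 : 0 ≤ (K : ℝ)⁻¹ * (256 * d * (gro p f R0 t u * eta p f R0 lam t u)) := by positivity
      rw [div_eq_mul_inv] at h3
      linarith
    · -- both radii are below the distance
      have hflag : flag p f R0 K b u v = 1 := by
        rw [flag, if_pos (Or.inr ((Rad_mono hR0 (mem_Ico.1 ht).1).trans_lt (not_le.1 hbig)))]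
      have hA : ∀ ω, A t ω = tu * S t u ω + (-tv) * S t v ω + tv * (f u ω - f v ω) := by
        intro ω
        simp only [A, S, avg_sub_eq, htu, htv]
        ring
      rw [show A t = _ from funext hA]
      refine (nrm_add hp (fun ω => tu * S t u ω + (-tv) * S t v ω)
        (fun ω => tv * (f u ω - f v ω))).trans ?_
      refine (add_le_add ((nrm_add hp (fun ω => tu * S t u ω) fun ω => (-tv) * S t v ω)) le_rfl).trans ?_
      simp only [nrm_smul (show (0 : ℝ) < p by linarith), abs_neg, abs_of_nonneg htu0,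
        abs_of_nonneg htv0, hflag, mul_one]
      have hRd : Rad R0 t ≤ d := (not_le.1 hbig).le
      have hu2 : tu * nrm p (S t u)
          ≤ (K : ℝ)⁻¹ * (32 * d * (gro p f R0 t u * eta p f R0 lam t u)) := by
        by_cases h : tu = 0
        · rw [h, zero_mul]; positivity
        refine (mul_le_mul (tim_le_two_div b t u) ((nrm_avg_self hp hR0 t u).trans
          (mul_le_mul (by linarith : 2 * Rad R0 t ≤ 2 * d) (hu8 h) hgu (by linarith)))
          (nrm_nonneg _ _) (by positivity)).trans_eq ?_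
        ring
      have hv2 : tv * nrm p (S t v) ≤ tv * (2 * d * gro p f R0 t v) :=
        mul_le_mul_of_nonneg_left ((nrm_avg_self hp hR0 t v).trans
          (mul_le_mul_of_nonneg_right (by linarith) hgv)) htv0
      have h3 := mul_le_mul_of_nonneg_left hv8 (show 0 ≤ 2 * d by positivity)
      have h4 : nrm p (fun ω => f u ω - f v ω) = d := rfl
      rw [h4]
      rw [div_eq_mul_inv] at h3
      have h5 : 0 ≤ (K : ℝ)⁻¹ * (d * (gro p f R0 t u * eta p f R0 lam t u)) := by positivity
      have h6 : 0 ≤ (K : ℝ)⁻¹ * (d * (gro p f R0 t v * eta p f R0 lam t v)) := by positivity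
      linarith
  · rw [sum_add_distrib, ← mul_sum, sum_add_distrib, ← amp_block h1 h2, ← amp_block h1 h2,
      ← mul_sum, hS]
    ring_nf
    rfl

theorem nrm_dev_sub (hp : 1 ≤ p) (hR0 : 0 < R0) (hlam : 4 ≤ lam)
    (hS : ∀ u, ∑ t ∈ blk K b, tim p f R0 lam K b t u = 1) (hK : 1 ≤ K) (h1 : 1 ≤ b) (h2 : b ≤ B) (u v : ι) :
    nrm p (fun ω => dev p f R0 lam K B b u ω - dev p f R0 lam K B b v ω)
      ≤ dst p f u v * (1056 * (amp p f R0 lam K B b u + amp p f R0 lam K B b v)
          + flag p f R0 K b u v) := by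
  set d := dst p f u v with hd
  set T := Rad R0 (b * K) with hT
  have hT0 : 0 < T := Rad_pos hR0 _
  have hd0 : 0 ≤ d := dst_nonneg _ _ _ _
  let M : ℕ → ι → Fin m → ℝ := fun t x ω =>
    ∑ c, ker p f R0 t x c * |f c ω - zed p f R0 lam K B b x ω|
  let A : ℕ → Fin m → ℝ := fun t ω => (K : ℝ)⁻¹ * (Rad R0 t / T) *
    (eta p f R0 lam t u * M t u ω - eta p f R0 lam t v * M t v ω)
  have e : ∀ ω, dev p f R0 lam K B b u ω - dev p f R0 lam K B b v ω = ∑ t ∈ blk K b, A t ω := by
    intro ω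
    simp only [dev, if_pos (And.intro h1 h2), A, M, hT]
    rw [mul_sum, mul_sum, ← sum_sub_distrib]
    exact sum_congr rfl fun t _ => by ring
  simp only [e]
  refine (nrm_sum_le hp (blk K b) A).trans ?_
  set au := amp p f R0 lam K B b u with hau
  set av := amp p f R0 lam K B b v with hav
  have hau0 : 0 ≤ au := amp_nonneg hR0 b u
  have hav0 : 0 ≤ av := amp_nonneg hR0 b v
  set Z := nrm p (fun ω => zed p f R0 lam K B b u ω - zed p f R0 lam K B b v ω) with hZ
  have hZ0 : 0 ≤ Z := nrm_nonneg _ _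
  refine (sum_le_sum (g := fun t => 32 * d *
    ((K : ℝ)⁻¹ * (gro p f R0 t u * eta p f R0 lam t u) +
      (K : ℝ)⁻¹ * (gro p f R0 t v * eta p f R0 lam t v)) +
    (K : ℝ)⁻¹ * (512 * d * (au + av) + Z)) fun t ht => ?_).trans ?_
  · have hR := Rad_pos hR0 t
    have hgu := gro_nonneg (p := p) (f := f) hR0 t u
    have hgv := gro_nonneg (p := p) (f := f) hR0 t v
    set eu := eta p f R0 lam t u with heu
    set ev := eta p f R0 lam t v with hev
    have heu0 : 0 ≤ eu := (eta_pos t u).le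
    have hev0 : 0 ≤ ev := (eta_pos t v).le
    have heu1 : eu ≤ 1 := eta_le_one hR0 hlam t u
    have hev1 : ev ≤ 1 := eta_le_one hR0 hlam t v
    have hMu : nrm p (M t u) ≤ 2 * Rad R0 t * gro p f R0 t u + 32 * T * au :=
      nrm_mom hp hR0 hlam hS h1 h2 t u
    have hMv : nrm p (M t v) ≤ 2 * Rad R0 t * gro p f R0 t v + 32 * T * av :=
      nrm_mom hp hR0 hlam hS h1 h2 t v
    have hw : Rad R0 t / T ≤ 1 := (div_le_one hT0).2 (Rad_mono hR0 (mem_Ico.1 ht).2.le)
    have hKi : (0 : ℝ) ≤ (K : ℝ)⁻¹ := by positivity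
    have hsmul : nrm p (A t) = (K : ℝ)⁻¹ * (Rad R0 t / T *
        nrm p (fun ω => eu * M t u ω - ev * M t v ω)) := by
      simp only [A, nrm_smul (show (0 : ℝ) < p by linarith)]
      rw [abs_of_nonneg (by positivity)]
      ring
    rw [hsmul]
    rw [show 32 * d * ((K : ℝ)⁻¹ * (gro p f R0 t u * eu) + (K : ℝ)⁻¹ * (gro p f R0 t v * ev))
        + (K : ℝ)⁻¹ * (512 * d * (au + av) + Z)
      = (K : ℝ)⁻¹ * (32 * d * (gro p f R0 t u * eu + gro p f R0 t v * ev)
          + (512 * d * (au + av) + Z)) by ring]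
    refine mul_le_mul_of_nonneg_left ?_ hKi
    have hgeu : 0 ≤ gro p f R0 t u * eu := mul_nonneg hgu heu0
    have hgev : 0 ≤ gro p f R0 t v * ev := mul_nonneg hgv hev0
    -- one endpoint at a time
    have one : ∀ {G e S a : ℝ}, 0 ≤ G → 0 ≤ e → e ≤ 1 → 0 ≤ a → ∀ {s : ℝ}, 0 ≤ s →
        s * (Rad R0 t) ≤ d → S ≤ 2 * Rad R0 t * G + 32 * T * a →
        Rad R0 t / T * (s * (e * S)) ≤ 2 * d * (G * e) + 32 * d * a := by
      intro G e S a hG he he1 ha s hs hsd hS
      refine (mul_le_mul_of_nonneg_left (mul_le_mul_of_nonneg_left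
        (mul_le_mul_of_nonneg_left hS he) hs) (by positivity)).trans ?_
      have h1 : Rad R0 t / T * (s * Rad R0 t) ≤ d :=
        (mul_le_of_le_one_left (by positivity) hw).trans hsd
      have h2 : Rad R0 t / T * s * T = s * Rad R0 t := by field_simp
      have h3 := mul_le_mul_of_nonneg_right h1 (show 0 ≤ 2 * (G * e) by positivity)
      have h4 : s * Rad R0 t * e ≤ d := by
        exact (mul_le_of_le_one_right (by positivity) he1).trans hsd
      have h5 := mul_le_mul_of_nonneg_right h4 (show 0 ≤ 32 * a by positivity)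
      calc Rad R0 t / T * (s * (e * (2 * Rad R0 t * G + 32 * T * a)))
          = Rad R0 t / T * (s * Rad R0 t) * (2 * (G * e))
            + Rad R0 t / T * s * T * e * (32 * a) := by ring
        _ ≤ _ := by rw [h2]; linarith
    by_cases hbig : d ≤ Rad R0 t
    · have hs : d / Rad R0 t * Rad R0 t ≤ d := by rw [div_mul_cancel₀ _ hR.ne']
      have hs0 : 0 ≤ d / Rad R0 t := by positivity
      have hM : ∀ ω, |M t u ω - M t v ω| ≤ 16 * (d / Rad R0 t) * M t v ω
          + |zed p f R0 lam K B b u ω - zed p f R0 lam K B b v ω| := by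
        intro ω
        set zu := zed p f R0 lam K B b u ω
        set zv := zed p f R0 lam K B b v ω
        have e2 : M t u ω - M t v ω
            = ∑ c, (ker p f R0 t u c - ker p f R0 t v c) * |f c ω - zv|
              + ∑ c, ker p f R0 t u c * (|f c ω - zu| - |f c ω - zv|) := by
          simp only [M, sub_mul, mul_sub, sum_sub_distrib]
          ring
        rw [e2]
        refine (abs_add_le _ _).trans (add_le_add ?_ ?_)
        · refine (abs_sum_le_sum_abs _ _).trans ?_
          simp only [M, mul_sum]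
          refine sum_le_sum fun c _ => ?_
          rw [abs_mul, abs_abs, ← mul_assoc]
          exact mul_le_mul_of_nonneg_right (abs_ker_sub f hp hR0 hbig c) (abs_nonneg _)
        · refine (abs_sum_le_sum_abs _ _).trans ((sum_le_sum fun c _ => ?_).trans
            (le_of_eq (show ∑ c, ker p f R0 t u c * |zu - zv| = |zu - zv| by
              rw [← sum_mul, sum_ker, one_mul])))
          rw [abs_mul, abs_of_nonneg (ker_pos t u c).le]
          refine mul_le_mul_of_nonneg_left ((abs_abs_sub_abs_le_abs_sub _ _).trans_eq ?_)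
            (ker_pos t u c).le
          rw [sub_sub_sub_cancel_left, abs_sub_comm]
      have hM0 : ∀ x ω, 0 ≤ M t x ω := fun x ω =>
        sum_nonneg fun c _ => mul_nonneg (ker_pos t x c).le (abs_nonneg _)
      have hpt : ∀ ω, |eu * M t u ω - ev * M t v ω| ≤ d / Rad R0 t * eu * M t u ω
          + ev * (16 * (d / Rad R0 t)) * M t v ω
          + ev * |zed p f R0 lam K B b u ω - zed p f R0 lam K B b v ω| := by
        intro ω
        rw [show eu * M t u ω - ev * M t v ω
          = (eu - ev) * M t u ω + ev * (M t u ω - M t v ω) by ring]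
        refine (abs_add_le _ _).trans ?_
        rw [abs_mul, abs_mul, abs_of_nonneg (hM0 u ω), abs_of_nonneg hev0]
        have := mul_le_mul_of_nonneg_right (abs_eta_sub_le hp hR0 hlam hbig) (hM0 u ω)
        have := mul_le_mul_of_nonneg_left (hM ω) hev0
        linarith
      have hn := (nrm_le_of_le (p := p) (by linarith) hpt).trans ((nrm_add hp _ _).trans
        (add_le_add (nrm_add hp _ _) le_rfl))
      simp only [nrm_smul (show (0 : ℝ) < p by linarith), nrm_abs] at hn
      rw [abs_of_nonneg (by positivity), abs_of_nonneg (by positivity), abs_of_nonneg hev0,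
        ← hZ] at hn
      have h1' := one hgu heu0 heu1 hau0 hs0 hs hMu
      have h2' := one hgv hev0 hev1 hav0 hs0 hs hMv
      have h3' : Rad R0 t / T * (ev * Z) ≤ Z :=
        (mul_le_of_le_one_left (by positivity) hw).trans (mul_le_of_le_one_left hZ0 hev1)
      have := mul_le_mul_of_nonneg_left hn (show 0 ≤ Rad R0 t / T by positivity)
      have := mul_nonneg hd0 hau0
      have := mul_nonneg hd0 hgeu
      linarith
    · have hn : nrm p (fun ω => eu * M t u ω - ev * M t v ω)
          ≤ eu * nrm p (M t u) + ev * nrm p (M t v) := by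
        have := nrm_add hp (fun ω => eu * M t u ω) (fun ω => (-ev) * M t v ω)
        simp only [nrm_smul (show (0 : ℝ) < p by linarith), abs_neg, abs_of_nonneg heu0,
          abs_of_nonneg hev0] at this
        simpa [← sub_eq_add_neg] using this
      have hs : (1 : ℝ) * Rad R0 t ≤ d := by linarith
      have h1' := one hgu heu0 heu1 hau0 zero_le_one hs hMu
      have h2' := one hgv hev0 hev1 hav0 zero_le_one hs hMv
      have := mul_le_mul_of_nonneg_left hn (show 0 ≤ Rad R0 t / T by positivity)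
      have := mul_nonneg hd0 hau0
      have := mul_nonneg hd0 hav0
      have := mul_nonneg hd0 hgeu
      have := mul_nonneg hd0 hgev
      linarith
  · rw [sum_add_distrib, ← mul_sum, sum_add_distrib, ← amp_block h1 h2, ← amp_block h1 h2,
      sum_const, card_blk h1, nsmul_eq_mul, ← mul_assoc (K : ℝ),
      mul_inv_cancel₀ (by positivity), one_mul]
    have := nrm_zed_sub hp hR0 hlam hS h1 h2 u v
    rw [← hZ, ← hd, ← hau, ← hav] at this
    linarith

theorem amp_eq_zero (h : ¬ (1 ≤ b ∧ b ≤ B)) (u : ι) : amp p f R0 lam K B b u = 0 := by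
  rw [amp, if_neg h]

theorem dev_eq_zero (h : ¬ (1 ≤ b ∧ b ≤ B)) (u : ι) :
    dev p f R0 lam K B b u = fun _ => 0 := funext fun ω => by rw [dev, if_neg h]

/-- position and deviation of one level together -/
theorem nrm_level (hp : 1 ≤ p) (hR0 : 0 < R0) (hlam : 4 ≤ lam) (hK : 1 ≤ K)
    (hcard : 4 * Real.log (Fintype.card ι : ℝ) ≤ lam * (K : ℝ))
    (hdiam : ∀ u v, dst p f u v ≤ Rad R0 (B * K)) (b : ℕ) (u : ι) :
    nrm p (fun ω => zed p f R0 lam K B b u ω - f u ω) + nrm p (dev p f R0 lam K B b u)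
      ≤ 66 * Rad R0 (b * K) * amp p f R0 lam K B b u
        + (if B < b then Rad R0 (B * K) else 0) := by
  by_cases hb : 1 ≤ b ∧ b ≤ B
  · have hS := fun x => sum_tim (p := p) (f := f) (zero_lt_one.trans_le hp) hR0 hK hlam hcard hb.1 x
    rw [if_neg (by omega)]
    linarith [nrm_zed_self hp hR0 hlam hS hb.1 hb.2 u, nrm_dev hp hR0 hlam hS hK hb.1 hb.2 u]
  rw [amp_eq_zero hb, mul_zero, zero_add, dev_eq_zero hb, nrm_zero (by linarith), add_zero]
  by_cases h0 : b = 0
  · subst h0
    simp [zed, nrm_zero (show (0 : ℝ) < p by linarith)]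
  rw [if_pos (by omega)]
  have hn : (0 : ℝ) < Fintype.card ι := by exact_mod_cast Fintype.card_pos_iff.2 ⟨u⟩
  have e : ∀ ω, zed p f R0 lam K B b u ω - f u ω
      = ∑ c, (Fintype.card ι : ℝ)⁻¹ * (f c ω - f u ω) := fun ω => by
    rw [zed, if_neg h0, if_neg (by omega), ← mul_sum, sum_sub_distrib, mul_sub, sum_const,
      card_univ, nsmul_eq_mul, inv_mul_cancel_left₀ hn.ne']
  simp only [e]
  refine (nrm_wsum_le hp univ _ fun c ω => f c ω - f u ω).trans ?_
  refine (sum_le_sum (g := fun _ => (Fintype.card ι : ℝ)⁻¹ * Rad R0 (B * K)) fun c _ => ?_).trans ?_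
  · rw [abs_of_pos (inv_pos.2 hn)]
    exact mul_le_mul_of_nonneg_left (hdiam c u) (inv_pos.2 hn).le
  · rw [sum_const, card_univ, nsmul_eq_mul, mul_inv_cancel_left₀ hn.ne']

theorem size_clause (hp : 1 ≤ p) (hR0 : 0 < R0) (hlam : 4 ≤ lam) (hK : 1 ≤ K)
    (hcard : 4 * Real.log (Fintype.card ι : ℝ) ≤ lam * (K : ℝ))
    (hdiam : ∀ u v, dst p f u v ≤ Rad R0 (B * K)) (hb : b ≤ B) (u : ι) :
    nrm p (fun ω => |zed p f R0 lam K B b u ω - zed p f R0 lam K B (b + 1) u ω| +
        dev p f R0 lam K B b u ω + dev p f R0 lam K B (b + 1) u ω) ≤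
      66 * Rad R0 ((b + 1) * K) * (amp p f R0 lam K B b u + amp p f R0 lam K B (b + 1) u +
        (if b = B then 1 else 0)) := by
  have h1 := nrm_level hp hR0 hlam hK hcard hdiam b u
  have h2 := nrm_level hp hR0 hlam hK hcard hdiam (b + 1) u
  have hm := nrm_add hp (fun ω => zed p f R0 lam K B b u ω - f u ω)
    (fun ω => -(zed p f R0 lam K B (b + 1) u ω - f u ω))
  simp only [← sub_eq_add_neg, sub_sub_sub_cancel_right, nrm_neg] at hm
  refine (nrm_add hp (fun ω => |zed p f R0 lam K B b u ω - zed p f R0 lam K B (b + 1) u ω| +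
    dev p f R0 lam K B b u ω) (dev p f R0 lam K B (b + 1) u)).trans ?_
  refine (add_le_add (nrm_add hp (fun ω => |zed p f R0 lam K B b u ω -
    zed p f R0 lam K B (b + 1) u ω|) (dev p f R0 lam K B b u)) le_rfl).trans ?_
  rw [nrm_abs]
  have hT := Rad_mono hR0 (Nat.mul_le_mul_right K b.le_succ)
  have ha := amp_nonneg (p := p) (f := f) (lam := lam) (K := K) (B := B) hR0 b u
  have h3 := mul_le_mul_of_nonneg_right hT ha
  rw [if_neg (by omega)] at h1
  by_cases hB : b = B
  · subst hB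
    rw [if_pos rfl]
    rw [if_pos (Nat.lt_succ_self b)] at h2
    have := Rad_pos hR0 (Nat.succ b * K)
    linarith
  · rw [if_neg hB]
    rw [if_neg (by omega)] at h2
    linarith

theorem modulus_clause (hp : 1 ≤ p) (hR0 : 0 < R0) (hlam : 4 ≤ lam) (hK : 1 ≤ K)
    (hcard : 4 * Real.log (Fintype.card ι : ℝ) ≤ lam * (K : ℝ)) (b : ℕ) (u v : ι) :
    nrm p (fun ω => |zed p f R0 lam K B b u ω - zed p f R0 lam K B b v ω| +
        |dev p f R0 lam K B b u ω - dev p f R0 lam K B b v ω|) ≤
      1568 * dst p f u v * (amp p f R0 lam K B b u + amp p f R0 lam K B b v +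
        (if b = 0 ∨ Rad R0 ((b - 1) * K) < dst p f u v then 1 else 0)) := by
  have hd := dst_nonneg p f u v
  have hfl : (0 : ℝ) ≤ flag p f R0 K b u v := flag_nonneg u v
  change _ ≤ _ * (_ + _ + flag p f R0 K b u v)
  refine (nrm_add hp _ _).trans ?_
  rw [nrm_abs, nrm_abs]
  have hau := amp_nonneg (p := p) (f := f) (lam := lam) (K := K) (B := B) hR0 b u
  have hav := amp_nonneg (p := p) (f := f) (lam := lam) (K := K) (B := B) hR0 b v
  by_cases hb : 1 ≤ b ∧ b ≤ B
  · have hS := fun x => sum_tim (p := p) (f := f) (zero_lt_one.trans_le hp) hR0 hK hlam hcard hb.1 x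
    have := mul_nonneg hd hfl
    linarith [nrm_zed_sub hp hR0 hlam hS hb.1 hb.2 u v, nrm_dev_sub hp hR0 hlam hS hK hb.1 hb.2 u v]
  rw [amp_eq_zero hb, amp_eq_zero hb, dev_eq_zero hb, dev_eq_zero hb]
  simp only [sub_zero, zero_add, nrm_zero (show (0 : ℝ) < p by linarith), add_zero]
  by_cases h0 : b = 0
  · subst h0
    rw [flag, if_pos (Or.inl rfl), mul_one]
    simp only [zed, ↓reduceIte]
    rw [show nrm p (fun ω => f u ω - f v ω) = dst p f u v from rfl]
    linarith
  · simp only [zed, if_neg h0, if_neg (show ¬ b ≤ B by omega), sub_self,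
      nrm_zero (show (0 : ℝ) < p by linarith)]
    positivity

end levels

end

end Blocks

theorem blockPin : BlockPin := by
  refine ⟨max 1568 (288 * Real.exp 2 + 33), le_max_of_le_left (by norm_num), ?_⟩
  intro p hp ι _ _ m f R0 lam K B hR0 hK _ hlam hcard hdiam
  refine ⟨fun b u => Blocks.amp_nonneg hR0 b u, fun b u ω => dev_nonneg hR0 K B b u ω,
    fun b hb u => ?_, fun b _ u v => ?_, fun b hb1 hbB u v hd ω => ?_⟩
  · refine (Blocks.size_clause hp hR0 hlam hK hcard hdiam hb u).trans ?_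
    refine mul_le_mul_of_nonneg_right (mul_le_mul_of_nonneg_right
      (le_max_of_le_left (by norm_num)) (Rad_pos hR0 _).le) ?_
    exact add_nonneg (add_nonneg (Blocks.amp_nonneg hR0 _ u) (Blocks.amp_nonneg hR0 _ u))
      (by split <;> norm_num)
  · refine (Blocks.modulus_clause hp hR0 hlam hK hcard b u v).trans ?_
    refine mul_le_mul_of_nonneg_right (mul_le_mul_of_nonneg_right (le_max_left _ _)
      (dst_nonneg _ _ _ _)) ?_
    exact add_nonneg (add_nonneg (Blocks.amp_nonneg hR0 _ u) (Blocks.amp_nonneg hR0 _ v))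
      (by split <;> norm_num)
  · refine (crude_clause hp hR0 hK hlam hcard hb1 hbB hd ω).trans ?_
    exact mul_le_mul_of_nonneg_right (mul_le_mul_of_nonneg_right (mul_le_mul_of_nonneg_right
      (le_max_right _ _) (by positivity)) (div_nonneg (dst_nonneg _ _ _ _) (Rad_pos hR0 _).le))
      (dev_nonneg hR0 K B b u ω)

end Vale.Agent.P249.AllD
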