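import Vale.Agent.P249.AllD.Time

/-!
# P249, every distortion: the crude modulus of a block

Below the bottom radius of a block, block average and block deviation move by at most
`C 2 ^ K (d / R)` times the deviation at one end, at every coordinate.
-/

open Finset

namespace Vale.Agent.P249.AllD

noncomputable section

variable {ι : Type*} [Fintype ι] {m : ℕ} {p : ℝ} {f : ι → Fin m → ℝ} {R0 lam : ℝ}

theorem dev_nonneg (hR : 0 < R0) (K B b : ℕ) (u : ι) (ω : Fin m) :
    0 ≤ dev p f R0 lam K B b u ω := by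
  rw [dev]
  split
  · exact mul_nonneg (by positivity) (sum_nonneg fun t _ =>
      mul_nonneg (mul_nonneg (eta_pos t u).le (div_nonneg (Rad_pos hR t).le (Rad_pos hR _).le))
        (sum_nonneg fun c _ => mul_nonneg (ker_pos t u c).le (abs_nonneg _)))
  · exact le_rfl

/-- averaged against two kernels a function changes by at most `16 d / R` of its mean size -/
theorem abs_sum_ker_sub_le (hp : 1 ≤ p) (hR : 0 < R0) {t : ℕ} {u v : ι}
    (hd : dst p f u v ≤ Rad R0 t) (g : ι → ℝ) :
    |∑ c, ker p f R0 t v c * g c - ∑ c, ker p f R0 t u c * g c| ≤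
      16 * (dst p f u v / Rad R0 t) * ∑ c, ker p f R0 t u c * |g c| := by
  rw [← sum_sub_distrib, mul_sum]
  refine (abs_sum_le_sum_abs _ _).trans (sum_le_sum fun c _ => ?_)
  rw [← sub_mul, abs_mul, abs_sub_comm, ← mul_assoc]
  exact mul_le_mul_of_nonneg_right (abs_ker_sub_le hp hR hd c) (abs_nonneg _)

/-- The last clause of `BlockPin`. -/
theorem crude_clause (hp : 1 ≤ p) (hR : 0 < R0) {K B : ℕ} (hK : 1 ≤ K) (hlam : 4 ≤ lam)
    (hcard : 4 * Real.log (Fintype.card ι : ℝ) ≤ lam * (K : ℝ)) {b : ℕ} (hb1 : 1 ≤ b)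
    (hbB : b ≤ B) {u v : ι} (hd : dst p f u v ≤ Rad R0 ((b - 1) * K)) (ω : Fin m) :
    |zed p f R0 lam K B b u ω - zed p f R0 lam K B b v ω| +
        |dev p f R0 lam K B b u ω - dev p f R0 lam K B b v ω| ≤
      (288 * Real.exp 2 + 33) * 2 ^ K * (dst p f u v / Rad R0 ((b - 1) * K)) *
        dev p f R0 lam K B b u ω := by
  have hp0 : 0 < p := by linarith
  have hK0 : (0 : ℝ) < K := by exact_mod_cast hK
  have hbK : (b - 1) * K + K = b * K := by
    rw [← Nat.succ_mul, Nat.succ_eq_add_one, Nat.sub_add_cancel hb1]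
  set Rb := Rad R0 ((b - 1) * K) with hRb
  set Rt := Rad R0 (b * K) with hRt
  have hRb0 : 0 < Rb := Rad_pos hR _
  have hRt0 : 0 < Rt := Rad_pos hR _
  have hRtb : Rt = Rb * 2 ^ K := by rw [hRt, hRb, ← Rad_add, hbK]
  have hdev0 := dev_nonneg (p := p) (f := f) (lam := lam) hR K B b u ω
  set z := zed p f R0 lam K B b u ω with hz
  set z' := zed p f R0 lam K B b v ω with hz'
  set Dv := dev p f R0 lam K B b u ω with hDv
  set M : ℕ → ι → ℝ := fun t a => ∑ c, ker p f R0 t a c * |f c ω - zed p f R0 lam K B b a ω| with hM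
  have hM0 : ∀ t a, 0 ≤ M t a := fun t a =>
    sum_nonneg fun c _ => mul_nonneg (ker_pos t a c).le (abs_nonneg _)
  set Y := dst p f u v / Rb with hY
  have hY0 : 0 ≤ Y := div_nonneg (dst_nonneg p f u v) hRb0.le
  have hmem : ∀ t ∈ blk K b, (b - 1) * K ≤ t ∧ t < b * K := fun t ht => by
    simpa [blk] using ht
  have hdt : ∀ t ∈ blk K b, dst p f u v ≤ Rad R0 t := fun t ht =>
    hd.trans (Rad_mono hR (hmem t ht).1)
  have hdevEq : ∀ a, dev p f R0 lam K B b a ω =
      (K : ℝ)⁻¹ * ∑ t ∈ blk K b, eta p f R0 lam t a * (Rad R0 t / Rt) * M t a := fun a => by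
    rw [dev, if_pos ⟨hb1, hbB⟩]
  have hMle : ∀ t ∈ blk K b, gro p f R0 t u ≤ lam + 3 →
      M t u ≤ Real.exp 2 * (K : ℝ) * (Rt / Rad R0 t) * Dv := by
    intro t ht hg
    have hRt' := Rad_pos (R0 := R0) hR t
    have h1 : Real.exp (-2) * (Rad R0 t / Rt) * M t u ≤ (K : ℝ) * Dv := by
      rw [hDv, hdevEq u, ← mul_assoc, mul_inv_cancel₀ hK0.ne', one_mul]
      refine le_trans ?_ (single_le_sum
        (fun s _ => mul_nonneg (mul_nonneg (eta_pos s u).le
          (div_nonneg (Rad_pos hR s).le hRt0.le)) (hM0 s u)) ht)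
      exact mul_le_mul_of_nonneg_right (mul_le_mul_of_nonneg_right
        (exp_neg_two_le_eta hlam hg) (div_nonneg hRt'.le hRt0.le)) (hM0 t u)
    calc M t u = Real.exp 2 * (Rt / Rad R0 t) * (Real.exp (-2) * (Rad R0 t / Rt) * M t u) := by
          rw [Real.exp_neg]
          field_simp
      _ ≤ Real.exp 2 * (Rt / Rad R0 t) * ((K : ℝ) * Dv) :=
          mul_le_mul_of_nonneg_left h1 (by positivity)
      _ = _ := by ring
  -- the average
  have hterm : ∀ t ∈ blk K b,
      |tim p f R0 lam K b t v * (∑ c, ker p f R0 t v c * (f c ω - z)) -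
        tim p f R0 lam K b t u * (∑ c, ker p f R0 t u c * (f c ω - z))| ≤
      48 * Real.exp 2 * Dv * Rt * Y * (Rad R0 t)⁻¹ := by
    intro t ht
    have hRt' := Rad_pos (R0 := R0) hR t
    set tu := tim p f R0 lam K b t u with htu
    set tv := tim p f R0 lam K b t v with htv
    set Pu := ∑ c, ker p f R0 t u c * (f c ω - z)
    set Pv := ∑ c, ker p f R0 t v c * (f c ω - z)
    have hnn : 0 ≤ 48 * Real.exp 2 * Dv * Rt * Y * (Rad R0 t)⁻¹ := by positivity
    rcases lt_or_ge (lam + 3) (gro p f R0 t u) with hg | hg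
    · have h1 : tu = 0 := by
        by_contra h
        linarith [gro_lt_of_tim_ne_zero h]
      have h2 : tv = 0 := by
        by_contra h
        exact absurd (gro_le_of_tim_ne hp hR (hdt t ht)
          (show tu ≠ tv from h1 ▸ Ne.symm h)) (not_le.2 hg)
      simp [h1, h2, hnn]
    have hPu : |Pu| ≤ M t u := by
      refine (abs_sum_le_sum_abs _ _).trans (le_of_eq (sum_congr rfl fun c _ => ?_))
      rw [abs_mul, abs_of_pos (ker_pos t u c), hz]
    have hdP : |Pv - Pu| ≤ 16 * (dst p f u v / Rad R0 t) * M t u := by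
      simpa only [hM, ← hz] using abs_sum_ker_sub_le hp hR (hdt t ht) fun c => f c ω - z
    have htv : |tv| ≤ 2 / (K : ℝ) := by
      rw [abs_of_nonneg (tim_nonneg b t v)]
      exact tim_le_two_div b t v
    have hdt2 : |tv - tu| ≤ 16 * (dst p f u v / ((K : ℝ) * Rad R0 t)) := by
      rw [abs_sub_comm]
      exact abs_tim_sub_le hp hR b t u v
    have hd0 := dst_nonneg p f u v
    calc |tv * Pv - tu * Pu| = |(tv - tu) * Pu + tv * (Pv - Pu)| := by
          congr 1
          ring
      _ ≤ 16 * (dst p f u v / ((K : ℝ) * Rad R0 t)) * M t u +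
          2 / (K : ℝ) * (16 * (dst p f u v / Rad R0 t) * M t u) := by
          refine (abs_add_le _ _).trans (add_le_add ?_ ?_)
          · rw [abs_mul]
            exact mul_le_mul hdt2 hPu (abs_nonneg _) (by positivity)
          · rw [abs_mul]
            exact mul_le_mul htv hdP (abs_nonneg _) (by positivity)
      _ = 48 * (dst p f u v / Rad R0 t) / (K : ℝ) * M t u := by
          field_simp
          ring
      _ ≤ 48 * (dst p f u v / Rad R0 t) / (K : ℝ) *
          (Real.exp 2 * (K : ℝ) * (Rt / Rad R0 t) * Dv) :=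
          mul_le_mul_of_nonneg_left (hMle t ht hg) (by positivity)
      _ = 48 * Real.exp 2 * Dv * Rt * (dst p f u v / Rad R0 t) * (Rad R0 t)⁻¹ := by
          field_simp
      _ ≤ _ := by
          have h1 : dst p f u v / Rad R0 t ≤ Y :=
            div_le_div_of_nonneg_left hd0 hRb0 (Rad_mono hR (hmem t ht).1)
          gcongr
  have hzw : ∀ a w, zed p f R0 lam K B b a ω - w =
      ∑ t ∈ blk K b, tim p f R0 lam K b t a * ∑ c, ker p f R0 t a c * (f c ω - w) := by
    intro a w
    simp only [mul_sub, sum_sub_distrib, ← sum_mul, sum_ker, one_mul]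
    rw [sum_tim hp0 hR hK hlam hcard hb1, one_mul, zed, if_neg (by omega), if_pos hbB]
  have hdz : |z - z'| ≤ 96 * Real.exp 2 * 2 ^ K * Y * Dv := by
    have h1 : z' - z = ∑ t ∈ blk K b,
        (tim p f R0 lam K b t v * (∑ c, ker p f R0 t v c * (f c ω - z)) -
          tim p f R0 lam K b t u * (∑ c, ker p f R0 t u c * (f c ω - z))) := by
      rw [sum_sub_distrib, ← hzw, ← hzw, ← hz, ← hz']
      ring
    rw [abs_sub_comm, h1]
    refine ((abs_sum_le_sum_abs _ _).trans (sum_le_sum hterm)).trans ?_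
    rw [← mul_sum]
    refine (mul_le_mul_of_nonneg_left (sum_inv_Rad_le hR ((b - 1) * K) (b * K))
      (by positivity)).trans_eq ?_
    rw [← hRb, hRtb]
    field_simp
    ring
  -- the deviation
  have hMv : ∀ t ∈ blk K b, |M t v - M t u| ≤ 16 * Y * M t u + |z - z'| := by
    intro t ht
    have h1 : |(∑ c, ker p f R0 t v c * |f c ω - z|) - M t u| ≤ 16 * Y * M t u := by
      refine (abs_sum_ker_sub_le hp hR (hdt t ht) fun c => |f c ω - z|).trans ?_
      simp only [abs_abs]
      exact mul_le_mul_of_nonneg_right (mul_le_mul_of_nonneg_left (div_le_div_of_nonneg_left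
        (dst_nonneg p f u v) hRb0 (Rad_mono hR (hmem t ht).1)) (by norm_num)) (hM0 t u)
    have h2 : |M t v - (∑ c, ker p f R0 t v c * |f c ω - z|)| ≤ |z - z'| := by
      simp only [hM, ← sum_sub_distrib, ← mul_sub]
      refine (abs_sum_le_sum_abs _ _).trans (le_trans
        (sum_le_sum (g := fun c => ker p f R0 t v c * |z - z'|) fun c _ => ?_)
        (le_of_eq (by rw [← sum_mul, sum_ker, one_mul])))
      rw [abs_mul, abs_of_pos (ker_pos t v c)]
      refine mul_le_mul_of_nonneg_left ((abs_abs_sub_abs_le_abs_sub _ _).trans_eq ?_)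
        (ker_pos t v c).le
      rw [← hz', sub_sub_sub_cancel_left]
    have h3 := abs_sub_le (M t v) (∑ c, ker p f R0 t v c * |f c ω - z|) (M t u)
    linarith
  have hdd : |Dv - dev p f R0 lam K B b v ω| ≤ 33 * Y * Dv + 2 * |z - z'| := by
    rw [abs_sub_comm, hdevEq v, hDv, hdevEq u, ← mul_sub, ← sum_sub_distrib, abs_mul,
      abs_of_pos (inv_pos.2 hK0)]
    have h1 : ∀ t ∈ blk K b, |eta p f R0 lam t v * (Rad R0 t / Rt) * M t v -
        eta p f R0 lam t u * (Rad R0 t / Rt) * M t u| ≤
        33 * Y * (eta p f R0 lam t u * (Rad R0 t / Rt) * M t u) + 2 * |z - z'| := by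
      intro t ht
      set r := Rad R0 t / Rt with hr
      have hr0 : 0 ≤ r := div_nonneg (Rad_pos hR t).le hRt0.le
      have hr1 : r ≤ 1 := (div_le_one hRt0).2 (Rad_mono hR (hmem t ht).2.le)
      set eu := eta p f R0 lam t u
      set ev := eta p f R0 lam t v
      have he0 : 0 < eu := eta_pos t u
      have he1 : eu ≤ 1 := eta_le_one hR hlam t u
      have hde : |ev - eu| ≤ Y * eu := by
        rw [abs_sub_comm]
        exact (abs_eta_sub_le hp hR hlam (hdt t ht)).trans (mul_le_mul_of_nonneg_right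
          (div_le_div_of_nonneg_left (dst_nonneg p f u v) hRb0 (Rad_mono hR (hmem t ht).1)) he0.le)
      have hev : |ev| ≤ 2 * eu := by
        rw [abs_of_pos (eta_pos t v)]
        exact eta_le_two_mul hp hR hlam (hdt t ht)
      calc |ev * r * M t v - eu * r * M t u| = |(ev - eu) * M t u + ev * (M t v - M t u)| * r := by
            rw [← abs_of_nonneg hr0, ← abs_mul, abs_of_nonneg hr0]
            congr 1
            ring
        _ ≤ (Y * eu * M t u + 2 * eu * (16 * Y * M t u + |z - z'|)) * r := by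
            refine mul_le_mul_of_nonneg_right ((abs_add_le _ _).trans (add_le_add ?_ ?_)) hr0
            · rw [abs_mul, abs_of_nonneg (hM0 t u)]
              exact mul_le_mul_of_nonneg_right hde (hM0 t u)
            · rw [abs_mul]
              exact mul_le_mul hev (hMv t ht) (abs_nonneg _) (by linarith)
        _ = 33 * Y * (eu * r * M t u) + 2 * (eu * r) * |z - z'| := by ring
        _ ≤ _ := by
            linarith [mul_le_of_le_one_left (abs_nonneg (z - z'))
              (mul_le_one₀ he1 hr0 hr1)]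
    refine (mul_le_mul_of_nonneg_left ((abs_sum_le_sum_abs _ _).trans (sum_le_sum h1))
      (inv_nonneg.2 hK0.le)).trans_eq ?_
    rw [sum_add_distrib, ← mul_sum, sum_const, blk, Nat.card_Ico, ← hbK, add_tsub_cancel_left,
      nsmul_eq_mul]
    field_simp
  have hpow : (1 : ℝ) ≤ 2 ^ K := one_le_pow₀ one_le_two
  have h3 : 33 * Y * Dv ≤ 33 * 2 ^ K * Y * Dv := by
    have := mul_le_mul_of_nonneg_right hpow (mul_nonneg hY0 hdev0)
    linarith
  linarith

end

end Vale.Agent.P249.AllD
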