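import Vale.Agent.P249.AllD.Base

/-!
# P249, every distortion: the diagonal lemma

With `x = G K / (4 L)`, the power mean inside a block turns the normalised block growth into
`(G / 4 L) x ^ (p - 1) exp (-p x)`, whose sum over doubling block lengths is bounded; this is where
`p > 1` is used.
-/

open Finset

namespace Vale.Agent.P249.AllD

noncomputable section

theorem sum_small_scales {s u : ℝ} (hs : 0 < s) (hu : 0 ≤ u) (Q : ℕ) :
    ∑ i ∈ range Q, (if u * 2 ^ i ≤ 1 then (u * 2 ^ i) ^ s else 0) ≤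
      min ((2 : ℝ) ^ s) ((u * 2 ^ Q) ^ s) / ((2 : ℝ) ^ s - 1) := by
  have hr : 1 < (2 : ℝ) ^ s := Real.one_lt_rpow one_lt_two hs
  induction Q with
  | zero =>
    rw [sum_range_zero]
    exact div_nonneg (le_min (by positivity) (Real.rpow_nonneg (by positivity) _)) (by linarith)
  | succ Q ih =>
    have hx : 0 ≤ (u * 2 ^ Q) ^ s := Real.rpow_nonneg (by positivity) _
    have e : (u * 2 ^ (Q + 1)) ^ s = (2 : ℝ) ^ s * (u * 2 ^ Q) ^ s := by
      rw [pow_succ, ← mul_assoc, Real.mul_rpow (by positivity) (by norm_num), mul_comm]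
    rw [le_div_iff₀ (by linarith), le_min_iff] at ih
    rw [sum_range_succ, le_div_iff₀ (by linarith), le_min_iff, e]
    by_cases hc : u * 2 ^ Q ≤ 1
    · have := Real.rpow_le_one (by positivity) hc hs.le
      rw [if_pos hc]
      constructor <;> nlinarith
    · rw [if_neg hc, add_zero]
      constructor <;> nlinarith

theorem sum_large_scales {u : ℝ} (hu : 0 ≤ u) (Q : ℕ) :
    ∑ i ∈ range Q, (if u * 2 ^ i ≤ 1 then 0 else (u * 2 ^ i)⁻¹) ≤
      2 - 2 * min 1 (u * 2 ^ Q)⁻¹ ∧
    ∑ i ∈ range Q, (if u * 2 ^ i ≤ 1 then 0 else (u * 2 ^ i)⁻¹) ≤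
      if u * 2 ^ Q ≤ 1 then 0 else 2 := by
  induction Q with
  | zero => constructor <;> simp <;> split <;> norm_num
  | succ Q ih =>
    obtain ⟨h1, h2⟩ := ih
    have hy : 0 ≤ u * 2 ^ Q := by positivity
    have e : (u * 2 ^ (Q + 1))⁻¹ = (u * 2 ^ Q)⁻¹ / 2 := by
      rw [pow_succ, ← mul_assoc, mul_inv, div_eq_mul_inv]
    rw [sum_range_succ]
    by_cases hc : u * 2 ^ Q ≤ 1
    · rw [if_pos hc] at h2 ⊢
      constructor
      · linarith [min_le_left (1 : ℝ) (u * 2 ^ (Q + 1))⁻¹]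
      · split <;> linarith
    · have h3 : (u * 2 ^ Q)⁻¹ ≤ 1 := inv_le_one_of_one_le₀ (not_le.1 hc).le
      rw [min_eq_right h3] at h1
      have h4 : 0 ≤ (u * 2 ^ Q)⁻¹ := inv_nonneg.2 hy
      have hc' : ¬u * 2 ^ (Q + 1) ≤ 1 := fun h => hc (le_trans (by
        rw [pow_succ, ← mul_assoc]; linarith) h)
      rw [if_neg hc, if_neg hc', e, min_eq_right (by linarith)]
      constructor <;> linarith

theorem sum_profile_le {p u : ℝ} (hp : 1 < p) (hu : 0 ≤ u) (Q : ℕ) :
    ∑ i ∈ range Q, (u * 2 ^ i) ^ (p - 1) * Real.exp (-(p * (u * 2 ^ i))) ≤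
      (2 : ℝ) ^ (p - 1) / ((2 : ℝ) ^ (p - 1) - 1) + 2 := by
  have hs : 0 < p - 1 := by linarith
  have hr : 1 < (2 : ℝ) ^ (p - 1) := Real.one_lt_rpow one_lt_two hs
  have h1 : (2 : ℝ) - 2 * min 1 (u * 2 ^ Q)⁻¹ ≤ 2 := by
    linarith [le_min zero_le_one (inv_nonneg.2 (by positivity : (0 : ℝ) ≤ u * 2 ^ Q))]
  have hy : ∀ i : ℕ, 0 ≤ u * 2 ^ i := fun i => by positivity
  refine le_trans (sum_le_sum fun i _ => ?_) (sum_add_distrib.trans_le (add_le_add
    ((sum_small_scales hs hu Q).trans (div_le_div_of_nonneg_right (min_le_left _ _) (by linarith)))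
    ((sum_large_scales hu Q).1.trans h1)))
  generalize hyi : u * 2 ^ i = y
  have hy0 : 0 ≤ y := hyi ▸ hy i
  split
  · rw [add_zero]
    refine mul_le_of_le_one_right (Real.rpow_nonneg hy0 _) (Real.exp_le_one_iff.2 ?_)
    nlinarith
  · rename_i hc
    have hy1 : 0 < y := by linarith [not_le.1 hc]
    rw [zero_add, inv_eq_one_div, le_div_iff₀ hy1, mul_right_comm, ← Real.rpow_add_one hy1.ne',
      sub_add_cancel, show -(p * y) = -y * p by ring, Real.exp_mul,
      ← Real.mul_rpow hy0 (Real.exp_pos _).le]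
    refine Real.rpow_le_one (by positivity) ?_ (by linarith)
    rw [Real.exp_neg, ← div_eq_mul_inv, div_le_one (Real.exp_pos y)]
    linarith [Real.add_one_le_exp y]

theorem diagPin : DiagPin := by
  intro p hp
  have hr : 1 < (2 : ℝ) ^ (p - 1) := Real.one_lt_rpow one_lt_two (by linarith)
  set c := (2 : ℝ) ^ (p - 1) / ((2 : ℝ) ^ (p - 1) - 1) + 2
  have hc : 0 ≤ c := add_nonneg (div_nonneg (by positivity) (by linarith)) zero_le_two
  refine ⟨c, hc, fun G L hL hG hsum Q K0 hK0 B => ?_⟩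
  set T := ∑ i ∈ range Q, B i * (K0 * 2 ^ i)
  set u : ℕ → ℝ := fun t => G t * K0 / (4 * L) with hu
  have hu0 : ∀ t, 0 ≤ u t := fun t =>
    div_nonneg (mul_nonneg (hG t) (Nat.cast_nonneg _)) (by linarith)
  set h : ℕ → ℕ → ℝ := fun i t =>
    G t / (4 * L) * ((u t * 2 ^ i) ^ (p - 1) * Real.exp (-(p * (u t * 2 ^ i)))) with hh
  have hh0 : ∀ i t, 0 ≤ h i t := fun i t => mul_nonneg (div_nonneg (hG t) (by linarith))
    (mul_nonneg (Real.rpow_nonneg (mul_nonneg (hu0 t) (by positivity)) _) (Real.exp_pos _).le)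
  have key : ∀ i ∈ range Q, ∑ b ∈ Icc 1 (B i),
      (((K0 * 2 ^ i : ℕ) : ℝ)⁻¹ * (∑ t ∈ blk (K0 * 2 ^ i) b,
          G t * Real.exp (-(G t / (4 * L / ((K0 * 2 ^ i : ℕ) : ℝ))))) /
        (4 * L / ((K0 * 2 ^ i : ℕ) : ℝ))) ^ p ≤ ∑ t ∈ range T, h i t := by
    intro i hi
    set K := K0 * 2 ^ i with hK
    have hK1 : 1 ≤ K := Nat.one_le_iff_ne_zero.2 (by positivity)
    have hK0' : (0 : ℝ) < K := by exact_mod_cast hK1
    have hblock : ∀ b ∈ Icc 1 (B i), ((K : ℝ)⁻¹ * (∑ t ∈ blk K b,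
        G t * Real.exp (-(G t / (4 * L / (K : ℝ))))) / (4 * L / (K : ℝ))) ^ p ≤
        ∑ t ∈ blk K b, h i t := by
      intro b hb
      have hb1 := (mem_Icc.1 hb).1
      set w : ℕ → ℝ := fun t => G t * K / (4 * L) with hw
      have hw0 : ∀ t, 0 ≤ w t := fun t =>
        div_nonneg (mul_nonneg (hG t) (Nat.cast_nonneg _)) (by linarith)
      have hcard : (blk K b).card = K := by
        rw [blk, Nat.card_Ico, ← Nat.sub_mul, Nat.sub_sub_self hb1, one_mul]
      have e1 : (K : ℝ)⁻¹ * (∑ t ∈ blk K b, G t * Real.exp (-(G t / (4 * L / (K : ℝ))))) /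
          (4 * L / (K : ℝ)) = ∑ t ∈ blk K b, (K : ℝ)⁻¹ * (w t * Real.exp (-w t)) := by
        rw [mul_sum, sum_div]
        refine sum_congr rfl fun t _ => ?_
        simp only [hw, div_div_eq_mul_div]
        field_simp
      rw [e1]
      refine (Real.rpow_arith_mean_le_arith_mean_rpow _ _ _ (fun _ _ => inv_nonneg.2 hK0'.le)
        (by rw [sum_const, hcard, nsmul_eq_mul, mul_inv_cancel₀ hK0'.ne'])
        (fun t _ => mul_nonneg (hw0 t) (Real.exp_pos _).le) hp.le).trans
        (le_of_eq (sum_congr rfl fun t _ => ?_))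
      have e2 : u t * 2 ^ i = w t := by simp only [hu, hw, hK]; push_cast; ring
      simp only [hh, e2]
      rw [Real.mul_rpow (hw0 t) (Real.exp_pos _).le, ← Real.exp_mul,
        show -w t * p = -(p * w t) by ring]
      rcases (hG t).eq_or_lt with h0 | h0
      · simp [hw, ← h0, Real.zero_rpow (by linarith : p ≠ 0)]
      · have hwp : 0 < w t := by
          simp only [hw]
          positivity
        rw [show p = p - 1 + 1 by ring, Real.rpow_add_one hwp.ne', add_sub_cancel_right]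
        simp only [hw]
        field_simp
    refine (sum_le_sum hblock).trans ?_
    have hdisj : Set.PairwiseDisjoint (↑(Icc 1 (B i))) (blk K) := by
      intro a ha b hb hab
      simp only [coe_Icc, Set.mem_Icc] at ha hb
      simp only [Function.onFun, disjoint_left, blk, mem_Ico]
      intro t hta htb
      rcases Nat.lt_or_gt_of_ne hab with hlt | hlt
      · have := Nat.mul_le_mul_right K (Nat.le_sub_one_of_lt hlt)
        omega
      · have := Nat.mul_le_mul_right K (Nat.le_sub_one_of_lt hlt)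
        omega
    rw [← sum_biUnion hdisj]
    refine sum_le_sum_of_subset_of_nonneg (fun t ht => ?_) fun t _ _ => hh0 i t
    obtain ⟨b, hb, ht⟩ := mem_biUnion.1 ht
    simp only [blk, mem_Ico] at ht
    refine mem_range.2 (lt_of_lt_of_le ht.2 ?_)
    exact (Nat.mul_le_mul_right K (mem_Icc.1 hb).2).trans
      (single_le_sum (f := fun i => B i * (K0 * 2 ^ i)) (fun _ _ => Nat.zero_le _) hi)
  refine (sum_le_sum key).trans ?_
  rw [sum_comm]
  calc ∑ t ∈ range T, ∑ i ∈ range Q, h i t ≤ ∑ t ∈ range T, G t / (4 * L) * c := by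
        refine sum_le_sum fun t _ => ?_
        simp only [hh, ← mul_sum]
        exact mul_le_mul_of_nonneg_left (sum_profile_le hp (hu0 t) Q)
          (div_nonneg (hG t) (by linarith))
    _ ≤ 1 * c := by
        rw [← sum_mul, ← sum_div]
        exact mul_le_mul_of_nonneg_right
          ((div_le_one (by linarith)).2 (by linarith [hsum T])) hc
    _ = c := one_mul c

end

end Vale.Agent.P249.AllD
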