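import Vale.Agent.P249.AllD.Base
import Vale.Agent.P249.Scales.RandomMax

/-!
# P249, all distortions: hashing one layer

Coordinates are kept with rate `μ ^ p`, scaled, and thrown into `N` buckets. Unless some pair keeps
too many coordinates, and then the map is zero, there is a collision with probability `O(S² / N)`.
-/

open Finset

namespace Vale.Agent.P249.AllD

open Vale.Agent.P249.Scales (prob prob_nonneg sum_prob sum_prob_kept sum_prob_prod sum_rpow_le)

variable {ι : Type*} [Fintype ι] {m N : ℕ}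

/-- the coordinates of the pair that are kept -/
noncomputable def keptSet (g : ι → Fin m → ℝ) (σ : Fin m → Bool) (a b : ι) : Finset (Fin m) :=
  ({ω | g a ω - g b ω ≠ 0} : Finset (Fin m)).filter fun ω => σ ω

open Classical in
/-- the bucket map -/
noncomputable def bucket (g : ι → Fin m → ℝ) (c K : ℝ) (σ : Fin m → Bool) (h : Fin m → Fin N)
    (a : ι) (j : Fin N) : ℝ :=
  if ∀ u v, ((keptSet g σ u v).card : ℝ) ≤ K then
    c * ∑ ω ∈ univ.filter (fun ω => σ ω ∧ h ω = j), g a ω
  else 0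

theorem bucket_sub (g : ι → Fin m → ℝ) (c K : ℝ) (σ : Fin m → Bool) (h : Fin m → Fin N) (a b : ι)
    (j : Fin N) (hK : ∀ u v, ((keptSet g σ u v).card : ℝ) ≤ K) :
    bucket g c K σ h a j - bucket g c K σ h b j
      = c * ∑ ω ∈ (keptSet g σ a b).filter (fun ω => h ω = j), (g a ω - g b ω) := by
  classical
  simp only [bucket, if_pos hK, ← mul_sub, ← sum_sub_distrib]
  congr 1
  refine (sum_subset (fun ω hω => ?_) fun ω hω hne => ?_).symm
  · simp only [keptSet, mem_filter, mem_univ, true_and] at hω ⊢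
    exact ⟨hω.1.2, hω.2⟩
  · simp only [keptSet, mem_filter, mem_univ, true_and] at hω hne
    by_contra h0
    exact hne ⟨⟨h0, hω.1⟩, hω.2⟩

/-- two coordinates share a bucket with probability `1 / N` -/
theorem card_collide {ω ω' : Fin m} (hne : ω ≠ ω') (N : ℕ) :
    ((univ.filter fun h : Fin m → Fin N => h ω = h ω').card : ℝ) * N = (N : ℝ) ^ m := by
  classical
  have e : {h : Fin m → Fin N // h ω = h ω'} ≃ ({i : Fin m // i ≠ ω'} → Fin N) :=
    { toFun := fun h i => h.1 i.1
      invFun := fun u => ⟨fun i => if hi : i = ω' then u ⟨ω, hne⟩ else u ⟨i, hi⟩, by simp [hne]⟩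
      left_inv := fun h => by
        ext i
        by_cases hi : i = ω'
        · subst hi; simp [h.2]
        · simp [hi]
      right_inv := fun u => by
        funext i
        simp [i.2] }
  have h1 := Fintype.card_congr e
  rw [Fintype.card_subtype, Fintype.card_fun, Fintype.card_subtype_compl, Fintype.card_fin,
    Fintype.card_subtype_eq, Fintype.card_fin] at h1
  rw [h1]
  push_cast
  rw [← pow_succ]
  congr 1
  have := ω.2
  omega

/-- Plain sums in `N` buckets keep the sum of powers up to the collisions. -/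
theorem hash_error {p : ℝ} (hp : 1 ≤ p) (A : Finset (Fin m)) (x : Fin m → ℝ) {R : ℝ} (hN : 0 < N)
    (hR : ∑ ω ∈ A, |x ω| ≤ R) :
    (∀ h : Fin m → Fin N, ∑ j, |∑ ω ∈ A.filter (fun ω => h ω = j), x ω| ^ p ≤ R ^ p) ∧
      ∑ h : Fin m → Fin N, ((N : ℝ) ^ m)⁻¹ *
        |(∑ j, |∑ ω ∈ A.filter (fun ω => h ω = j), x ω| ^ p) - ∑ ω ∈ A, |x ω| ^ p|
        ≤ (A.card : ℝ) ^ 2 / N * R ^ p := by
  classical
  have hp0 : 0 < p := by linarith
  have hS0 : 0 ≤ ∑ ω ∈ A, |x ω| := sum_nonneg fun ω _ => abs_nonneg _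
  have hB : (∑ ω ∈ A, |x ω|) ^ p ≤ R ^ p := Real.rpow_le_rpow hS0 hR hp0.le
  have hworst : ∀ h : Fin m → Fin N,
      ∑ j, |∑ ω ∈ A.filter (fun ω => h ω = j), x ω| ^ p ≤ R ^ p := fun h => by
    refine (sum_le_sum fun j _ => Real.rpow_le_rpow (abs_nonneg _)
      (abs_sum_le_sum_abs _ _) hp0.le).trans ?_
    refine (sum_rpow_le univ (fun j _ => sum_nonneg fun ω _ => abs_nonneg _) hp).trans ?_
    rwa [sum_fiberwise]
  refine ⟨hworst, ?_⟩
  -- the collision event carries all the error
  have hzero : ∀ h : Fin m → Fin N, Set.InjOn h (A : Set (Fin m)) →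
      ∑ j, |∑ ω ∈ A.filter (fun ω => h ω = j), x ω| ^ p = ∑ ω ∈ A, |x ω| ^ p := by
    intro h hinj
    rw [← sum_fiberwise A h fun ω => |x ω| ^ p]
    refine sum_congr rfl fun j _ => ?_
    rcases (A.filter fun ω => h ω = j).eq_empty_or_nonempty with h0 | ⟨i, hi⟩
    · simp [h0, Real.zero_rpow hp0.ne']
    · have : (A.filter fun ω => h ω = j) = {i} := by
        refine eq_singleton_iff_unique_mem.2 ⟨hi, fun i' hi' => ?_⟩
        simp only [mem_filter] at hi hi'
        exact hinj hi'.1 hi.1 (hi'.2.trans hi.2.symm)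
      simp [this]
  have hpt : ∀ h : Fin m → Fin N,
      |(∑ j, |∑ ω ∈ A.filter (fun ω => h ω = j), x ω| ^ p) - ∑ ω ∈ A, |x ω| ^ p|
        ≤ (∑ q ∈ A.offDiag, if h q.1 = h q.2 then (1 : ℝ) else 0) * R ^ p := by
    intro h
    have hnn : ∀ q ∈ A.offDiag, (0 : ℝ) ≤ if h q.1 = h q.2 then 1 else 0 := fun q _ => by
      split <;> norm_num
    have hR0 : 0 ≤ R ^ p := Real.rpow_nonneg (hS0.trans hR) _
    by_cases hinj : Set.InjOn h (A : Set (Fin m))
    · rw [hzero h hinj, sub_self, abs_zero]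
      exact mul_nonneg (sum_nonneg hnn) hR0
    · simp only [Set.InjOn, not_forall] at hinj
      obtain ⟨u, hu, v, hv, huv, hne⟩ := hinj
      have h1 : (1 : ℝ) ≤ ∑ q ∈ A.offDiag, if h q.1 = h q.2 then 1 else 0 :=
        le_trans (by simp [huv]) (single_le_sum (f := fun q => if h q.1 = h q.2 then (1 : ℝ) else 0)
          hnn (show (u, v) ∈ A.offDiag from mem_offDiag.2 ⟨hu, hv, hne⟩))
      refine le_trans (abs_sub_le_of_nonneg_of_le (sum_nonneg fun j _ =>
        Real.rpow_nonneg (abs_nonneg _) _) (hworst h) (sum_nonneg fun ω _ =>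
        Real.rpow_nonneg (abs_nonneg _) _) ?_) (le_mul_of_one_le_left hR0 h1)
      exact (sum_rpow_le A (fun ω _ => abs_nonneg _) hp).trans hB
  have hN' : (0 : ℝ) < N := Nat.cast_pos.2 hN
  refine (sum_le_sum fun h _ => mul_le_mul_of_nonneg_left (hpt h) (by positivity)).trans ?_
  simp only [← mul_assoc, ← sum_mul, mul_sum]
  rw [sum_comm]
  refine mul_le_mul_of_nonneg_right ?_ (Real.rpow_nonneg (hS0.trans hR) _)
  have key : ∀ q ∈ A.offDiag,
      ∑ h : Fin m → Fin N, ((N : ℝ) ^ m)⁻¹ * (if h q.1 = h q.2 then 1 else 0) = (N : ℝ)⁻¹ := by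
    intro q hq
    have h1 := card_collide (mem_offDiag.1 hq).2.2 N
    rw [← mul_sum, sum_boole]
    field_simp
    linarith
  rw [sum_congr rfl key, sum_const, nsmul_eq_mul, ← div_eq_mul_inv]
  gcongr
  rw [offDiag_card]
  calc ((A.card * A.card - A.card : ℕ) : ℝ) ≤ ((A.card * A.card : ℕ) : ℝ) :=
        Nat.cast_le.2 (Nat.sub_le _ _)
    _ = _ := by push_cast; ring

/-- one layer -/
theorem hash_layer {p : ℝ} (hp : 1 ≤ p) (g : ι → Fin m → ℝ) (D : ι → ι → ℝ) {μ S : ℝ}
    (hμ : 0 < μ) (hS : 0 ≤ S) (hD : ∀ a b, 0 ≤ D a b)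
    (hμb : ∀ a b ω, |g a ω - g b ω| ≤ μ * D a b) (h2b : ∀ a b ω, |g a ω - g b ω| ≤ 2 * D a b)
    (hsupp : ∀ a b, μ ^ p * ({ω | g a ω - g b ω ≠ 0} : Finset (Fin m)).card ≤ S) (hN : 0 < N) :
    ∃ (w : (Fin m → Bool) × (Fin m → Fin N) → ℝ)
      (F : (Fin m → Bool) × (Fin m → Fin N) → ι → Fin N → ℝ),
      (∀ i, 0 ≤ w i) ∧ ∑ i, w i = 1 ∧
      (∀ i a b, ∑ j, |F i a j - F i b j| ^ p ≤ (8 * S) ^ p * D a b ^ p) ∧
      ∀ a b, |(∑ i, w i * ∑ j, |F i a j - F i b j| ^ p) - ∑ ω, |g a ω - g b ω| ^ p| ≤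
        ((4 * S) ^ 2 * (8 * S) ^ p / N +
          (Fintype.card ι : ℝ) ^ 2 * Real.exp (-2 * S) * (m * (2 : ℝ) ^ p)) * D a b ^ p := by
  classical
  have hp0 : 0 < p := by linarith
  set r : ℝ := min 1 (μ ^ p) with hr
  have hμp : 0 < μ ^ p := Real.rpow_pos_of_pos hμ _
  have hr0 : 0 < r := lt_min one_pos hμp
  have hr1 : r ≤ 1 := min_le_left _ _
  set c : ℝ := (r ^ p⁻¹)⁻¹ with hc
  have hc0 : 0 < c := inv_pos.2 (Real.rpow_pos_of_pos hr0 _)
  have hcp : c ^ p = r⁻¹ := by
    rw [hc, Real.inv_rpow (Real.rpow_nonneg hr0.le _), ← Real.rpow_mul hr0.le,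
      inv_mul_cancel₀ hp0.ne', Real.rpow_one]
  have hscale : ∀ a b ω, c * |g a ω - g b ω| ≤ 2 * D a b := by
    intro a b ω
    rcases le_total 1 (μ ^ p) with h | h
    · have : c = 1 := by simp [hc, hr, min_eq_left h]
      rw [this, one_mul]
      exact h2b a b ω
    · have : c = μ⁻¹ := by
        rw [hc, hr, min_eq_right h, ← Real.rpow_mul hμ.le, mul_inv_cancel₀ hp0.ne', Real.rpow_one]
      rw [this, inv_mul_le_iff₀ hμ]
      nlinarith [hμb a b ω, hD a b]
  let w : (Fin m → Bool) × (Fin m → Fin N) → ℝ :=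
    fun i => prob (fun _ => r) i.1 * ((N : ℝ) ^ m)⁻¹
  have hP0 : ∀ σ, 0 ≤ prob (fun _ : Fin m => r) σ :=
    prob_nonneg (fun _ => hr0.le) (fun _ => hr1)
  have hN' : (0 : ℝ) < N := Nat.cast_pos.2 hN
  have hone : ∑ _h : Fin m → Fin N, ((N : ℝ) ^ m)⁻¹ = 1 := by
    simp [mul_inv_cancel₀ (pow_ne_zero m hN'.ne')]
  refine ⟨w, fun i => bucket g c (4 * S) i.1 i.2, fun i => mul_nonneg (hP0 _) (by positivity),
    by rw [Fintype.sum_prod_type]; simp only [w, ← mul_sum, hone, mul_one]; exact sum_prob _,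
    ?_, ?_⟩
  all_goals
    set G : (Fin m → Bool) → Prop := fun σ => ∀ u v, ((keptSet g σ u v).card : ℝ) ≤ 4 * S with hG
  · intro i a b
    by_cases hg : G i.1
    · simp only [bucket_sub g c _ i.1 i.2 a b _ hg, mul_sum]
      refine ((hash_error hp (keptSet g i.1 a b) (fun ω => c * (g a ω - g b ω)) hN
        (R := 8 * S * D a b) ?_).1 i.2).trans (le_of_eq (Real.mul_rpow (by linarith) (hD a b)))
      refine (sum_le_card_nsmul _ _ (2 * D a b) fun ω _ => ?_).trans ?_
      · rw [abs_mul, abs_of_pos hc0]; exact hscale a b ω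
      · rw [nsmul_eq_mul]
        nlinarith [hg a b, hD a b]
    · have hz : ∀ u j, bucket g c (4 * S) i.1 i.2 u j = 0 := fun u j => if_neg hg
      simp only [hz, sub_zero, abs_zero, Real.zero_rpow hp0.ne', sum_const_zero]
      exact mul_nonneg (Real.rpow_nonneg (by linarith) _) (Real.rpow_nonneg (hD a b) _)
  · intro a b
    set P := prob (fun _ : Fin m => r) with hP
    set sup : Finset (Fin m) := {ω | g a ω - g b ω ≠ 0} with hsup
    set kept : (Fin m → Bool) → ℝ :=
      fun σ => ∑ ω ∈ keptSet g σ a b, |c * (g a ω - g b ω)| ^ p with hkept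
    have hEkept : ∑ σ, P σ * kept σ = ∑ ω, |g a ω - g b ω| ^ p := by
      have e : ∀ σ, P σ * kept σ
          = ∑ ω, r⁻¹ * |g a ω - g b ω| ^ p * (P σ * (if σ ω then 1 else 0)) := by
        intro σ
        simp only [hkept, keptSet, mul_sum, sum_filter]
        refine sum_congr rfl fun ω _ => ?_
        simp only [abs_mul, abs_of_pos hc0, Real.mul_rpow hc0.le (abs_nonneg _), hcp]
        by_cases h0 : g a ω - g b ω = 0
        · simp [h0, Real.zero_rpow hp0.ne']
        · rw [if_pos h0]; split <;> ring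
      simp only [e]
      rw [sum_comm]
      refine sum_congr rfl fun ω _ => ?_
      rw [← mul_sum, hP, sum_prob_kept, mul_right_comm, inv_mul_cancel₀ hr0.ne', one_mul]
    -- too many kept coordinates are rare
    have hbad : ∑ σ, P σ * (if G σ then 0 else 1)
        ≤ (Fintype.card ι : ℝ) ^ 2 * Real.exp (-2 * S) := by
      have h1 : ∀ σ, (if G σ then (0 : ℝ) else 1)
          ≤ ∑ uv : ι × ι, Real.exp (((keptSet g σ uv.1 uv.2).card : ℝ) - 4 * S) := by
        intro σ
        split_ifs with h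
        · exact sum_nonneg fun _ _ => (Real.exp_pos _).le
        · simp only [hG, not_forall, not_le] at h
          obtain ⟨u, v, huv⟩ := h
          refine le_trans ?_ (single_le_sum (f := fun uv : ι × ι =>
            Real.exp (((keptSet g σ uv.1 uv.2).card : ℝ) - 4 * S))
            (fun _ _ => (Real.exp_pos _).le) (mem_univ (u, v)))
          exact Real.one_le_exp (by simp only; linarith)
      refine (sum_le_sum fun σ _ => mul_le_mul_of_nonneg_left (h1 σ) (hP0 σ)).trans ?_
      simp only [mul_sum]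
      rw [sum_comm]
      refine (sum_le_card_nsmul _ _ (Real.exp (-2 * S)) fun uv _ => ?_).trans
        (le_of_eq (by rw [card_univ, Fintype.card_prod, nsmul_eq_mul]; push_cast; ring))
      set s : Finset (Fin m) := {ω | g uv.1 ω - g uv.2 ω ≠ 0} with hs
      have e : ∀ σ, P σ * Real.exp (((keptSet g σ uv.1 uv.2).card : ℝ) - 4 * S)
          = Real.exp (-(4 * S)) *
            (P σ * ∏ ω, if ω ∈ s ∧ σ ω = true then Real.exp 1 else 1) := by
        intro σ
        have hcard : keptSet g σ uv.1 uv.2 = univ.filter fun ω => ω ∈ s ∧ σ ω = true := by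
          ext ω; simp [keptSet, hs]
        rw [← prod_filter, prod_const, ← Real.exp_nat_mul, mul_one, ← hcard, sub_eq_add_neg,
          Real.exp_add]
        ring
      simp only [e, ← mul_sum]
      rw [sum_prob_prod (fun _ : Fin m => r)
        (fun ω b => if ω ∈ s ∧ b = true then Real.exp 1 else 1)]
      have h2 : ∏ ω : Fin m, (r * (if ω ∈ s ∧ true = true then Real.exp 1 else 1) +
          (1 - r) * (if ω ∈ s ∧ false = true then Real.exp 1 else 1))
          ≤ ∏ ω : Fin m, Real.exp (if ω ∈ s then r * 2 else 0) := by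
        refine prod_le_prod (fun ω _ => ?_) fun ω _ => ?_
        · by_cases h : ω ∈ s <;> simp only [h, and_true, and_false, true_and, false_and,
            Bool.false_eq_true, if_true, if_false] <;> nlinarith [Real.exp_pos 1]
        · by_cases h : ω ∈ s
          · simp only [h, and_true, true_and, Bool.false_eq_true, if_true, if_false]
            have := Real.add_one_le_exp (r * 2)
            nlinarith [Real.exp_one_lt_d9]
          · simp [h]
      refine (mul_le_mul_of_nonneg_left h2 (Real.exp_pos _).le).trans ?_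
      rw [← Real.exp_sum, ← Real.exp_add, Real.exp_le_exp, ← sum_filter, sum_const, nsmul_eq_mul,
        filter_univ_mem]
      have h3 : r * (s.card : ℝ) ≤ μ ^ p * s.card :=
        mul_le_mul_of_nonneg_right (min_le_right _ _) (Nat.cast_nonneg _)
      linarith [hsupp uv.1 uv.2, hs]
    -- one selection at a time
    have hinner : ∀ σ, |(∑ h : Fin m → Fin N, ((N : ℝ) ^ m)⁻¹ *
          ∑ j, |bucket g c (4 * S) σ h a j - bucket g c (4 * S) σ h b j| ^ p) - kept σ|
        ≤ (4 * S) ^ 2 * (8 * S) ^ p / N * D a b ^ p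
          + (if G σ then 0 else 1) * (m * (2 : ℝ) ^ p * D a b ^ p) := by
      intro σ
      have hk0 : 0 ≤ kept σ := sum_nonneg fun ω _ => Real.rpow_nonneg (abs_nonneg _) _
      have hD0 := Real.rpow_nonneg (hD a b) p
      by_cases hg : G σ
      · rw [if_pos hg, zero_mul, add_zero]
        have hR : ∑ ω ∈ keptSet g σ a b, |c * (g a ω - g b ω)| ≤ 8 * S * D a b := by
          refine (sum_le_card_nsmul _ _ (2 * D a b) fun ω _ => ?_).trans ?_
          · rw [abs_mul, abs_of_pos hc0]; exact hscale a b ω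
          · rw [nsmul_eq_mul]
            nlinarith [hg a b, hD a b]
        obtain ⟨-, h2⟩ := hash_error hp (keptSet g σ a b) (fun ω => c * (g a ω - g b ω)) hN hR
        simp only [bucket_sub g c _ σ _ a b _ hg, mul_sum]
        have e : kept σ = ∑ h : Fin m → Fin N, ((N : ℝ) ^ m)⁻¹ * kept σ := by
          rw [← sum_mul, hone, one_mul]
        rw [e, ← sum_sub_distrib]
        refine (abs_sum_le_sum_abs _ _).trans ?_
        refine le_trans (le_of_eq (sum_congr rfl fun h _ => ?_)) (h2.trans ?_)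
        · have h0 : (0 : ℝ) ≤ ((N : ℝ) ^ m)⁻¹ := by positivity
          simp only [← mul_sum, ← mul_sub, abs_mul, abs_of_nonneg h0, hkept]
        · rw [Real.mul_rpow (by linarith) (hD a b)]
          have : ((keptSet g σ a b).card : ℝ) ^ 2 ≤ (4 * S) ^ 2 :=
            pow_le_pow_left₀ (Nat.cast_nonneg _) (hg a b) 2
          have h8 : 0 ≤ (8 * S) ^ p := Real.rpow_nonneg (by linarith) _
          calc ((keptSet g σ a b).card : ℝ) ^ 2 / N * ((8 * S) ^ p * D a b ^ p)
              ≤ (4 * S) ^ 2 / N * ((8 * S) ^ p * D a b ^ p) := by gcongr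
            _ = _ := by ring
      · have hz : ∀ h u j, bucket (N := N) g c (4 * S) σ h u j = 0 := fun h u j => if_neg hg
        simp only [hz, sub_zero, abs_zero, Real.zero_rpow hp0.ne', sum_const_zero, mul_zero,
          zero_sub, abs_neg, abs_of_nonneg hk0, if_neg hg, one_mul]
        have : kept σ ≤ m * (2 : ℝ) ^ p * D a b ^ p := by
          refine (sum_le_card_nsmul _ _ ((2 * D a b) ^ p) fun ω _ => ?_).trans ?_
          · refine Real.rpow_le_rpow (abs_nonneg _) ?_ hp0.le
            rw [abs_mul, abs_of_pos hc0]; exact hscale a b ω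
          · rw [nsmul_eq_mul, Real.mul_rpow zero_le_two (hD a b), ← mul_assoc]
            gcongr
            exact_mod_cast (card_le_univ _).trans_eq (Fintype.card_fin m)
        have : 0 ≤ (4 * S) ^ 2 * (8 * S) ^ p / N * D a b ^ p :=
          mul_nonneg (div_nonneg (mul_nonneg (sq_nonneg _) (Real.rpow_nonneg (by linarith) _))
            hN'.le) hD0
        linarith
    have e : ∀ σ, ∑ h : Fin m → Fin N, w (σ, h) *
          ∑ j, |bucket g c (4 * S) σ h a j - bucket g c (4 * S) σ h b j| ^ p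
        = P σ * ∑ h : Fin m → Fin N, ((N : ℝ) ^ m)⁻¹ *
          ∑ j, |bucket g c (4 * S) σ h a j - bucket g c (4 * S) σ h b j| ^ p := fun σ => by
      rw [mul_sum]
      exact sum_congr rfl fun h _ => mul_assoc _ _ _
    rw [Fintype.sum_prod_type, ← hEkept, ← sum_sub_distrib]
    simp only [e, ← mul_sub]
    refine (abs_sum_le_sum_abs _ _).trans ?_
    refine (sum_le_sum (g := fun σ => P σ * ((4 * S) ^ 2 * (8 * S) ^ p / N * D a b ^ p
      + (if G σ then 0 else 1) * (m * (2 : ℝ) ^ p * D a b ^ p))) fun σ _ => ?_).trans ?_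
    · rw [abs_mul, abs_of_nonneg (hP0 σ)]
      exact mul_le_mul_of_nonneg_left (hinner σ) (hP0 σ)
    simp only [mul_add, sum_add_distrib, ← sum_mul, ← mul_assoc]
    rw [hP, sum_prob, one_mul, add_mul]
    refine add_le_add le_rfl ?_
    rw [← hP]
    have := mul_le_mul_of_nonneg_right hbad
      (by positivity : (0 : ℝ) ≤ m * (2 : ℝ) ^ p)
    calc _ = (∑ σ, P σ * (if G σ then 0 else 1)) * (m * (2 : ℝ) ^ p) * D a b ^ p := by ring
      _ ≤ _ := by
        have h := mul_le_mul_of_nonneg_right this (Real.rpow_nonneg (hD a b) p)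
        linarith

end Vale.Agent.P249.AllD
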