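import Vale.Agent.P249.AllD.Assembly
import Vale.Agent.P249.AllD.Hash

/-!
# P249, all distortions: from layers to the theorem

The layers are hashed one by one; the mixture over layers and hash seeds is then sampled.
-/

open Finset MeasureTheory Filter Topology

namespace Vale.Agent.P249.AllD

/-- a power is beaten by the exponential of any positive power -/
theorem tendsto_pow_mul_exp_rpow {a : ℝ} (ha : 0 < a) (j : ℕ) :
    Tendsto (fun n : ℕ => (n : ℝ) ^ j * Real.exp (-2 * (n : ℝ) ^ a)) atTop (𝓝 0) := by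
  have h1 : Tendsto (fun n : ℕ => (n : ℝ) ^ a) atTop atTop :=
    (tendsto_rpow_atTop ha).comp tendsto_natCast_atTop_atTop
  have h2 := (Real.tendsto_pow_mul_exp_neg_atTop_nhds_zero ⌈(j : ℝ) / a⌉₊).comp h1
  refine squeeze_zero' (Eventually.of_forall fun n => by positivity) ?_ h2
  filter_upwards [eventually_ge_atTop 1] with n hn
  have hn1 : (1 : ℝ) ≤ n := by exact_mod_cast hn
  have h3 : (0 : ℝ) ≤ (n : ℝ) ^ a := by positivity
  simp only [Function.comp_apply, ← Real.rpow_natCast, ← Real.rpow_mul (show (0 : ℝ) ≤ n by linarith)]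
  refine mul_le_mul (Real.rpow_le_rpow_of_exponent_le hn1 ?_) (Real.exp_le_exp.2 (by linarith))
    (Real.exp_pos _).le (by positivity)
  have := Nat.le_ceil ((j : ℝ) / a)
  rw [div_le_iff₀ ha] at this
  linarith

theorem dst_eq {p : ℝ} [Fact (1 ≤ ENNReal.ofReal p)] {ι : Type*} [Fintype ι] {m : ℕ}
    (v : ι → Scales.Lsp p m) (a b : ι) : dst p (fun a ω => v a ω) a b = Scales.dst v a b := by
  rw [Scales.dst, show v a = WithLp.toLp _ (fun ω => v a ω) from rfl,
    show v b = WithLp.toLp _ (fun ω => v b ω) from rfl, Scales.norm_sub_eq]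
  simp [dst, nrm, one_div]

theorem mixtureEmbeds_of_layerPin (hL : LayerPin) {p : ℝ} [Fact (1 ≤ ENNReal.ofReal p)]
    (hp : 1 < p) : MixtureEmbeds p := by
  classical
  intro ε hε δ hδ A hA
  have hp0 : 0 < p := by linarith
  set M : ℝ := p + 4 with hM
  set δ₁ : ℝ := δ / (p + 2) with hδ₁def
  have hδ₁ : 0 < δ₁ := div_pos hδ (by linarith)
  set ε₁ : ℝ := min (ε / 3) (1 / 8) with hε₁def
  have hε₁ : 0 < ε₁ := lt_min (by linarith) (by norm_num)
  obtain ⟨CL, n₀, T₀, hCL, hlay⟩ := hL p hp δ₁ ε₁ M hδ₁ hε₁ (by linarith)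
  set j : ℕ := 2 + ⌈M⌉₊ with hj
  obtain ⟨n₁, hn₁⟩ := eventually_atTop.1 ((tendsto_pow_mul_exp_rpow hδ₁ j).eventually_le_const
    (show (0 : ℝ) < ε₁ / ((T₀ + 1) * 2 ^ p) by positivity))
  set n₂ : ℕ := max (max n₀ n₁) (max 2 ⌈A⌉₊) with hn₂
  set q : ℝ := ((T₀ : ℝ) + 1) * ((4 * CL) ^ 2 * (8 * CL) ^ p) / ε₁ with hq
  have hq0 : 0 ≤ q := by positivity
  refine ⟨max (A * (n₂ : ℝ) ^ (p + 3) + 1) (max (q + 2) (((T₀ : ℝ) + 1) * (8 * CL) ^ p)),
    fun {ι} _ _ {m} v hv hm => ?_⟩
  set n : ℕ := Fintype.card ι with hn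
  have hn0 : (1 : ℝ) ≤ n := by exact_mod_cast Fintype.card_pos
  set C := max (A * (n₂ : ℝ) ^ (p + 3) + 1) (max (q + 2) (((T₀ : ℝ) + 1) * (8 * CL) ^ p))
  have hnδ : 1 ≤ (n : ℝ) ^ δ := Real.one_le_rpow hn0 hδ.le
  have hd0 : ∀ x y, 0 ≤ Scales.dst v x y ^ p := fun x y =>
    Real.rpow_nonneg (Scales.dst_nonneg v x y) p
  by_cases hsmall : n < n₂
  · -- few points: the map itself
    refine ⟨1, fun _ => 1, fun _ => m, fun _ a ω => v a ω, fun _ => zero_le_one, by simp,
      fun _ => ?_, fun _ x y => ?_, fun x y => ?_⟩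
    · refine (hm.trans ?_).trans (le_mul_of_one_le_right ?_ hnδ)
      · refine (mul_le_mul_of_nonneg_left (Real.rpow_le_rpow (by linarith)
          (show (n : ℝ) ≤ n₂ by exact_mod_cast hsmall.le) (by linarith)) hA.le).trans ?_
        exact le_trans (by linarith) (le_max_left _ _)
      · exact le_trans (by positivity) (le_max_left _ _)
    · rw [← dst_eq v x y, dst, nrm_rpow hp0]
      refine le_mul_of_one_le_left (sum_nonneg fun i _ => Real.rpow_nonneg (abs_nonneg _) _)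
        (one_le_mul_of_one_le_of_one_le (le_trans ?_ (le_max_left _ _)) hnδ)
      linarith [show 0 ≤ A * (n₂ : ℝ) ^ (p + 3) by positivity]
    · simp only [univ_unique, sum_singleton, one_mul, ← dst_eq v x y, dst, nrm_rpow hp0, sub_self,
        abs_zero]
      positivity
  push Not at hsmall
  simp only [hn₂, max_le_iff] at hsmall
  obtain ⟨⟨hnn₀, hnn₁⟩, hn2, hnA⟩ := hsmall
  set f : ι → Fin m → ℝ := fun a ω => v a ω with hf
  have hfi : Function.Injective f := fun a b h => hv (PiLp.ext fun ω => congr_fun h ω)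
  have hAn : A ≤ n := (Nat.le_ceil A).trans (by exact_mod_cast hnA)
  have hmM : (m : ℝ) ≤ (n : ℝ) ^ M := by
    refine hm.trans ((mul_le_mul_of_nonneg_right hAn (by positivity)).trans (le_of_eq ?_))
    rw [hM, show p + 4 = 1 + (p + 3) by ring, Real.rpow_add (by linarith) 1 (p + 3),
      Real.rpow_one]
  obtain ⟨T, hT, g, μ, hμ, hg⟩ := hlay ι hnn₀ m f hfi hmM
  have hTr : (T : ℝ) ≤ T₀ := by exact_mod_cast hT
  set S : ℝ := CL * (n : ℝ) ^ δ₁ with hS
  have hna : 1 ≤ (n : ℝ) ^ δ₁ := Real.one_le_rpow hn0 hδ₁.le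
  have hS1 : 1 ≤ S := one_le_mul_of_one_le_of_one_le hCL hna
  set Q : ℝ := ((T₀ : ℝ) + 1) * ((4 * S) ^ 2 * (8 * S) ^ p) / ε₁ with hQ
  have hQ0 : 0 ≤ Q := by positivity
  set N : ℕ := ⌈Q⌉₊ + 1 with hNdef
  set Dd : ι → ι → ℝ := fun a b => dst p f a b with hDd
  have hD : ∀ a b, 0 ≤ Dd a b := fun a b => dst_nonneg _ _ _ _
  have hdd : ∀ a b, Dd a b ^ p = Scales.dst v a b ^ p := fun a b => by
    simp only [hDd, hf, dst_eq]
  -- every layer is bounded by twice the distance
  have h2b : ∀ t a b ω, |g t a ω - g t b ω| ≤ 2 * Dd a b := by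
    intro t a b ω
    rcases eq_or_ne a b with rfl | hab
    · simp [hD a a]
    refine (abs_le_nrm hp0 (fun ω => g t a ω - g t b ω) ω).trans ?_
    refine (Real.rpow_le_rpow_iff (nrm_nonneg _ _) (by linarith [hD a b]) hp0).1 ?_
    have h1 := (abs_le.1 (hg a b hab).2.2).2
    have h2 : nrm p (fun ω => g t a ω - g t b ω) ^ p
        ≤ ∑ t, nrm p (fun ω => g t a ω - g t b ω) ^ p :=
      single_le_sum (f := fun t => nrm p (fun ω => g t a ω - g t b ω) ^ p)
        (fun t _ => Real.rpow_nonneg (nrm_nonneg _ _) _) (mem_univ t)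
    refine h2.trans ?_
    rw [Real.mul_rpow zero_le_two (hD a b)]
    have h3 : (2 : ℝ) ≤ 2 ^ p := Real.self_le_rpow_of_one_le one_le_two hp.le
    have h4 : ε₁ ≤ 1 / 8 := min_le_right _ _
    have h5 := Real.rpow_nonneg (hD a b) p
    simp only [hDd] at h5 ⊢
    nlinarith [mul_le_mul_of_nonneg_right h4 h5, mul_le_mul_of_nonneg_right h3 h5]
  choose w F hw0 hw1 hworst hmean using fun t => hash_layer hp.le (g t) Dd (hμ t)
    (show 0 ≤ S by linarith) hD
    (fun a b ω => by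
      rcases eq_or_ne a b with rfl | hab
      · simp only [sub_self, abs_zero]; exact mul_nonneg (hμ t).le (hD a a)
      · exact (hg a b hab).1 t ω)
    (h2b t)
    (fun a b => by
      rcases eq_or_ne a b with rfl | hab
      · simp only [sub_self, ne_eq, not_true_eq_false, filter_false, card_empty, Nat.cast_zero,
          mul_zero]
        linarith
      · exact (hg a b hab).2.1 t)
    (show 0 < N by omega)
  -- a pair exists, so there is a layer
  have hT0 : 0 < T := by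
    by_contra h0
    obtain rfl : T = 0 := by omega
    obtain ⟨a, b, hab⟩ := Fintype.exists_pair_of_one_lt_card (show 1 < Fintype.card ι by omega)
    have h1 := (hg a b hab).2.2
    simp only [univ_eq_empty, sum_empty, zero_sub, abs_neg] at h1
    rw [abs_of_nonneg (Real.rpow_nonneg (dst_nonneg _ _ _ _) _)] at h1
    have h2 := Real.rpow_pos_of_pos (dst_pos hp0 hfi hab) p
    nlinarith [show ε₁ ≤ 1 / 8 from min_le_right _ _]
  have hTp : (0 : ℝ) < T := Nat.cast_pos.2 hT0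
  let I : Type := Fin T × ((Fin m → Bool) × (Fin m → Fin N))
  let e := (Fintype.equivFin I).symm
  refine ⟨Fintype.card I, fun l => w (e l).1 (e l).2 / T, fun _ => N,
    fun l a i => (T : ℝ) ^ p⁻¹ * F (e l).1 (e l).2 a i,
    fun l => div_nonneg (hw0 _ _) hTp.le, ?_, fun _ => ?_, fun l x y => ?_, fun x y => ?_⟩
  · rw [e.sum_comp fun i : I => w i.1 i.2 / T, Fintype.sum_prod_type]
    simp [← sum_div, hw1, hTp.ne']
  · -- the dimension
    have h1 : Q ≤ q * (n : ℝ) ^ δ := by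
      have h2 : ((n : ℝ) ^ δ₁) ^ (2 : ℕ) * ((n : ℝ) ^ δ₁) ^ p = (n : ℝ) ^ δ := by
        rw [← Real.rpow_natCast _ 2, ← Real.rpow_add (by positivity), ← Real.rpow_mul (by linarith),
          hδ₁def]
        congr 1
        field_simp
        push_cast
        ring
      rw [hQ, hq, hS, ← mul_assoc 4, ← mul_assoc 8, mul_pow, Real.mul_rpow (by positivity)
        (by positivity), ← h2]
      exact le_of_eq (by ring)
    have h3 : (N : ℝ) ≤ (q + 2) * (n : ℝ) ^ δ := by
      rw [hNdef]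
      push_cast
      linarith [Nat.ceil_lt_add_one hQ0, h1, hnδ]
    exact h3.trans (mul_le_mul_of_nonneg_right (le_trans (le_max_left _ _) (le_max_right _ _))
      (by linarith))
  · -- the worst case
    have h1 := hworst (e l).1 (e l).2 x y
    have e1 : ∀ i, |(T : ℝ) ^ p⁻¹ * F (e l).1 (e l).2 x i - (T : ℝ) ^ p⁻¹ * F (e l).1 (e l).2 y i| ^ p
        = T * |F (e l).1 (e l).2 x i - F (e l).1 (e l).2 y i| ^ p := fun i => by
      rw [← mul_sub, abs_mul, Real.mul_rpow (abs_nonneg _) (abs_nonneg _),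
        abs_of_nonneg (Real.rpow_nonneg hTp.le _), ← Real.rpow_mul hTp.le, inv_mul_cancel₀ hp0.ne',
        Real.rpow_one]
    simp only [e1, ← mul_sum]
    refine (mul_le_mul_of_nonneg_left h1 hTp.le).trans ?_
    rw [← mul_assoc, hdd]
    refine mul_le_mul_of_nonneg_right ?_ (hd0 x y)
    have h2 : ((n : ℝ) ^ δ₁) ^ p ≤ (n : ℝ) ^ δ := by
      rw [← Real.rpow_mul (by linarith)]
      refine Real.rpow_le_rpow_of_exponent_le hn0 ?_
      rw [hδ₁def, div_mul_eq_mul_div, div_le_iff₀ (by linarith)]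
      nlinarith
    calc (T : ℝ) * (8 * S) ^ p = T * (8 * CL) ^ p * ((n : ℝ) ^ δ₁) ^ p := by
          rw [hS, ← mul_assoc 8, Real.mul_rpow (by positivity) (by positivity), mul_assoc]
      _ ≤ ((T₀ : ℝ) + 1) * (8 * CL) ^ p * (n : ℝ) ^ δ := by gcongr; linarith
      _ ≤ _ := mul_le_mul_of_nonneg_right
          (le_trans (le_max_right _ _) (le_max_right _ _)) (by positivity)
  · -- the mean
    rw [e.sum_comp fun i : I => w i.1 i.2 / T *
      ∑ j, |(T : ℝ) ^ p⁻¹ * F i.1 i.2 x j - (T : ℝ) ^ p⁻¹ * F i.1 i.2 y j| ^ p,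
      Fintype.sum_prod_type, ← hdd]
    have e1 : ∀ t, ∑ i, w t i / T *
        ∑ j, |(T : ℝ) ^ p⁻¹ * F t i x j - (T : ℝ) ^ p⁻¹ * F t i y j| ^ p
          = ∑ i, w t i * ∑ j, |F t i x j - F t i y j| ^ p := fun t => by
      refine sum_congr rfl fun i _ => ?_
      have e0 : ∀ j, |(T : ℝ) ^ p⁻¹ * F t i x j - (T : ℝ) ^ p⁻¹ * F t i y j| ^ p
          = T * |F t i x j - F t i y j| ^ p := fun j => by
        rw [← mul_sub, abs_mul, Real.mul_rpow (abs_nonneg _) (abs_nonneg _),
          abs_of_nonneg (Real.rpow_nonneg hTp.le _), ← Real.rpow_mul hTp.le,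
          inv_mul_cancel₀ hp0.ne', Real.rpow_one]
      simp only [e0, ← mul_sum]
      field_simp
    simp only [e1]
    rcases eq_or_ne x y with rfl | hxy
    · simp only [sub_self, abs_zero, Real.zero_rpow hp0.ne', sum_const_zero, mul_zero, hDd,
        dst_self hp0, le_refl]
    set E : Fin T → ℝ := fun t => ∑ i, w t i * ∑ j, |F t i x j - F t i y j| ^ p
    set η : ℝ := (4 * S) ^ 2 * (8 * S) ^ p / N +
      (n : ℝ) ^ 2 * Real.exp (-2 * S) * (m * (2 : ℝ) ^ p) with hη
    have h1 : ∀ t, |E t - nrm p (fun ω => g t x ω - g t y ω) ^ p| ≤ η * Dd x y ^ p := fun t => by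
      rw [nrm_rpow hp0]; exact hmean t x y
    have hT1 : (0 : ℝ) < (T₀ : ℝ) + 1 := by positivity
    have h2 : T * η ≤ 2 * ε₁ := by
      have ha : ((T₀ : ℝ) + 1) * ((4 * S) ^ 2 * (8 * S) ^ p / N) ≤ ε₁ := by
        rw [← mul_div_assoc, div_le_iff₀ (Nat.cast_pos.2 (show 0 < N by omega))]
        have h3 : Q ≤ (N : ℝ) := by rw [hNdef]; push_cast; linarith [Nat.le_ceil Q]
        rw [hQ, div_le_iff₀ hε₁] at h3
        linarith
      have hb : ((T₀ : ℝ) + 1) * ((n : ℝ) ^ 2 * Real.exp (-2 * S) * (m * (2 : ℝ) ^ p)) ≤ ε₁ := by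
        have h3 := hn₁ n hnn₁
        rw [le_div_iff₀ (by positivity)] at h3
        refine le_trans ?_ h3
        have h4 : (n : ℝ) ^ 2 * (m : ℝ) ≤ (n : ℝ) ^ j := by
          rw [hj, pow_add]
          refine mul_le_mul_of_nonneg_left (hmM.trans ?_) (by positivity)
          rw [← Real.rpow_natCast]
          exact Real.rpow_le_rpow_of_exponent_le hn0 (Nat.le_ceil M)
        have h5 : Real.exp (-2 * S) ≤ Real.exp (-2 * (n : ℝ) ^ δ₁) := Real.exp_le_exp.2 (by
          have : (n : ℝ) ^ δ₁ ≤ S := le_mul_of_one_le_left (by linarith) hCL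
          linarith)
        have h6 := mul_le_mul h4 h5 (Real.exp_pos _).le (by positivity)
        have h7 := mul_le_mul_of_nonneg_right h6
          (by positivity : (0 : ℝ) ≤ ((T₀ : ℝ) + 1) * 2 ^ p)
        linarith
      have hη0 : 0 ≤ η := by positivity
      calc (T : ℝ) * η ≤ ((T₀ : ℝ) + 1) * η := mul_le_mul_of_nonneg_right (by linarith) hη0
        _ ≤ _ := by rw [hη, mul_add]; linarith
    have h3 : |(∑ t, E t) - ∑ t, nrm p (fun ω => g t x ω - g t y ω) ^ p| ≤ 2 * ε₁ * Dd x y ^ p := by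
      rw [← sum_sub_distrib]
      refine (abs_sum_le_sum_abs _ _).trans ((sum_le_sum fun t _ => h1 t).trans ?_)
      rw [sum_const, card_univ, Fintype.card_fin, nsmul_eq_mul, ← mul_assoc]
      exact mul_le_mul_of_nonneg_right h2 (Real.rpow_nonneg (hD x y) _)
    have h4 : |(∑ t, nrm p (fun ω => g t x ω - g t y ω) ^ p) - Dd x y ^ p| ≤ ε₁ * Dd x y ^ p :=
      (hg x y hxy).2.2
    refine (abs_sub_le _ (∑ t, nrm p (fun ω => g t x ω - g t y ω) ^ p) _).trans ?_
    have h5 : ε₁ ≤ ε / 3 := min_le_left _ _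
    have h6 := mul_le_mul_of_nonneg_right h5 (Real.rpow_nonneg (hD x y) p)
    linarith

/-- The theorem from the layers. -/
theorem mainPin_of_layerPin (hL : LayerPin) : MainPin := by
  intro p hp D hD δ hδ
  have : Fact (1 ≤ ENNReal.ofReal p) := ⟨by simpa using hp.le⟩
  exact dimension_reduction_of_mixture (mixtureEmbeds_of_layerPin hL hp) D hD δ hδ

end Vale.Agent.P249.AllD
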