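import Vale.Agent.P249.AllD.Base

/-!
# P249, every distortion: layers from regularisation at geometric levels

For `O` offsets and `J` levels per offset the differences of the regularised maps at consecutive
levels are almost `p`-additive: per coordinate only one offset can have a fractional weight.
-/

open Finset

namespace Vale.Agent.P249.AllD

noncomputable section

/-- increments of weights running from `0` to `1`: their `p`-th powers sum to at most one, and to
exactly one if all weights are `0` or `1` -/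
theorem sum_incr_rpow {J : ℕ} {p : ℝ} (hp : 1 ≤ p) {w : ℕ → ℝ} (hw0 : w 0 = 0)
    (hw1 : w (J + 1) = 1) (hw : ∀ j, 0 ≤ w j ∧ w j ≤ 1)
    (hmono : ∀ j ≤ J, w j ≤ w (j + 1)) :
    (∑ j ∈ range (J + 1), |w (j + 1) - w j| ^ p ≤ 1) ∧
      ((∀ j ≤ J + 1, w j = 0 ∨ w j = 1) →
        ∑ j ∈ range (J + 1), |w (j + 1) - w j| ^ p = 1) := by
  have hsum : ∑ j ∈ range (J + 1), (w (j + 1) - w j) = 1 := by
    rw [sum_range_sub, hw0, hw1, sub_zero]
  constructor
  · refine (sum_le_sum fun j hj => ?_).trans hsum.le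
    have h0 : 0 ≤ w (j + 1) - w j := by
      have := hmono j (by simp at hj; omega)
      linarith
    rw [abs_of_nonneg h0]
    refine Real.rpow_le_self_of_le_one h0 ?_ hp
    linarith [(hw (j + 1)).2, (hw j).1]
  · intro h01
    refine (sum_congr rfl fun j hj => ?_).trans hsum
    have hj' : j ≤ J := by simp at hj; omega
    have := hmono j hj'
    rcases h01 j (by omega) with h | h <;> rcases h01 (j + 1) (by omega) with h' | h' <;>
      simp only [h, h'] at this ⊢ <;>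
      first | linarith | simp [Real.zero_rpow (show p ≠ 0 by linarith)]

/-- reverse triangle inequality for finitely many real numbers -/
theorem abs_lp_sub_le {κ : Type*} [Fintype κ] {p : ℝ} (hp : 1 ≤ p) (x y : κ → ℝ) :
    |(∑ i, |x i| ^ p) ^ (1 / p) - (∑ i, |y i| ^ p) ^ (1 / p)| ≤
      (∑ i, |x i - y i| ^ p) ^ (1 / p) := by
  have h1 := Real.Lp_add_le univ (fun i => y i) (fun i => x i - y i) hp
  have h2 := Real.Lp_add_le univ (fun i => x i) (fun i => y i - x i) hp
  simp only [add_sub_cancel] at h1 h2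
  simp only [abs_sub_comm (y _) (x _)] at h2
  rw [abs_le]
  constructor <;> linarith

/-- an average over `O` offsets of weights each in `[O - 1, O]` -/
theorem average_bounds {κ : Type*} [Fintype κ] {O ε : ℝ} (hε : 0 < ε) (hO : 1 ≤ O)
    (hOε : 2 / ε ≤ O) {A Φ : κ → ℝ} (hA : ∀ i, 0 ≤ A i) (hΦ : ∀ i, O - 1 ≤ Φ i ∧ Φ i ≤ O) :
    (1 - ε / 2) * ∑ i, A i ≤ O⁻¹ * ∑ i, A i * Φ i ∧ O⁻¹ * ∑ i, A i * Φ i ≤ ∑ i, A i := by
  have hO0 : 0 < O := by linarith
  rw [le_inv_mul_iff₀ hO0, inv_mul_le_iff₀ hO0, mul_sum, mul_sum, mul_sum]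
  constructor
  · refine sum_le_sum fun i _ => ?_
    rw [div_le_iff₀ hε] at hOε
    calc O * ((1 - ε / 2) * A i) = A i * (O * (1 - ε / 2)) := by ring
      _ ≤ A i * Φ i := mul_le_mul_of_nonneg_left (by linarith [(hΦ i).1]) (hA i)
  · exact sum_le_sum fun i _ =>
      (mul_le_mul_of_nonneg_left (hΦ i).2 (hA i)).trans_eq (mul_comm _ _)

/-- closeness of the norms passes to their powers -/
theorem abs_rpow_sub_le_of_close {p d η ε X Y : ℝ} (hp0 : 0 < p) (hd0 : 0 < d) (hη : 0 < η)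
    (hε : 0 < ε)
    (hcont : ∀ x ∈ Set.Icc (0 : ℝ) 2, ∀ y ∈ Set.Icc (0 : ℝ) 2,
      dist x y < η → dist (x ^ p) (y ^ p) < ε / 2)
    (hX0 : 0 ≤ X) (hY0 : 0 ≤ Y) (h1 : |X - Y| ≤ η / 2 * d) (h2 : |X - Y| ≤ 1 / 2 * d)
    (hlow : (1 - ε / 2) * d ^ p ≤ Y ^ p) (hup : Y ^ p ≤ d ^ p) :
    |X ^ p - d ^ p| ≤ ε * d ^ p := by
  have hdp0 : 0 < d ^ p := Real.rpow_pos_of_pos hd0 p
  have hYd : Y ≤ d := (Real.rpow_le_rpow_iff hY0 hd0.le hp0).1 hup
  have hX2 : X / d ≤ 2 := by
    rw [div_le_iff₀ hd0]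
    linarith [(abs_le.1 h2).2]
  have hY1 : Y / d ≤ 2 := by
    rw [div_le_iff₀ hd0]
    linarith
  have hdist : dist (X / d) (Y / d) < η := by
    rw [Real.dist_eq, ← sub_div, abs_div, abs_of_pos hd0, div_lt_iff₀ hd0]
    linarith [mul_pos hη hd0]
  have hc := hcont (X / d) ⟨by positivity, hX2⟩ (Y / d) ⟨by positivity, hY1⟩ hdist
  rw [Real.dist_eq, Real.div_rpow hX0 hd0.le, Real.div_rpow hY0 hd0.le, ← sub_div, abs_div,
    abs_of_pos hdp0, div_lt_iff₀ hdp0] at hc
  have := abs_le.1 hc.le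
  rw [abs_le]
  constructor <;> linarith [mul_pos hε hdp0]

/-- per coordinate at most one offset has a fractional weight -/
theorem weights_additive {O J m : ℕ} {p N d₁ d : ℝ} (hp : 1 ≤ p) (hO1 : 1 ≤ O) (hN0 : 0 < N)
    (hN1 : 1 ≤ N) (hd₁ : 0 < d₁) (hd0 : 0 ≤ d) (lev : Fin O → ℕ → ℝ)
    (hlev : ∀ (o : Fin O) (j : ℕ), j ≤ J + 1 →
      lev o j = N ^ (-(d₁ * ((O * (J + 1 - j) + o : ℕ) : ℝ))))
    (v : Fin m → ℝ) (w : Fin O → ℕ → Fin m → ℝ) (hw01 : ∀ o j ω, 0 ≤ w o j ω ∧ w o j ω ≤ 1)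
    (hw0 : ∀ o ω, w o 0 ω = 0) (hw1 : ∀ o ω, w o (J + 2) ω = 1)
    (hone : ∀ o j ω, j ≠ 0 → j ≤ J + 1 → |v ω| ≤ lev o j * N ^ (-d₁) * d → w o j ω = 1)
    (hzero : ∀ o j ω, j ≠ 0 → j ≤ J + 1 → lev o j * d < |v ω| → w o j ω = 0) (ω : Fin m) :
    (O : ℝ) - 1 ≤ ∑ o, ∑ j ∈ range (J + 2), |w o (j + 1) ω - w o j ω| ^ p ∧
      ∑ o, ∑ j ∈ range (J + 2), |w o (j + 1) ω - w o j ω| ^ p ≤ O := by
  have hsep : ∀ (o o' : Fin O) (j j' : ℕ), j ≤ J + 1 → j' ≤ J + 1 →
      O * (J + 1 - j) + (o : ℕ) < O * (J + 1 - j') + (o' : ℕ) →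
      lev o' j' * d ≤ lev o j * N ^ (-d₁) * d := by
    intro o o' j j' hj hj' hlt
    refine mul_le_mul_of_nonneg_right ?_ hd0
    rw [hlev o j hj, hlev o' j' hj', ← Real.rpow_add hN0]
    refine Real.rpow_le_rpow_of_exponent_le hN1 ?_
    have : ((O * (J + 1 - j) + o : ℕ) : ℝ) + 1 ≤ ((O * (J + 1 - j') + o' : ℕ) : ℝ) := by
      exact_mod_cast hlt
    have := mul_le_mul_of_nonneg_left this hd₁.le
    linarith
  have hstep : ∀ j, j + 1 ≤ J + 1 → O * (J + 1 - (j + 1)) + O = O * (J + 1 - j) := fun j hj => by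
    rw [show J + 1 - j = J + 1 - (j + 1) + 1 by omega, Nat.mul_succ]
  have hmono : ∀ o, ∀ j ≤ J + 1, w o j ω ≤ w o (j + 1) ω := by
    intro o j hj
    by_cases h0 : w o j ω = 0
    · rw [h0]; exact (hw01 o (j + 1) ω).1
    suffices h1 : w o (j + 1) ω = 1 by rw [h1]; exact (hw01 o j ω).2
    have hj0 : j ≠ 0 := fun e => h0 (e ▸ hw0 o ω)
    rcases Nat.lt_or_eq_of_le hj with h2 | h2
    · refine hone o (j + 1) ω (by omega) (by omega) (le_trans ?_ (hsep o o (j + 1) j (by omega) hj ?_))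
      · exact not_lt.1 fun h => h0 (hzero o j ω hj0 hj h)
      · have := hstep j (by omega)
        omega
    · subst h2; exact hw1 o ω
  have hS := fun o => sum_incr_rpow (J := J + 1) hp (w := fun j => w o j ω) (hw0 o ω)
    (hw1 o ω) (fun j => hw01 o j ω) (hmono o)
  refine ⟨?_, (sum_le_sum fun o _ => (hS o).1).trans (by simp)⟩
  by_cases hall : ∀ o, ∀ j ≤ J + 2, w o j ω = 0 ∨ w o j ω = 1
  · rw [sum_congr rfl fun o _ => (hS o).2 fun j hj => hall o j hj]
    simp
  push Not at hall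
  obtain ⟨o₁, j₁, hj₁, hne₁, hne₁'⟩ := hall
  have hlast : ∀ (o : Fin O) (j : ℕ), j ≤ J + 2 → w o j ω ≠ 0 → w o j ω ≠ 1 →
      j ≤ J + 1 ∧ lev o j * N ^ (-d₁) * d < |v ω| ∧ |v ω| ≤ lev o j * d := by
    intro o j hj h0 h1
    have hj0 : j ≠ 0 := fun e => h0 (e ▸ hw0 o ω)
    have hj' : j ≤ J + 1 := by
      rcases Nat.lt_or_eq_of_le hj with h | h
      · omega
      · exact absurd (h ▸ hw1 o ω) h1
    exact ⟨hj', not_le.1 fun h => h1 (hone o j ω hj0 hj' h),
      not_lt.1 fun h => h0 (hzero o j ω hj0 hj' h)⟩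
  obtain ⟨hj₁', hlo₁, hhi₁⟩ := hlast o₁ j₁ hj₁ hne₁ hne₁'
  calc (O : ℝ) - 1 = ∑ o ∈ univ.erase o₁, (1 : ℝ) := by
        rw [sum_const, card_erase_of_mem (mem_univ o₁), card_univ, Fintype.card_fin,
          nsmul_one, Nat.cast_sub hO1, Nat.cast_one]
    _ = ∑ o ∈ univ.erase o₁, ∑ j ∈ range (J + 2), |w o (j + 1) ω - w o j ω| ^ p := by
        refine sum_congr rfl fun o ho => ((hS o).2 fun j hj => ?_).symm
        by_contra hne
        push Not at hne
        obtain ⟨hj', hlo, hhi⟩ := hlast o j hj hne.1 hne.2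
        rcases lt_trichotomy (O * (J + 1 - j) + (o : ℕ)) (O * (J + 1 - j₁) + (o₁ : ℕ)) with
          hlt | heq | hgt
        · linarith [hsep o o₁ j j₁ hj' hj₁' hlt]
        · refine (mem_erase.1 ho).1 (Fin.ext ?_)
          have h := congrArg (· % O) heq
          simpa [Nat.mul_add_mod, Nat.mod_eq_of_lt] using h
        · linarith [hsep o₁ o j₁ j hj₁' hj' hgt]
    _ ≤ _ := sum_le_sum_of_subset_of_nonneg (subset_univ _) fun o _ _ =>
        sum_nonneg fun _ _ => by positivity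

/-- the support of a difference of two levels -/
theorem support_bound {α : Type*} [DecidableEq α] {p N d₁ O C l l' : ℝ} {S S1 S2 : Finset α}
    (hp0 : 0 < p) (hN1 : 1 ≤ N) (hd₁ : 0 ≤ d₁) (hO : 0 ≤ O) (hC : 0 ≤ C) (hl' : 0 < l')
    (hl : 0 < l) (hr : l' ≤ N ^ (d₁ * O) * l) (hsub : S ⊆ S1 ∪ S2)
    (c1 : (S1.card : ℝ) * l' ^ p ≤ C * N ^ d₁) (c2 : (S2.card : ℝ) * l ^ p ≤ C * N ^ d₁) :
    (S.card : ℝ) * l' ^ p ≤ 2 * C * N ^ (d₁ + d₁ * O * p) := by
  have hN0 : 0 < N := by linarith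
  have h1 : (S.card : ℝ) ≤ S1.card + S2.card := by
    exact_mod_cast (card_le_card hsub).trans (card_union_le _ _)
  have hr' : l' ^ p ≤ N ^ (d₁ * O * p) * l ^ p := by
    rw [Real.rpow_mul hN0.le, ← Real.mul_rpow (by positivity) hl.le]
    exact Real.rpow_le_rpow hl'.le hr hp0.le
  have hone : 1 ≤ N ^ (d₁ * O * p) := Real.one_le_rpow hN1 (by positivity)
  calc (S.card : ℝ) * l' ^ p ≤ (S1.card + S2.card) * l' ^ p :=
        mul_le_mul_of_nonneg_right h1 (by positivity)
    _ ≤ C * N ^ d₁ + N ^ (d₁ * O * p) * (S2.card * l ^ p) := by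
        rw [add_mul]
        refine add_le_add c1 ((mul_le_mul_of_nonneg_left hr' (Nat.cast_nonneg _)).trans_eq ?_)
        ring
    _ ≤ N ^ (d₁ * O * p) * (C * N ^ d₁) + N ^ (d₁ * O * p) * (C * N ^ d₁) :=
        add_le_add (le_mul_of_one_le_left (by positivity) hone)
          (mul_le_mul_of_nonneg_left c2 (by positivity))
    _ = _ := by rw [Real.rpow_add hN0]; ring

theorem layerPin_of_regPin (hReg : RegPin) : LayerPin := by
  intro p hp δ ε M hδ hε hM
  have hp0 : 0 < p := by linarith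
  -- the uniform continuity of `x ^ p`
  obtain ⟨η, hη, hcont⟩ := Metric.uniformContinuousOn_iff.1
    ((isCompact_Icc (a := (0 : ℝ)) (b := 2)).uniformContinuousOn_of_continuous
      (Real.continuous_rpow_const hp0.le).continuousOn) (ε / 2) (by linarith)
  -- parameters
  obtain ⟨O, hO1, hOε⟩ : ∃ O : ℕ, 1 ≤ O ∧ 2 / ε ≤ (O : ℝ) := by
    obtain ⟨k, hk⟩ := exists_nat_ge (2 / ε)
    exact ⟨k + 1, by omega, by push_cast; linarith⟩
  have hOR : (1 : ℝ) ≤ O := by exact_mod_cast hO1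
  set d₁ : ℝ := δ / (p + 1 + p * O) with hd₁
  have hden : 0 < p + 1 + p * (O : ℝ) := by positivity
  have hd₁0 : 0 < d₁ := div_pos hδ hden
  have hd₁δ : d₁ * (p + 1 + p * O) = δ := by rw [hd₁]; field_simp
  obtain ⟨J, hJM⟩ : ∃ J : ℕ, M ≤ p * d₁ * O * J := by
    obtain ⟨k, hk⟩ := exists_nat_ge (M / (p * d₁ * O))
    exact ⟨k, by rw [div_le_iff₀ (by positivity)] at hk; linarith⟩
  set ε₁ : ℝ := min η 1 / (4 * O * (J + 2)) with hε₁
  have hε₁0 : 0 < ε₁ := div_pos (lt_min hη one_pos) (by positivity)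
  obtain ⟨C, n₀, hC, hR⟩ := hReg p hp d₁ ε₁ (d₁ * O * (J + 2)) hd₁0 hε₁0 (by positivity)
  refine ⟨(2 * C) ^ p * (2 * C), max n₀ 1, O * (J + 2), ?_, ?_⟩
  · have h1 : (1 : ℝ) ≤ (2 * C) ^ p := Real.one_le_rpow (by linarith) hp0.le
    nlinarith
  intro ι _ hn m f hf hm
  set N : ℝ := (Fintype.card ι : ℝ) with hN
  have hN1 : 1 ≤ N := by rw [hN]; exact_mod_cast (le_max_right n₀ 1).trans hn
  have hN0 : 0 < N := by linarith
  -- levels
  set ex : Fin O → ℕ → ℕ := fun o j => O * (J + 1 - j) + o with hex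
  set lev : Fin O → ℕ → ℝ := fun o j =>
    if j ≤ J + 1 then N ^ (-(d₁ * (ex o j : ℝ))) else 1 with hlev
  have hlev_pos : ∀ o j, 0 < lev o j := fun o j => by
    simp only [hlev]; split_ifs <;> positivity
  have hlev_le : ∀ o j, lev o j ≤ 1 := fun o j => by
    simp only [hlev]
    split_ifs
    · exact Real.rpow_le_one_of_one_le_of_nonpos hN1 (neg_nonpos.2 (by positivity))
    · exact le_rfl
  have hex_le : ∀ o j, ex o j ≤ O * (J + 2) := fun o j => by
    have h : O * (J + 1 - j) ≤ O * (J + 1) := Nat.mul_le_mul_left O (Nat.sub_le _ _)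
    simp only [hex]
    have := o.isLt
    rw [show J + 2 = J + 1 + 1 from rfl, Nat.mul_succ]
    omega
  have hlev_mono : ∀ o j, lev o j ≤ lev o (j + 1) := fun o j => by
    simp only [hlev]
    by_cases h : j + 1 ≤ J + 1
    · rw [if_pos h, if_pos (by omega)]
      refine Real.rpow_le_rpow_of_exponent_le hN1 (neg_le_neg (mul_le_mul_of_nonneg_left ?_ hd₁0.le))
      simp only [hex]
      have : O * (J + 1 - (j + 1)) ≤ O * (J + 1 - j) := Nat.mul_le_mul_left O (by omega)
      exact_mod_cast (by omega : O * (J + 1 - (j + 1)) + (o : ℕ) ≤ O * (J + 1 - j) + (o : ℕ))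
    · rw [if_neg h]
      exact hlev_le o j
  have hlev_ratio : ∀ o j, lev o (j + 1) ≤ N ^ (d₁ * O) * lev o j := fun o j => by
    simp only [hlev]
    by_cases h : j + 1 ≤ J + 1
    · rw [if_pos h, if_pos (by omega), ← Real.rpow_add hN0]
      refine Real.rpow_le_rpow_of_exponent_le hN1 ?_
      have e : ex o j = ex o (j + 1) + O := by
        simp only [hex]
        rw [show J + 1 - j = J + 1 - (j + 1) + 1 by omega, Nat.mul_succ]
        omega
      rw [e]
      push_cast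
      linarith
    · rw [if_neg h]
      split_ifs with h'
      · rw [← Real.rpow_add hN0]
        refine Real.one_le_rpow hN1 ?_
        have e : ex o j = (o : ℕ) := by
          simp only [hex]
          rw [show J + 1 - j = 0 by omega]
          omega
        have : (o : ℝ) ≤ O := by exact_mod_cast o.isLt.le
        rw [e]
        nlinarith
      · rw [mul_one]
        exact Real.one_le_rpow hN1 (by positivity)
  -- regularised maps at the levels `1, …, J + 1`
  have hreg : ∀ (o : Fin O) (j : ℕ), ∃ h : ι → Fin m → ℝ, ∀ a b, a ≠ b →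
      ∃ θ : Fin m → ℝ, (∀ ω, 0 ≤ θ ω ∧ θ ω ≤ 1) ∧
        (∀ ω, |f a ω - f b ω| ≤ lev o j * N ^ (-d₁) * dst p f a b → θ ω = 1) ∧
        (∀ ω, lev o j * dst p f a b < |f a ω - f b ω| → θ ω = 0) ∧
        nrm p (fun ω => h a ω - h b ω - θ ω * (f a ω - f b ω)) ≤ ε₁ * dst p f a b ∧
        (∀ ω, |h a ω - h b ω| ≤ C * N ^ d₁ * lev o j * dst p f a b) ∧
        ({ω | h a ω - h b ω ≠ f a ω - f b ω} : Finset (Fin m)).card * lev o j ^ p ≤
          C * N ^ d₁ := fun o j => by
    refine hR ι ((le_max_left _ _).trans hn) m f hf (lev o j) ?_ (hlev_le o j)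
    simp only [hlev]
    split_ifs
    · refine Real.rpow_le_rpow_of_exponent_le hN1 (neg_le_neg ?_)
      rw [mul_assoc]
      exact mul_le_mul_of_nonneg_left (by exact_mod_cast hex_le o j) hd₁0.le
    · exact Real.rpow_le_one_of_one_le_of_nonpos hN1 (neg_nonpos.2 (by positivity))
  choose h0 hh0 using hreg
  set hh : Fin O → ℕ → ι → Fin m → ℝ := fun o j =>
    if j = 0 then fun _ _ => 0 else if j ≤ J + 1 then h0 o j else f with hhh
  set s : ℝ := (O : ℝ) ^ (-(1 / p)) with hs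
  have hs0 : 0 < s := Real.rpow_pos_of_pos (by linarith) _
  have hs1 : s ≤ 1 := Real.rpow_le_one_of_one_le_of_nonpos hOR (neg_nonpos.2 (by positivity))
  have hsp : s ^ p = (O : ℝ)⁻¹ := by
    rw [hs, ← Real.rpow_mul (by linarith), neg_mul, one_div, inv_mul_cancel₀ hp0.ne',
      Real.rpow_neg_one]
  set e : Fin O × Fin (J + 2) ≃ Fin (O * (J + 2)) := finProdFinEquiv
  set G : Fin O × Fin (J + 2) → ι → Fin m → ℝ := fun t a ω =>
    s * (hh t.1 ((t.2 : ℕ) + 1) a ω - hh t.1 t.2 a ω) with hG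
  set μ : Fin O × Fin (J + 2) → ℝ := fun t => 2 * C * N ^ d₁ * lev t.1 ((t.2 : ℕ) + 1) with hμ
  refine ⟨O * (J + 2), le_rfl, fun t => G (e.symm t), fun t => μ (e.symm t), fun t => ?_,
    fun a b hab => ?_⟩
  · simp only [hμ]
    have := hlev_pos (e.symm t).1 ((((e.symm t).2 : ℕ)) + 1)
    positivity
  set d : ℝ := dst p f a b with hd
  have hd0 : 0 < d := dst_pos hp0 hf hab
  choose θ hθ01 hθone hθzero hθerr hθbd hθcard using fun o j => hh0 o j a b hab
  set w : Fin O → ℕ → Fin m → ℝ := fun o j ω =>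
    if j = 0 then 0 else if j ≤ J + 1 then θ o j ω else 1 with hw
  -- entries
  have hbd : ∀ o j ω, |hh o j a ω - hh o j b ω| ≤ C * N ^ d₁ * lev o j * d := by
    intro o j ω
    simp only [hhh]
    split_ifs with h1 h2
    · have := hlev_pos o j
      simp only [sub_self, abs_zero]
      positivity
    · exact hθbd o j ω
    · have hl : lev o j = 1 := by simp only [hlev, if_neg h2]
      rw [hl, mul_one]
      refine (abs_le_nrm hp0 (fun ω => f a ω - f b ω) ω).trans (le_mul_of_one_le_left hd0.le ?_)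
      exact one_le_mul_of_one_le_of_one_le hC (Real.one_le_rpow hN1 hd₁0.le)
  -- errors
  have herr : ∀ o j, nrm p (fun ω => hh o j a ω - hh o j b ω - w o j ω * (f a ω - f b ω)) ≤
      ε₁ * d := by
    intro o j
    simp only [hhh, hw]
    split_ifs with h1 h2
    · simp only [sub_self, zero_mul, nrm_zero hp0]
      positivity
    · exact hθerr o j
    · simp only [one_mul, sub_self, nrm_zero hp0]
      positivity
  -- supports
  have hcard : ∀ o j, 1 ≤ j →
      ({ω | hh o j a ω - hh o j b ω ≠ f a ω - f b ω} : Finset (Fin m)).card * lev o j ^ p ≤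
        C * N ^ d₁ := by
    intro o j hj
    simp only [hhh, if_neg (show j ≠ 0 by omega)]
    split_ifs with h2
    · exact hθcard o j
    · simp only [ne_eq, not_true, filter_false, card_empty, Nat.cast_zero, zero_mul]
      positivity
  refine ⟨fun t ω => ?_, fun t => ?_, ?_⟩
  · set t' := e.symm t
    simp only [hG, hμ, ← mul_sub, abs_mul, abs_of_pos hs0]
    refine (mul_le_of_le_one_left (abs_nonneg _) hs1).trans ?_
    have h1 := hbd t'.1 ((t'.2 : ℕ) + 1) ω
    have h2 := hbd t'.1 t'.2 ω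
    have h3 : C * N ^ d₁ * lev t'.1 t'.2 * d ≤ C * N ^ d₁ * lev t'.1 ((t'.2 : ℕ) + 1) * d := by
      have := hlev_mono t'.1 t'.2
      gcongr
    rw [sub_sub_sub_comm]
    refine (abs_sub _ _).trans ?_
    linarith
  · beta_reduce
    generalize e.symm t = t'
    obtain ⟨o, j⟩ := t'
    simp only [hG, hμ]
    have hμ0 : 0 ≤ 2 * C * N ^ d₁ := by positivity
    have hl1 := hlev_pos o ((j : ℕ) + 1)
    have hS := Real.rpow_pos_of_pos hN0 d₁
    set S := ({ω | s * (hh o ((j : ℕ) + 1) a ω - hh o j a ω) -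
      s * (hh o ((j : ℕ) + 1) b ω - hh o j b ω) ≠ 0} : Finset (Fin m))
    have key : (S.card : ℝ) * lev o ((j : ℕ) + 1) ^ p ≤ 2 * C * N ^ (d₁ + d₁ * O * p) := by
      rcases Nat.eq_zero_or_pos (j : ℕ) with hj | hj
      · have h1 : (S.card : ℝ) ≤ N ^ M :=
          le_trans (by exact_mod_cast (card_le_univ S).trans_eq (Fintype.card_fin m)) hm
        have h2 : lev o ((j : ℕ) + 1) ^ p ≤ N ^ (-M) := by
          simp only [hlev, if_pos (show (j : ℕ) + 1 ≤ J + 1 by omega)]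
          rw [← Real.rpow_mul hN0.le]
          refine Real.rpow_le_rpow_of_exponent_le hN1 ?_
          have : (O * J : ℕ) ≤ ex o ((j : ℕ) + 1) := by simp [hex, hj]
          have : (O : ℝ) * J ≤ ex o ((j : ℕ) + 1) := by exact_mod_cast this
          have : d₁ * p * ((O : ℝ) * J) ≤ d₁ * p * ex o ((j : ℕ) + 1) :=
            mul_le_mul_of_nonneg_left this (by positivity)
          linarith
        refine (mul_le_mul h1 h2 (by positivity) (by positivity)).trans ?_
        rw [← Real.rpow_add hN0, add_neg_cancel, Real.rpow_zero]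
        exact one_le_mul_of_one_le_of_one_le (by linarith) (Real.one_le_rpow hN1 (by positivity))
      · refine support_bound hp0 hN1 hd₁0.le (by positivity) (by linarith) hl1 (hlev_pos o j)
          (hlev_ratio o j) ?_ (hcard o ((j : ℕ) + 1) (by omega)) (hcard o j hj)
        intro ω hω
        simp only [S, mem_filter, mem_univ, true_and, mem_union] at hω ⊢
        by_contra hc
        simp only [not_or, not_not] at hc
        exact hω (by rw [← mul_sub, sub_sub_sub_comm, hc.1, hc.2, sub_self, mul_zero])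
    rw [Real.mul_rpow hμ0 hl1.le, mul_assoc, mul_comm (lev o _ ^ p)]
    refine (mul_le_mul_of_nonneg_left key (by positivity)).trans_eq ?_
    rw [Real.mul_rpow (by linarith) hS.le, mul_assoc, mul_assoc ((2 * C) ^ p),
      ← Real.rpow_mul hN0.le, mul_left_comm (N ^ _) (2 * C), ← Real.rpow_add hN0]
    congr 3
    rw [← hd₁δ]
    ring
  -- additivity
  set x : (Fin O × Fin (J + 2)) × Fin m → ℝ := fun i => G i.1 a i.2 - G i.1 b i.2 with hx
  set y : (Fin O × Fin (J + 2)) × Fin m → ℝ := fun i =>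
    s * ((w i.1.1 ((i.1.2 : ℕ) + 1) i.2 - w i.1.1 i.1.2 i.2) * (f a i.2 - f b i.2)) with hy
  have hsum : ∑ t, nrm p (fun ω => G (e.symm t) a ω - G (e.symm t) b ω) ^ p =
      ∑ i, |x i| ^ p := by
    rw [Equiv.sum_comp e.symm (fun t => nrm p (fun ω => G t a ω - G t b ω) ^ p),
      Fintype.sum_prod_type (f := fun i => |x i| ^ p)]
    exact sum_congr rfl fun t _ => nrm_rpow hp0 _
  rw [hsum]
  set X : ℝ := (∑ i, |x i| ^ p) ^ (1 / p) with hXdef
  set Y : ℝ := (∑ i, |y i| ^ p) ^ (1 / p) with hYdef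
  have hsn : ∀ z : (Fin O × Fin (J + 2)) × Fin m → ℝ, 0 ≤ ∑ i, |z i| ^ p := fun z =>
    sum_nonneg fun _ _ => by positivity
  have hXp : X ^ p = ∑ i, |x i| ^ p := by
    rw [hXdef, one_div, Real.rpow_inv_rpow (hsn x) hp0.ne']
  have hYp : Y ^ p = ∑ i, |y i| ^ p := by
    rw [hYdef, one_div, Real.rpow_inv_rpow (hsn y) hp0.ne']
  have hT1 : 1 ≤ (O : ℝ) * (J + 2) := by nlinarith [(Nat.cast_nonneg J : (0 : ℝ) ≤ J)]
  -- the error
  have hXY : |X - Y| ≤ η / 2 * d ∧ |X - Y| ≤ 1 / 2 * d := by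
    have h1 : |X - Y| ≤ (∑ i, |x i - y i| ^ p) ^ (1 / p) := abs_lp_sub_le hp.le x y
    have h2 : ∑ i, |x i - y i| ^ p ≤ ((O : ℝ) * (J + 2)) * (2 * ε₁ * d) ^ p := by
      rw [Fintype.sum_prod_type]
      refine (sum_le_card_nsmul univ _ ((2 * ε₁ * d) ^ p) fun t _ => ?_).trans_eq ?_
      · rw [← nrm_rpow hp0 (fun ω => x (t, ω) - y (t, ω))]
        refine Real.rpow_le_rpow (nrm_nonneg _ _) ?_ hp0.le
        have e1 : (fun ω => x (t, ω) - y (t, ω)) = fun ω => s *
            ((hh t.1 ((t.2 : ℕ) + 1) a ω - hh t.1 ((t.2 : ℕ) + 1) b ω -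
              w t.1 ((t.2 : ℕ) + 1) ω * (f a ω - f b ω)) +
            -(hh t.1 t.2 a ω - hh t.1 t.2 b ω - w t.1 t.2 ω * (f a ω - f b ω))) := by
          funext ω
          simp only [hx, hy, hG]
          ring
        rw [e1, nrm_smul hp0, abs_of_pos hs0]
        refine (mul_le_of_le_one_left (nrm_nonneg _ _) hs1).trans ((nrm_add hp.le _ _).trans ?_)
        rw [nrm_neg]
        linarith [herr t.1 ((t.2 : ℕ) + 1), herr t.1 t.2]
      · simp [Fintype.card_prod]
    have h3 : |X - Y| ≤ (O : ℝ) * (J + 2) * (2 * ε₁ * d) := by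
      refine h1.trans ((Real.rpow_le_rpow (hsn _) h2 (by positivity)).trans ?_)
      rw [Real.mul_rpow (by positivity) (by positivity), ← Real.rpow_mul (by positivity),
        mul_one_div_cancel hp0.ne', Real.rpow_one]
      refine mul_le_mul_of_nonneg_right ?_ (by positivity)
      exact Real.rpow_le_self_of_one_le hT1 (by rw [div_le_one hp0]; linarith)
    have h4 : (O : ℝ) * (J + 2) * (2 * ε₁ * d) = min η 1 / 2 * d := by
      rw [hε₁]
      field_simp
      ring
    rw [h4] at h3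
    exact ⟨h3.trans (mul_le_mul_of_nonneg_right
        (div_le_div_of_nonneg_right (min_le_left η 1) zero_le_two) hd0.le),
      h3.trans (mul_le_mul_of_nonneg_right
        (div_le_div_of_nonneg_right (min_le_right η 1) zero_le_two) hd0.le)⟩
  -- the main part
  have hw01 : ∀ o j ω, 0 ≤ w o j ω ∧ w o j ω ≤ 1 := fun o j ω => by
    simp only [hw]
    split_ifs
    · norm_num
    · exact hθ01 o j ω
    · norm_num
  have hYbd : (1 - ε / 2) * d ^ p ≤ Y ^ p ∧ Y ^ p ≤ d ^ p := by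
    have hmain := weights_additive (O := O) (J := J) (m := m) hp.le hO1 hN0 hN1 hd₁0 hd0.le lev
      (fun o j hj => by simp only [hlev, hex, if_pos hj])
      (fun ω => f a ω - f b ω) w hw01 (fun o ω => by simp [hw])
      (fun o ω => by simp [hw]) (fun o j ω hj0 hj h => by
        simp only [hw, if_neg hj0, if_pos hj]; exact hθone o j ω h)
      (fun o j ω hj0 hj h => by
        simp only [hw, if_neg hj0, if_pos hj]; exact hθzero o j ω h)
    have hY : Y ^ p = (O : ℝ)⁻¹ * ∑ ω, |f a ω - f b ω| ^ p *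
        ∑ o, ∑ j ∈ range (J + 2), |w o (j + 1) ω - w o j ω| ^ p := by
      rw [hYp, Fintype.sum_prod_type, sum_comm, mul_sum]
      refine sum_congr rfl fun ω _ => ?_
      rw [Fintype.sum_prod_type, mul_sum, mul_sum]
      refine sum_congr rfl fun o _ => ?_
      rw [mul_sum, mul_sum, ← Fin.sum_univ_eq_sum_range (n := J + 2)]
      refine sum_congr rfl fun j _ => ?_
      simp only [hy]
      rw [abs_mul, abs_mul, Real.mul_rpow (abs_nonneg _) (by positivity),
        Real.mul_rpow (abs_nonneg _) (abs_nonneg _), abs_of_pos hs0, hsp]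
      ring
    have hdp : d ^ p = ∑ ω, |f a ω - f b ω| ^ p := nrm_rpow hp0 _
    rw [hY, hdp]
    exact average_bounds hε hOR hOε (fun _ => by positivity) hmain
  -- continuity
  rw [← hXp]
  exact abs_rpow_sub_le_of_close hp0 hd0 hη hε hcont (Real.rpow_nonneg (hsn x) _)
    (Real.rpow_nonneg (hsn y) _) hXY.1 hXY.2 hYbd.1 hYbd.2

end

end Vale.Agent.P249.AllD
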