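import Vale.Agent.P249.AllD.Base

/-! # The stopping inequality at one coordinate -/

open Finset

namespace Vale.Agent.P249.AllD

noncomputable section

namespace Stop

/-- The soft indicator of size above one. -/
def sig (y : ℝ) : ℝ := max 0 (min 1 (y - 1))

lemma sta_eq (k : ℕ) (y : ℝ) : sta k y = sig y ^ k := rfl

lemma sig_nonneg (y : ℝ) : 0 ≤ sig y := le_max_left _ _

lemma sig_le_one (y : ℝ) : sig y ≤ 1 := max_le zero_le_one (min_le_left _ _)

lemma sta_nonneg (k : ℕ) (y : ℝ) : 0 ≤ sta k y := pow_nonneg (sig_nonneg y) k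

lemma sta_le_one (k : ℕ) (y : ℝ) : sta k y ≤ 1 := pow_le_one₀ (sig_nonneg y) (sig_le_one y)

lemma sta_eq_zero {k : ℕ} (hk : k ≠ 0) {y : ℝ} (hy : y ≤ 1) : sta k y = 0 := by
  have h : sig y = 0 := max_eq_left ((min_le_right _ _).trans (by linarith))
  rw [sta_eq, h, zero_pow hk]

lemma lt_two_of_sta_lt_one {k : ℕ} {y : ℝ} (h : sta k y < 1) : y < 2 := by
  by_contra h2
  push Not at h2
  have : sig y = 1 := by rw [sig, min_eq_left (by linarith), max_eq_right zero_le_one]
  rw [sta_eq, this, one_pow] at h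
  exact lt_irrefl _ h

lemma abs_sig_sub (y y' : ℝ) : |sig y - sig y'| ≤ |y - y'| ∧ |sig y - sig y'| ≤ 1 := by
  refine ⟨?_, abs_sub_le_iff.2 ⟨?_, ?_⟩⟩
  · calc |sig y - sig y'| ≤ |min 1 (y - 1) - min 1 (y' - 1)| := by
          simpa only [sig, max_comm (0 : ℝ)] using abs_max_sub_max_le_abs _ _ (0 : ℝ)
      _ ≤ |(y - 1) - (y' - 1)| := by
          simpa only [min_comm (1 : ℝ)] using abs_min_sub_min_le_max (y - 1) 1 (y' - 1) 1 |>.trans
            (by simp)
      _ = |y - y'| := by ring_nf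
  · linarith [sig_le_one y, sig_nonneg y']
  · linarith [sig_le_one y', sig_nonneg y]

lemma abs_sta_sub {k : ℕ} (y y' : ℝ) :
    |sta k y - sta k y'| ≤ k * max (sig y) (sig y') ^ (k - 1) * |sig y - sig y'| := by
  have := abs_pow_sub_pow_le (sig y) (sig y') k
  rw [abs_of_nonneg (sig_nonneg y), abs_of_nonneg (sig_nonneg y')] at this
  rw [sta_eq, sta_eq]
  refine this.trans (le_of_eq ?_)
  ring

/-- The difference of two products, expanded from the top. -/
lemma prod_sub_prod (u w : ℕ → ℝ) (B : ℕ) : ∀ b, b ≤ B + 1 →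
    ∏ q ∈ Icc b B, u q - ∏ q ∈ Icc b B, w q =
      ∑ q ∈ Icc b B, (u q - w q) * (∏ i ∈ Icc (q + 1) B, w i) * ∏ i ∈ Ico b q, u i := by
  intro b hb
  induction hn : B + 1 - b generalizing b with
  | zero => rw [Icc_eq_empty (by omega)]; simp
  | succ n ih =>
    have hb' : b ≤ B := by omega
    have e : Icc b B = insert b (Icc (b + 1) B) := by ext x; simp; omega
    have hmem : b ∉ Icc (b + 1) B := by simp
    rw [e, prod_insert hmem, prod_insert hmem, sum_insert hmem, Ico_self, prod_empty, mul_one]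
    have h := ih (b + 1) (by omega) (by omega)
    have e2 : ∑ q ∈ Icc (b + 1) B, (u q - w q) * (∏ i ∈ Icc (q + 1) B, w i) * ∏ i ∈ Ico b q, u i =
        u b * ∑ q ∈ Icc (b + 1) B, (u q - w q) * (∏ i ∈ Icc (q + 1) B, w i) *
          ∏ i ∈ Ico (b + 1) q, u i := by
      rw [mul_sum]
      refine sum_congr rfl fun q hq => ?_
      have hq' := mem_Icc.1 hq
      rw [← Finset.insert_Ico_succ_left_eq_Ico (show b < q by omega), Order.succ_eq_add_one,
        prod_insert (by simp)]
      ring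
    rw [e2, ← h]
    ring

/-- The stopping weights from the top add up to at most one. -/
lemma sum_stop_le_one (w : ℕ → ℝ) (B : ℕ) (h0 : ∀ q, 0 ≤ w q) : ∀ b,
    ∑ q ∈ Icc b B, (1 - w q) * ∏ i ∈ Icc (q + 1) B, w i ≤ 1 := by
  intro b
  rcases Nat.lt_or_ge B b with h | h
  · rw [Icc_eq_empty (by omega)]; simp
  · have := prod_sub_prod (fun _ => (1 : ℝ)) w B b (by omega)
    simp only [prod_const_one, mul_one] at this
    rw [← this]
    linarith [prod_nonneg (s := Icc b B) fun q _ => h0 q]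

lemma sum_rho_le {ρ : ℕ → ℝ} (h0 : ∀ b, 0 < ρ b) (h2 : ∀ b, 2 * ρ b ≤ ρ (b + 1)) :
    ∀ q, ∑ b ∈ range (q + 1), ρ b ≤ 2 * ρ q := by
  intro q
  induction q with
  | zero => simp; linarith [h0 0]
  | succ q ih => rw [sum_range_succ]; linarith [h2 q]

lemma rpow_sum_ge {α : Type*} {S : Finset α} {Y : α → ℝ} {k : ℕ} (hk : k ≠ 0)
    (hY : ∀ q ∈ S, 0 ≤ Y q) {q : α} (hq : q ∈ S) :
    Y q ≤ (∑ i ∈ S, Y i ^ k) ^ (k : ℝ)⁻¹ := by
  have h := Real.rpow_le_rpow (pow_nonneg (hY q hq) k)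
    (single_le_sum (f := fun i => Y i ^ k) (fun i hi => pow_nonneg (hY i hi) k) hq)
    (show 0 ≤ (k : ℝ)⁻¹ by positivity)
  rwa [Real.pow_rpow_inv_natCast (hY q hq) hk] at h

/-- Hoelder with stopping weights. -/
lemma holder {S : Finset ℕ} {k : ℕ} (hk : 2 ≤ k) (σ π Y : ℕ → ℝ) (hσ : ∀ q, 0 ≤ σ q)
    (hπ : ∀ q, 0 ≤ π q ∧ π q ≤ 1) (hY : ∀ q ∈ S, 0 ≤ Y q)
    (h1 : ∑ q ∈ S, σ q ^ k * π q ≤ 1) :
    ∑ q ∈ S, π q * σ q ^ (k - 1) * Y q ≤ (∑ q ∈ S, Y q ^ k) ^ (k : ℝ)⁻¹ := by
  have hkr : (2 : ℝ) ≤ k := by exact_mod_cast hk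
  have hc : Real.HolderConjugate ((k : ℝ) / (k - 1)) k :=
    ((Real.HolderConjugate.conjExponent (show (1 : ℝ) < k by linarith))).symm
  refine (Real.inner_le_Lp_mul_Lq_of_nonneg S hc (fun q _ => by
    have := hσ q; have := (hπ q).1; positivity) hY).trans ?_
  simp only [Real.rpow_natCast, one_div]
  refine mul_le_of_le_one_left
    (Real.rpow_nonneg (sum_nonneg fun q hq => pow_nonneg (hY q hq) k) _)
    (Real.rpow_le_one (sum_nonneg fun q _ => ?_) (le_trans (sum_le_sum fun q _ => ?_) h1)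
      (by have := div_pos (show (0 : ℝ) < k by linarith) (show (0 : ℝ) < k - 1 by linarith)
          exact inv_nonneg.2 this.le))
  · have := hσ q; have := (hπ q).1; positivity
  · rw [Real.mul_rpow (hπ q).1 (pow_nonneg (hσ q) _), ← Real.rpow_natCast (σ q) (k - 1),
      ← Real.rpow_mul (hσ q), Nat.cast_sub (by omega), Nat.cast_one,
      mul_div_cancel₀ _ (by linarith : (k : ℝ) - 1 ≠ 0), Real.rpow_natCast, mul_comm]
    refine mul_le_mul_of_nonneg_left ?_ (pow_nonneg (hσ q) _)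
    rcases (hπ q).1.eq_or_lt with h | h
    · rw [← h, Real.zero_rpow (by
        have := div_pos (show (0 : ℝ) < k by linarith) (show (0 : ℝ) < k - 1 by linarith)
        exact this.ne')]
    · refine (Real.rpow_le_rpow_of_exponent_ge h (hπ q).2 ?_).trans (le_of_eq (Real.rpow_one _))
      rw [one_le_div (by linarith)]; linarith

/-- The hypotheses of the stopping inequality. -/
structure Hyp (B c₀ c : ℕ) (l d r : ℝ) (z z' D D' X ρ : ℕ → ℝ) : Prop where
  hl : 0 < l
  hd : 0 < d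
  hr : 1 ≤ r
  h01 : c₀ ≤ c
  hcB : c ≤ B + 1
  h3 : c ≤ c₀ + 3
  hρ : ∀ b, 0 < ρ b
  hdbl : ∀ b, 2 * ρ b ≤ ρ (b + 1)
  hlow : ∀ b, b < c₀ → ρ b ≤ d
  hmid : ∀ b, b < c → ρ b ≤ r * d
  hD : ∀ b, 0 ≤ D b
  hD' : ∀ b, 0 ≤ D' b
  hzB : z (B + 1) = z' (B + 1)
  hDB : D (B + 1) = D' (B + 1)
  hX : ∀ b, b ≤ B + 1 → |z b - z' b| + |D b - D' b| ≤ d * X b
  hcr : ∀ b, c ≤ b → b ≤ B →
    |z b - z' b| + |D b - D' b| ≤ r * d * D b / ρ b ∧
    |z b - z' b| + |D b - D' b| ≤ r * d * D' b / ρ b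

variable {B c₀ c k : ℕ} {l d r : ℝ} {z z' D D' X ρ : ℕ → ℝ}

lemma Hyp.symm (h : Hyp B c₀ c l d r z z' D D' X ρ) : Hyp B c₀ c l d r z' z D' D X ρ where
  hl := h.hl
  hd := h.hd
  hr := h.hr
  h01 := h.h01
  hcB := h.hcB
  h3 := h.h3
  hρ := h.hρ
  hdbl := h.hdbl
  hlow := h.hlow
  hmid := h.hmid
  hD := h.hD'
  hD' := h.hD
  hzB := h.hzB.symm
  hDB := h.hDB.symm
  hX b hb := by rw [abs_sub_comm, abs_sub_comm (D' b)]; exact h.hX b hb
  hcr b hb hb' := by
    rw [abs_sub_comm, abs_sub_comm (D' b)]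
    exact (h.hcr b hb hb').symm

/-- A band that is not stopped is small. -/
lemma band_le (h : Hyp B c₀ c l d r z z' D D' X ρ) {b : ℕ} (hs : sta k (siz l z D ρ b) < 1) :
    |z b - z (b + 1)| ≤ 2 * l * ρ b ∧ D b ≤ 2 * l * ρ b ∧ D (b + 1) ≤ 2 * l * ρ b := by
  have h2 := lt_two_of_sta_lt_one hs
  rw [siz, div_div, div_lt_iff₀ (mul_pos (h.hρ b) h.hl)] at h2
  have := h.hD b
  have := h.hD (b + 1)
  have := abs_nonneg (z b - z (b + 1))
  refine ⟨?_, ?_, ?_⟩ <;> linarith

/-- The moduli of the two levels of a band, capped. -/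
lemma modulus_le (h : Hyp B c₀ c l d r z z' D D' X ρ) {b : ℕ} (hb : c ≤ b) (hb' : b ≤ B + 1)
    (hs : b ≤ B → D b ≤ 2 * l * ρ b) : |z b - z' b| + |D b - D' b| ≤ 2 * r * l * d := by
  have := h.hl
  have := h.hd
  have := h.hr
  rcases Nat.lt_or_ge b (B + 1) with h1 | h1
  · refine (h.hcr b hb (by omega)).1.trans ?_
    rw [div_le_iff₀ (h.hρ b)]
    calc r * d * D b ≤ r * d * (2 * l * ρ b) :=
          mul_le_mul_of_nonneg_left (hs (by omega)) (by positivity)
      _ = _ := by ring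
  · obtain rfl : b = B + 1 := by omega
    rw [h.hzB, h.hDB, sub_self, sub_self, abs_zero, add_zero]
    positivity

/-- The capped modulus. -/
def cap (r l : ℝ) (X : ℕ → ℝ) (b : ℕ) : ℝ := min (X b) (r * l)

lemma cap_nonneg (h : Hyp B c₀ c l d r z z' D D' X ρ) {b : ℕ} (hb : b ≤ B + 1) :
    0 ≤ cap r l X b := by
  refine le_min ?_ (mul_nonneg (by linarith [h.hr]) h.hl.le)
  by_contra hneg
  have := h.hX b hb
  nlinarith [abs_nonneg (z b - z' b), abs_nonneg (D b - D' b), mul_neg_of_pos_of_neg h.hd (not_le.1 hneg)]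

lemma le_cap (h : Hyp B c₀ c l d r z z' D D' X ρ) {b : ℕ} (hb : b ≤ B + 1) {u : ℝ}
    (h1 : u ≤ d * (X b)) (h2 : u ≤ 4 * r * l * d) : u ≤ 4 * d * cap r l X b := by
  have := h.hd
  rcases le_total (X b) (r * l) with hh | hh
  · rw [cap, min_eq_left hh]
    have hc : 0 ≤ d * X b := le_trans (by positivity) (h.hX b hb)
    nlinarith
  · rw [cap, min_eq_right hh]; nlinarith

lemma le_cap_two (h : Hyp B c₀ c l d r z z' D D' X ρ) {b : ℕ} (hb : b ≤ B) {u : ℝ}
    (h1 : u ≤ d * X b + d * X (b + 1)) (h2 : u ≤ 4 * r * l * d) :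
    u ≤ 4 * d * (cap r l X b + cap r l X (b + 1)) := by
  have := h.hd
  have hc1 := cap_nonneg h (show b ≤ B + 1 by omega)
  have hc2 := cap_nonneg h (show b + 1 ≤ B + 1 by omega)
  rcases le_total (X b) (r * l) with hh | hh
  · rcases le_total (X (b + 1)) (r * l) with hh' | hh'
    · rw [cap, cap, min_eq_left hh, min_eq_left hh'] at *; nlinarith
    · have e : cap r l X (b + 1) = r * l := min_eq_right hh'
      rw [e]; nlinarith
  · have e : cap r l X b = r * l := min_eq_right hh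
    rw [e]; nlinarith

/-- The pointwise maximum of the two indicators. -/
def sup' (k : ℕ) (l : ℝ) (z z' D D' ρ : ℕ → ℝ) (q : ℕ) : ℝ :=
  max (sta k (siz l z D ρ q)) (sta k (siz l z' D' ρ q))

/-- The common product. -/
def chU (k B : ℕ) (l : ℝ) (z z' D D' ρ : ℕ → ℝ) (b : ℕ) : ℝ :=
  ∏ q ∈ Icc b B, (1 - sup' k l z z' D D' ρ q)

lemma sup'_mem (q : ℕ) : 0 ≤ sup' k l z z' D D' ρ q ∧ sup' k l z z' D D' ρ q ≤ 1 :=
  ⟨(sta_nonneg _ _).trans (le_max_left _ _), max_le (sta_le_one _ _) (sta_le_one _ _)⟩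

lemma chU_mem (b : ℕ) : 0 ≤ chU k B l z z' D D' ρ b ∧ chU k B l z z' D D' ρ b ≤ 1 :=
  ⟨prod_nonneg fun q _ => sub_nonneg.2 (sup'_mem q).2,
    prod_le_one (fun q _ => sub_nonneg.2 (sup'_mem q).2)
      fun q _ => sub_le_self _ (sup'_mem q).1⟩

lemma sta_lt_one_of_chU {b q : ℕ} (hb : chU k B l z z' D D' ρ b ≠ 0) (hq : q ∈ Icc b B) :
    sta k (siz l z D ρ q) < 1 ∧ sta k (siz l z' D' ρ q) < 1 := by
  have := prod_ne_zero_iff.1 hb q hq
  have h1 : sup' k l z z' D D' ρ q < 1 :=
    lt_of_le_of_ne (sup'_mem q).2 fun e => this (by rw [e]; ring)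
  exact ⟨(le_max_left _ _).trans_lt h1, (le_max_right _ _).trans_lt h1⟩

/-- The norm of the capped moduli. -/
def tot (k B c₀ : ℕ) (r l : ℝ) (X : ℕ → ℝ) : ℝ :=
  (∑ b ∈ Icc c₀ (B + 1), cap r l X b ^ k) ^ (k : ℝ)⁻¹

lemma cap_le_tot (h : Hyp B c₀ c l d r z z' D D' X ρ) (hk : k ≠ 0) {b : ℕ} (h0 : c₀ ≤ b)
    (hb : b ≤ B + 1) : cap r l X b ≤ tot k B c₀ r l X :=
  rpow_sum_ge hk (fun i hi => cap_nonneg h (mem_Icc.1 hi).2) (mem_Icc.2 ⟨h0, hb⟩)

lemma tot_nonneg (h : Hyp B c₀ c l d r z z' D D' X ρ) : 0 ≤ tot k B c₀ r l X :=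
  Real.rpow_nonneg (sum_nonneg fun i hi => pow_nonneg (cap_nonneg h (mem_Icc.1 hi).2) k) _

lemma low_sum_le (h : Hyp B c₀ c l d r z z' D D' X ρ) : ∑ b ∈ range c₀, ρ b ≤ 2 * d := by
  rcases Nat.eq_zero_or_pos c₀ with h0 | h0
  · rw [h0]; simp; exact h.hd.le
  · obtain ⟨e, rfl⟩ : ∃ e, c₀ = e + 1 := ⟨c₀ - 1, by omega⟩
    linarith [sum_rho_le h.hρ h.hdbl e, h.hlow e (by omega)]

/-- The bands below the distance. -/
lemma low_part (h : Hyp B c₀ c l d r z z' D D' X ρ) :
    |∑ b ∈ range c₀, chi k B l z D ρ b * (z b - z (b + 1))| ≤ 4 * l * d := by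
  have hcB : c₀ ≤ B + 1 := h.h01.trans h.hcB
  calc |∑ b ∈ range c₀, chi k B l z D ρ b * (z b - z (b + 1))|
      ≤ ∑ b ∈ range c₀, 2 * l * ρ b := by
        refine (abs_sum_le_sum_abs _ _).trans (sum_le_sum fun b hb => ?_)
        have hb' : b ≤ B := by have := mem_range.1 hb; omega
        have hchi : 0 ≤ chi k B l z D ρ b ∧ chi k B l z D ρ b ≤ 1 :=
          ⟨prod_nonneg fun q _ => sub_nonneg.2 (sta_le_one _ _),
            prod_le_one (fun q _ => sub_nonneg.2 (sta_le_one _ _))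
              fun q _ => sub_le_self _ (sta_nonneg _ _)⟩
        rw [abs_mul, abs_of_nonneg hchi.1]
        by_cases h0 : chi k B l z D ρ b = 0
        · rw [h0, zero_mul]; have := h.hρ b; have := h.hl; positivity
        · have hs : sta k (siz l z D ρ b) < 1 :=
            lt_of_le_of_ne (sta_le_one _ _) fun e =>
              prod_ne_zero_iff.1 h0 b (mem_Icc.2 ⟨le_rfl, hb'⟩) (by rw [e]; ring)
          exact (mul_le_of_le_one_left (abs_nonneg _) hchi.2).trans (band_le h hs).1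
    _ ≤ _ := by
        rw [← mul_sum]
        nlinarith [low_sum_le h, h.hl]

/-- The change of the band times the common product. -/
lemma main_part (h : Hyp B c₀ c l d r z z' D D' X ρ) (hk : k ≠ 0) :
    |∑ b ∈ Icc c₀ B, chU k B l z z' D D' ρ b * ((z b - z (b + 1)) - (z' b - z' (b + 1)))| ≤
      28 * d * tot k B c₀ r l X := by
  have hT := tot_nonneg (k := k) h
  have hd := h.hd
  have hr := h.hr
  set P := chU k B l z z' D D' ρ with hP
  have hP0 : ∀ b, 0 ≤ P b ∧ P b ≤ 1 := fun b => chU_mem b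
  have e : Icc c₀ B = Ico c₀ c ∪ Icc c B := by
    have := h.h01; have := h.hcB
    ext x; simp; omega
  rw [e, sum_union (by rw [disjoint_left]; intro x; simp; omega)]
  -- the bands near the distance
  have hmid : |∑ b ∈ Ico c₀ c, P b * ((z b - z (b + 1)) - (z' b - z' (b + 1)))| ≤
      24 * d * tot k B c₀ r l X := by
    refine (abs_sum_le_sum_abs _ _).trans ?_
    have hone : ∀ b ∈ Ico c₀ c, |P b * ((z b - z (b + 1)) - (z' b - z' (b + 1)))| ≤
        8 * d * tot k B c₀ r l X := by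
      intro b hb
      have hb' := mem_Ico.1 hb
      have := h.hcB
      rw [abs_mul, abs_of_nonneg (hP0 b).1]
      by_cases h0 : P b = 0
      · rw [h0, zero_mul]; positivity
      refine (mul_le_of_le_one_left (abs_nonneg _) (hP0 b).2).trans ?_
      obtain ⟨s1, s2⟩ := sta_lt_one_of_chU h0 (mem_Icc.2 ⟨le_rfl, by omega⟩ : b ∈ Icc b B)
      have b1 := (band_le h s1).1
      have b2 := (band_le h.symm s2).1
      have hρd := mul_le_mul_of_nonneg_left (h.hmid b hb'.2) h.hl.le
      have x1 := h.hX b (by omega)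
      have x2 := h.hX (b + 1) (by omega)
      have := le_cap_two h (show b ≤ B by omega)
        (u := |(z b - z (b + 1)) - (z' b - z' (b + 1))|)
        (by
          have := abs_sub (z b - z' b) (z (b + 1) - z' (b + 1))
          rw [show z b - z (b + 1) - (z' b - z' (b + 1)) =
            (z b - z' b) - (z (b + 1) - z' (b + 1)) by ring]
          linarith [abs_nonneg (D b - D' b), abs_nonneg (D (b + 1) - D' (b + 1))])
        (by linarith [abs_sub (z b - z (b + 1)) (z' b - z' (b + 1))])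
      refine this.trans ?_
      nlinarith [cap_le_tot h hk (show c₀ ≤ b by omega) (show b ≤ B + 1 by omega),
        cap_le_tot h hk (show c₀ ≤ b + 1 by omega) (show b + 1 ≤ B + 1 by omega)]
    refine (sum_le_card_nsmul _ _ _ hone).trans ?_
    rw [nsmul_eq_mul, Nat.card_Ico]
    have : ((c - c₀ : ℕ) : ℝ) ≤ 3 := by
      have := h.h3; exact_mod_cast (show c - c₀ ≤ 3 by omega)
    calc ((c - c₀ : ℕ) : ℝ) * (8 * d * tot k B c₀ r l X)
        ≤ 3 * (8 * d * tot k B c₀ r l X) := mul_le_mul_of_nonneg_right this (by positivity)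
      _ = _ := by ring
  -- the bands above the distance: a subconvex combination of moduli
  set Q := 4 * d * tot k B c₀ r l X with hQ
  have hterm : ∀ b, c ≤ b → b ≤ B + 1 → P b * |z b - z' b| ≤ P b * Q := by
    intro b hb hb'
    by_cases h0 : P b = 0
    · rw [h0]; simp
    refine mul_le_mul_of_nonneg_left ?_ (hP0 b).1
    have hm := modulus_le h hb hb' fun hbB =>
      (band_le h (sta_lt_one_of_chU h0 (mem_Icc.2 ⟨le_rfl, hbB⟩)).1).2.1
    have := h.h01
    have := le_cap h hb' (u := |z b - z' b|)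
      (by linarith [h.hX b hb', abs_nonneg (D b - D' b)])
      (by
        have : 0 ≤ r * l * d := by have := h.hl; positivity
        linarith [abs_nonneg (D b - D' b)])
    exact this.trans
      (mul_le_mul_of_nonneg_left (cap_le_tot h hk (by omega) hb') (by positivity))
  have habel : ∀ a, c ≤ a → a ≤ B + 1 →
      |(∑ b ∈ Icc a B, P b * ((z b - z (b + 1)) - (z' b - z' (b + 1)))) - P a * (z a - z' a)| ≤
        (1 - P a) * Q := by
    intro a ha ha'
    induction hn : B + 1 - a generalizing a with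
    | zero =>
      obtain rfl : a = B + 1 := by omega
      rw [Icc_eq_empty (by omega)]
      have : P (B + 1) = 1 := by
        rw [hP, chU, Icc_eq_empty (by omega)]; simp
      simp [h.hzB, this]
    | succ n ih =>
      have haB : a ≤ B := by omega
      have e2 : Icc a B = insert a (Icc (a + 1) B) := by ext x; simp; omega
      rw [e2, sum_insert (by simp)]
      have hi := ih (a + 1) (by omega) (by omega) (by omega)
      have hrec : P a = (1 - sup' k l z z' D D' ρ a) * P (a + 1) := by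
        rw [hP, chU, chU, e2, prod_insert (by simp)]
      obtain ⟨s0, s1⟩ := sup'_mem (k := k) (l := l) (z := z) (z' := z') (D := D) (D' := D') (ρ := ρ) a
      set s := sup' k l z z' D D' ρ a
      set R := ∑ b ∈ Icc (a + 1) B, P b * ((z b - z (b + 1)) - (z' b - z' (b + 1)))
      have e3 : P a * ((z a - z (a + 1)) - (z' a - z' (a + 1))) + R - P a * (z a - z' a) =
          (R - P (a + 1) * (z (a + 1) - z' (a + 1))) +
            s * (P (a + 1) * (z (a + 1) - z' (a + 1))) := by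
        rw [hrec]; ring
      rw [e3]
      refine (abs_add_le _ _).trans ?_
      rw [abs_mul s, abs_mul (P (a + 1)), abs_of_nonneg s0, abs_of_nonneg (hP0 (a + 1)).1]
      have := mul_le_mul_of_nonneg_left (hterm (a + 1) (by omega) (by omega)) s0
      calc _ ≤ (1 - P (a + 1)) * Q + s * (P (a + 1) * Q) := add_le_add hi this
        _ = (1 - P a) * Q := by rw [hrec]; ring
  have hhigh := habel c le_rfl h.hcB
  have h1 := hterm c le_rfl h.hcB
  set S := ∑ b ∈ Icc c B, P b * ((z b - z (b + 1)) - (z' b - z' (b + 1)))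
  have hS : |S| ≤ Q := by
    have := abs_add_le (S - P c * (z c - z' c)) (P c * (z c - z' c))
    rw [sub_add_cancel, abs_mul, abs_of_nonneg (hP0 c).1] at this
    linarith
  refine (abs_add_le _ _).trans ?_
  rw [hQ] at hS
  linarith

/-- The loss by replacing the product of one end by the common product. -/
lemma side_part (h : Hyp B c₀ c l d r z z' D D' X ρ) (hk : 2 ≤ k) :
    |∑ b ∈ Icc c₀ B, (chi k B l z D ρ b - chU k B l z z' D D' ρ b) * (z b - z (b + 1))| ≤
      32 * k * d * tot k B c₀ r l X := by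
  have hd := h.hd
  have hl := h.hl
  have hr := h.hr
  set u := fun q => 1 - sta k (siz l z D ρ q) with hu
  set w := fun q => 1 - sup' k l z z' D D' ρ q with hw
  have hu0 : ∀ q, 0 ≤ u q ∧ u q ≤ 1 := fun q =>
    ⟨sub_nonneg.2 (sta_le_one _ _), sub_le_self _ (sta_nonneg _ _)⟩
  have hw0 : ∀ q, 0 ≤ w q ∧ w q ≤ 1 := fun q =>
    ⟨sub_nonneg.2 (sup'_mem q).2, sub_le_self _ (sup'_mem q).1⟩
  have hwu : ∀ q, w q ≤ u q := fun q => by
    simp only [hu, hw, sup']; linarith [le_max_left (sta k (siz l z D ρ q)) (sta k (siz l z' D' ρ q))]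
  set π := fun q => ∏ i ∈ Icc (q + 1) B, w i with hπ
  have hπ0 : ∀ q, 0 ≤ π q ∧ π q ≤ 1 := fun q =>
    ⟨prod_nonneg fun i _ => (hw0 i).1, prod_le_one (fun i _ => (hw0 i).1) fun i _ => (hw0 i).2⟩
  -- exchange the sums
  have hstep : |∑ b ∈ Icc c₀ B, (chi k B l z D ρ b - chU k B l z z' D D' ρ b) *
      (z b - z (b + 1))| ≤ ∑ q ∈ Icc c₀ B, (u q - w q) * π q * (4 * l * ρ q) := by
    calc _ ≤ ∑ b ∈ Icc c₀ B, ∑ q ∈ Icc b B, (u q - w q) * π q * (2 * l * ρ b) := by
          refine (abs_sum_le_sum_abs _ _).trans (sum_le_sum fun b hb => ?_)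
          have hb' := mem_Icc.1 hb
          rw [chi, chU, show (∏ q ∈ Icc b B, (1 - sta k (siz l z D ρ q))) -
            (∏ q ∈ Icc b B, (1 - sup' k l z z' D D' ρ q)) = _ from
              prod_sub_prod u w B b (by omega), sum_mul]
          refine (abs_sum_le_sum_abs _ _).trans (sum_le_sum fun q hq => ?_)
          have hq' := mem_Icc.1 hq
          have hp0 : 0 ≤ ∏ i ∈ Ico b q, u i := prod_nonneg fun i _ => (hu0 i).1
          have hF : 0 ≤ (u q - w q) * π q := mul_nonneg (sub_nonneg.2 (hwu q)) (hπ0 q).1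
          rw [abs_mul, abs_mul, abs_of_nonneg hF, abs_of_nonneg hp0, mul_assoc]
          by_cases hz : (u q - w q) * π q * ∏ i ∈ Ico b q, u i = 0
          · rw [← mul_assoc, hz, zero_mul]
            exact mul_nonneg hF (by have := h.hρ b; positivity)
          refine mul_le_mul_of_nonneg_left ?_ hF
          refine (mul_le_of_le_one_left (abs_nonneg _)
            (prod_le_one (fun i _ => (hu0 i).1) fun i _ => (hu0 i).2)).trans (band_le h (k := k) ?_).1
          refine lt_of_le_of_ne (sta_le_one _ _) fun e => hz ?_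
          have hub : u b = 0 := by simp [hu, e]
          rcases eq_or_lt_of_le hq'.1 with rfl | hlt
          · have hwb : w b = 0 := le_antisymm (hub ▸ hwu b) (hw0 b).1
            simp [hub, hwb]
          · rw [prod_eq_zero (mem_Ico.2 ⟨le_rfl, hlt⟩) hub, mul_zero]
      _ = ∑ q ∈ Icc c₀ B, ∑ b ∈ Icc c₀ q, (u q - w q) * π q * (2 * l * ρ b) := by
          refine sum_comm' fun b q => ?_
          simp only [mem_Icc]
          omega
      _ ≤ _ := by
          refine sum_le_sum fun q _ => ?_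
          rw [← mul_sum]
          refine mul_le_mul_of_nonneg_left ?_ (mul_nonneg (sub_nonneg.2 (hwu q)) (hπ0 q).1)
          rw [← mul_sum]
          have h1 : ∑ b ∈ Icc c₀ q, ρ b ≤ ∑ b ∈ range (q + 1), ρ b :=
            sum_le_sum_of_subset_of_nonneg (fun x hx => by simp at hx ⊢; omega)
              fun x _ _ => (h.hρ x).le
          nlinarith [sum_rho_le h.hρ h.hdbl q]
  -- one index
  set σ := fun q => max (sig (siz l z D ρ q)) (sig (siz l z' D' ρ q)) with hσ
  set Y := fun q => cap r l X q + cap r l X (q + 1) with hY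
  have hone : ∀ q ∈ Icc c₀ B, (u q - w q) * π q * (4 * l * ρ q) ≤
      16 * k * d * (π q * σ q ^ (k - 1) * Y q) := by
    intro q hq
    have hq' := mem_Icc.1 hq
    have hσ0 : 0 ≤ σ q := (sig_nonneg _).trans (le_max_left _ _)
    have hY0 : 0 ≤ Y q := add_nonneg (cap_nonneg h (by omega)) (cap_nonneg h (by omega))
    by_cases hs : sta k (siz l z D ρ q) < 1
    swap
    · have h1 : sta k (siz l z D ρ q) = 1 := le_antisymm (sta_le_one _ _) (not_lt.1 hs)
      have e1 : u q - w q = 0 := by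
        have := hwu q; have := (hw0 q).1
        simp only [hu, h1] at *
        linarith
      have := (hπ0 q).1
      rw [e1, zero_mul, zero_mul]; positivity
    have hdiff : u q - w q ≤ |sta k (siz l z D ρ q) - sta k (siz l z' D' ρ q)| := by
      simp only [hu, hw, sup']
      rcases le_total (sta k (siz l z D ρ q)) (sta k (siz l z' D' ρ q)) with hh | hh
      · rw [max_eq_right hh, abs_of_nonpos (by linarith)]; linarith
      · rw [max_eq_left hh, sub_self]; exact abs_nonneg _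
    obtain ⟨s1, s2⟩ := abs_sig_sub (siz l z D ρ q) (siz l z' D' ρ q)
    have hbd := band_le h hs
    have hlρ : 0 < l * ρ q := mul_pos hl (h.hρ q)
    have g1 : |sig (siz l z D ρ q) - sig (siz l z' D' ρ q)| * (l * ρ q) ≤
        (|z q - z' q| + |D q - D' q|) + (|z (q + 1) - z' (q + 1)| + |D (q + 1) - D' (q + 1)|) := by
      refine (mul_le_mul_of_nonneg_right s1 hlρ.le).trans ?_
      rw [← abs_of_pos hlρ, ← abs_mul]
      have e : (siz l z D ρ q - siz l z' D' ρ q) * (l * ρ q) =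
          (|z q - z (q + 1)| - |z' q - z' (q + 1)|) + (D q - D' q) + (D (q + 1) - D' (q + 1)) := by
        have := (h.hρ q).ne'
        simp only [siz]; field_simp; ring
      rw [e]
      refine (abs_add_three _ _ _).trans ?_
      have h4 := abs_abs_sub_abs_le_abs_sub (z q - z (q + 1)) (z' q - z' (q + 1))
      have h5 := abs_sub (z q - z' q) (z (q + 1) - z' (q + 1))
      rw [show z q - z' q - (z (q + 1) - z' (q + 1)) = z q - z (q + 1) - (z' q - z' (q + 1)) by ring] at h5
      linarith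
    have g2 : |sig (siz l z D ρ q) - sig (siz l z' D' ρ q)| * (l * ρ q) ≤ 4 * r * l * d := by
      rcases Nat.lt_or_ge q c with hc | hc
      · have := mul_le_mul_of_nonneg_left (h.hmid q hc) hl.le
        have : 0 ≤ r * l * d := by positivity
        nlinarith [mul_le_mul_of_nonneg_right s2 hlρ.le]
      · have m1 := modulus_le h hc (by omega) fun _ => hbd.2.1
        have m2 := modulus_le h (b := q + 1) (by omega) (by omega) fun _ =>
          hbd.2.2.trans (mul_le_mul_of_nonneg_left (by linarith [h.hdbl q, h.hρ q]) (by linarith))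
        linarith
    have g := le_cap_two h hq'.2
      (g1.trans (by linarith [h.hX q (by omega), h.hX (q + 1) (by omega)])) g2
    calc (u q - w q) * π q * (4 * l * ρ q)
        ≤ (k * σ q ^ (k - 1) * |sig (siz l z D ρ q) - sig (siz l z' D' ρ q)|) * π q *
          (4 * l * ρ q) := by
          have := (hπ0 q).1
          have := (h.hρ q).le
          gcongr
          exact hdiff.trans (abs_sta_sub _ _)
      _ = 4 * k * π q * σ q ^ (k - 1) *
          (|sig (siz l z D ρ q) - sig (siz l z' D' ρ q)| * (l * ρ q)) := by ring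
      _ ≤ 4 * k * π q * σ q ^ (k - 1) * (4 * d * Y q) := by
          have := (hπ0 q).1
          gcongr
      _ = _ := by ring
  have hsum : ∑ q ∈ Icc c₀ B, σ q ^ k * π q ≤ 1 := by
    refine le_trans (le_of_eq (sum_congr rfl fun q _ => ?_)) (sum_stop_le_one w B (fun q => (hw0 q).1) c₀)
    have e : σ q ^ k = sup' k l z z' D D' ρ q := by
      simp only [hσ, sup', sta_eq]
      rcases le_total (sig (siz l z D ρ q)) (sig (siz l z' D' ρ q)) with hh | hh
      · rw [max_eq_right hh, max_eq_right (pow_le_pow_left₀ (sig_nonneg _) hh k)]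
      · rw [max_eq_left hh, max_eq_left (pow_le_pow_left₀ (sig_nonneg _) hh k)]
    rw [e]
    simp only [hπ, hw, sub_sub_cancel]
  have hY0 : ∀ q ∈ Icc c₀ B, 0 ≤ Y q := fun q hq =>
    add_nonneg (cap_nonneg h (by have := (mem_Icc.1 hq).2; omega))
      (cap_nonneg h (by have := (mem_Icc.1 hq).2; omega))
  have hhol := holder hk σ π Y (fun q => (sig_nonneg _).trans (le_max_left _ _)) hπ0 hY0 hsum
  have hY2 : (∑ q ∈ Icc c₀ B, Y q ^ k) ^ (k : ℝ)⁻¹ ≤ 2 * tot k B c₀ r l X := by
    have hk1 : (1 : ℝ) ≤ k := by exact_mod_cast (show 1 ≤ k by omega)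
    have hc1 : ∀ q ∈ Icc c₀ B, 0 ≤ cap r l X q := fun q hq =>
      cap_nonneg h (by have := (mem_Icc.1 hq).2; omega)
    have hc2 : ∀ q ∈ Icc c₀ B, 0 ≤ cap r l X (q + 1) := fun q hq =>
      cap_nonneg h (by have := (mem_Icc.1 hq).2; omega)
    have hmk := Real.Lp_add_le_of_nonneg (Icc c₀ B) hk1 hc1 hc2
    simp only [one_div, Real.rpow_natCast] at hmk
    refine hmk.trans ?_
    rw [two_mul, tot]
    refine add_le_add ?_ ?_
    · refine Real.rpow_le_rpow (sum_nonneg fun q hq => pow_nonneg (hc1 q hq) k) ?_ (by positivity)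
      exact sum_le_sum_of_subset_of_nonneg (Icc_subset_Icc_right (by omega))
        fun q hq _ => pow_nonneg (cap_nonneg h (mem_Icc.1 hq).2) k
    · refine Real.rpow_le_rpow (sum_nonneg fun q hq => pow_nonneg (hc2 q hq) k) ?_ (by positivity)
      rw [← sum_image (f := fun i => cap r l X i ^ k) (g := fun q => q + 1)
        (fun a _ b _ e => by simpa using e)]
      refine sum_le_sum_of_subset_of_nonneg (fun i hi => ?_)
        fun q hq _ => pow_nonneg (cap_nonneg h (mem_Icc.1 hq).2) k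
      simp only [mem_image, mem_Icc] at hi ⊢
      omega
  refine hstep.trans ((sum_le_sum hone).trans ?_)
  rw [← mul_sum]
  calc 16 * (k : ℝ) * d * ∑ q ∈ Icc c₀ B, π q * σ q ^ (k - 1) * Y q
      ≤ 16 * k * d * (2 * tot k B c₀ r l X) :=
        mul_le_mul_of_nonneg_left (hhol.trans hY2) (by positivity)
    _ = _ := by ring

lemma main_bound (h : Hyp B c₀ c l d r z z' D D' X ρ) (hk : 2 ≤ k) :
    |stv k B l z D ρ - stv k B l z' D' ρ| ≤
      100 * (k : ℝ) * d * (l + tot k B c₀ r l X) := by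
  have hcB : c₀ ≤ B + 1 := h.h01.trans h.hcB
  have hsp : ∀ F : ℕ → ℝ,
      ∑ b ∈ range (B + 1), F b = ∑ b ∈ range c₀, F b + ∑ b ∈ Icc c₀ B, F b := fun F => by
    rw [show Icc c₀ B = Ico c₀ (B + 1) by ext x; simp, sum_range_add_sum_Ico _ hcB]
  have hsup : ∀ q, sup' k l z' z D' D ρ q = sup' k l z z' D D' ρ q := fun q => max_comm _ _
  have hU : ∀ b, chU k B l z' z D' D ρ b = chU k B l z z' D D' ρ b := fun b => by
    simp only [chU, hsup]
  have e : stv k B l z D ρ - stv k B l z' D' ρ =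
      (∑ b ∈ range c₀, chi k B l z D ρ b * (z b - z (b + 1))) -
      (∑ b ∈ range c₀, chi k B l z' D' ρ b * (z' b - z' (b + 1))) +
      (∑ b ∈ Icc c₀ B, chU k B l z z' D D' ρ b * ((z b - z (b + 1)) - (z' b - z' (b + 1)))) +
      (∑ b ∈ Icc c₀ B, (chi k B l z D ρ b - chU k B l z z' D D' ρ b) * (z b - z (b + 1))) -
      (∑ b ∈ Icc c₀ B, (chi k B l z' D' ρ b - chU k B l z' z D' D ρ b) * (z' b - z' (b + 1))) := by
    simp only [stv, hsp, hU, h.hzB]
    have e2 : ∀ b, chU k B l z z' D D' ρ b * ((z b - z (b + 1)) - (z' b - z' (b + 1))) +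
        (chi k B l z D ρ b - chU k B l z z' D D' ρ b) * (z b - z (b + 1)) -
        (chi k B l z' D' ρ b - chU k B l z z' D D' ρ b) * (z' b - z' (b + 1)) =
        chi k B l z D ρ b * (z b - z (b + 1)) - chi k B l z' D' ρ b * (z' b - z' (b + 1)) :=
      fun b => by ring
    have e3 := sum_congr rfl (s₁ := Icc c₀ B) fun b _ => e2 b
    simp only [sum_add_distrib, sum_sub_distrib] at e3
    linarith
  rw [e]
  have a1 := low_part (k := k) h
  have a2 := low_part (k := k) h.symm
  have a3 := main_part (k := k) h (by omega)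
  have a4 := side_part h hk
  have a5 := side_part h.symm hk
  have hT := tot_nonneg (k := k) h
  have hk2 : (2 : ℝ) ≤ k := by exact_mod_cast hk
  have hdT : 0 ≤ d * tot k B c₀ r l X := mul_nonneg h.hd.le hT
  have hdl : 0 ≤ d * l := mul_nonneg h.hd.le h.hl.le
  simp only [abs_le] at a1 a2 a3 a4 a5 ⊢
  constructor <;> nlinarith

lemma clean_bound (h : Hyp B c₀ c l d r z z' D D' X ρ) (hk : k ≠ 0)
    (hs : ∀ b, b ≤ B → siz l z D ρ b ≤ 1 ∧ siz l z' D' ρ b ≤ 1) :
    stv k B l z D ρ - stv k B l z' D' ρ = z 0 - z' 0 ∧ |z 0 - z' 0| ≤ 16 * r * l * d := by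
  have hst : ∀ (w E : ℕ → ℝ), (∀ b, b ≤ B → siz l w E ρ b ≤ 1) → stv k B l w E ρ = w 0 := by
    intro w E hw
    have h1 : ∀ b ∈ range (B + 1), chi k B l w E ρ b * (w b - w (b + 1)) = w b - w (b + 1) := by
      intro b _
      rw [chi, prod_eq_one fun q hq => by rw [sta_eq_zero hk (hw q (mem_Icc.1 hq).2), sub_zero],
        one_mul]
    rw [stv, sum_congr rfl h1, sum_range_sub']
    ring
  refine ⟨by rw [hst z D fun b hb => (hs b hb).1, hst z' D' fun b hb => (hs b hb).2], ?_⟩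
  have hl := h.hl
  have hd := h.hd
  have hr := h.hr
  have hlt : ∀ {y : ℝ}, y ≤ 1 → sta k y < 1 := fun hy => by rw [sta_eq_zero hk hy]; norm_num
  -- one endpoint down to the band `c`
  have hside : ∀ {w E : ℕ → ℝ} {w' E' : ℕ → ℝ}, Hyp B c₀ c l d r w w' E E' X ρ →
      (∀ b, b ≤ B → siz l w E ρ b ≤ 1) → |w 0 - w c| ≤ 7 * r * l * d := by
    intro w E w' E' hh hw
    have hband : ∀ b, b ≤ B → |w b - w (b + 1)| ≤ l * ρ b := fun b hb => by
      have h1 := hw b hb
      rw [siz, div_div, div_le_iff₀ (mul_pos (hh.hρ b) hl)] at h1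
      have := hh.hD b
      have := hh.hD (b + 1)
      linarith
    rw [← sum_range_sub' w c, ← sum_range_add_sum_Ico _ hh.h01]
    have hcB := hh.hcB
    have h01 := hh.h01
    have s1 : |∑ b ∈ range c₀, (w b - w (b + 1))| ≤ 2 * l * d := by
      refine (abs_sum_le_sum_abs _ _).trans ((sum_le_sum fun b hb =>
        hband b (by have := mem_range.1 hb; omega)).trans ?_)
      rw [← mul_sum]
      nlinarith [low_sum_le hh]
    have s2 : |∑ b ∈ Ico c₀ c, (w b - w (b + 1))| ≤ 3 * (l * (r * d)) := by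
      refine (abs_sum_le_sum_abs _ _).trans ((sum_le_card_nsmul _ _ (l * (r * d)) fun b hb => ?_).trans ?_)
      · have hb' := mem_Ico.1 hb
        exact (hband b (by omega)).trans (mul_le_mul_of_nonneg_left (hh.hmid b hb'.2) hl.le)
      · rw [nsmul_eq_mul, Nat.card_Ico]
        refine mul_le_mul_of_nonneg_right ?_ (by positivity)
        have := hh.h3
        exact_mod_cast (show c - c₀ ≤ 3 by omega)
    refine (abs_add_le _ _).trans ?_
    have hld : l * d ≤ r * l * d := by nlinarith [mul_nonneg hl.le hd.le]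
    have hld0 : 0 ≤ r * l * d := by positivity
    linarith
  have a1 := hside h fun b hb => (hs b hb).1
  have a2 := hside h.symm fun b hb => (hs b hb).2
  have a3 := modulus_le h le_rfl h.hcB fun hcB => (band_le h (hlt (hs c hcB).1)).2.1
  have := abs_nonneg (D c - D' c)
  have hrld : 0 ≤ r * l * d := by positivity
  simp only [abs_le] at a1 a2 ⊢
  have := abs_le.1 (show |z c - z' c| ≤ 2 * r * l * d by linarith)
  constructor <;> linarith

end Stop

/-- The stopping inequality. -/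
theorem stopPin : StopPin := by
  intro k hk
  refine ⟨100 * k, by
    have : (2 : ℝ) ≤ k := by exact_mod_cast hk
    linarith, ?_⟩
  intro B c₀ c l d r z z' D D' X ρ hl hd hr h01 hcB h3 hρ hdbl hlow hmid hD hD' hzB hDB hX hcr
  have h : Stop.Hyp B c₀ c l d r z z' D D' X ρ :=
    ⟨hl, hd, hr, h01, hcB, h3, hρ, hdbl, hlow, hmid, hD, hD', hzB, hDB, hX, hcr⟩
  refine ⟨Stop.main_bound h hk, fun hs => ?_⟩
  obtain ⟨e1, e2⟩ := Stop.clean_bound h (show k ≠ 0 by omega) hs
  refine ⟨e1, e2.trans ?_⟩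
  have : (2 : ℝ) ≤ k := by exact_mod_cast hk
  have : 0 ≤ r * l * d := by positivity
  nlinarith

end

end Vale.Agent.P249.AllD
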