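import Vale.Agent.P249.AllD.Reg
import Vale.Agent.P249.AllD.Blocks
import Vale.Agent.P249.AllD.Diag
import Vale.Agent.P249.AllD.Stop
import Vale.Agent.P249.AllD.Layers
import Vale.Agent.P249.AllD.Embed

/-!
# P249, every distortion: the theorem
-/

namespace Vale.Agent.P249.AllD

theorem regPin : RegPin := regPin_of blockPin diagPin stopPin

theorem mainPin : MainPin := mainPin_of_layerPin (layerPin_of_regPin regPin)

end Vale.Agent.P249.AllD
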