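import Vale.Agent.P249.AllD.Scale

/-!
# P249, every distortion: regularisation at one intensity level
-/

open Finset

namespace Vale.Agent.P249.AllD

noncomputable section

/-- level number `j` for block length `K` -/
def lev (l : ℝ) (K j : ℕ) : ℝ := l / 2 ^ (4 * K * (j + 1))

/-- average over block lengths and positions -/
def pavg (Q : ℕ) (N : ℕ → ℕ) (g : ℕ → ℕ → ℝ) : ℝ :=
  (Q : ℝ)⁻¹ * ∑ i ∈ range Q, (N i : ℝ)⁻¹ * ∑ j ∈ range (N i), g i j

theorem pavg_sub (Q : ℕ) (N : ℕ → ℕ) (g g' : ℕ → ℕ → ℝ) :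
    pavg Q N g - pavg Q N g' = pavg Q N (fun i j => g i j - g' i j) := by
  simp only [pavg, sum_sub_distrib, mul_sub]

theorem pavg_mul_const (Q : ℕ) (N : ℕ → ℕ) (g : ℕ → ℕ → ℝ) (c : ℝ) :
    pavg Q N g * c = pavg Q N (fun i j => g i j * c) := by
  simp only [pavg, sum_mul, mul_assoc]

theorem pavg_congr {Q : ℕ} {N : ℕ → ℕ} {g g' : ℕ → ℕ → ℝ}
    (h : ∀ i < Q, ∀ j < N i, g i j = g' i j) : pavg Q N g = pavg Q N g' := by
  simp only [pavg]
  congr 1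
  exact sum_congr rfl fun i hi => congrArg _ (sum_congr rfl fun j hj =>
    h i (mem_range.1 hi) j (mem_range.1 hj))

theorem pavg_mono {Q : ℕ} {N : ℕ → ℕ} {g g' : ℕ → ℕ → ℝ}
    (h : ∀ i < Q, ∀ j < N i, g i j ≤ g' i j) : pavg Q N g ≤ pavg Q N g' := by
  simp only [pavg]
  refine mul_le_mul_of_nonneg_left (sum_le_sum fun i hi => mul_le_mul_of_nonneg_left
    (sum_le_sum fun j hj => h i (mem_range.1 hi) j (mem_range.1 hj)) ?_) ?_ <;> positivity

theorem pavg_const {Q : ℕ} {N : ℕ → ℕ} (hQ : 0 < Q) (hN : ∀ i < Q, 0 < N i) (c : ℝ) :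
    pavg Q N (fun _ _ => c) = c := by
  simp only [pavg, sum_const, card_range, nsmul_eq_mul]
  rw [sum_congr rfl fun i hi => inv_mul_cancel_left₀
    (Nat.cast_ne_zero.2 (hN i (mem_range.1 hi)).ne') c, sum_const, card_range, nsmul_eq_mul,
    inv_mul_cancel_left₀ (Nat.cast_ne_zero.2 hQ.ne')]

theorem abs_pavg_le (Q : ℕ) (N : ℕ → ℕ) (g : ℕ → ℕ → ℝ) :
    |pavg Q N g| ≤ pavg Q N (fun i j => |g i j|) := by
  simp only [pavg, abs_mul, abs_inv, Nat.abs_cast]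
  refine mul_le_mul_of_nonneg_left ((abs_sum_le_sum_abs _ _).trans (sum_le_sum fun i _ => ?_))
    (by positivity)
  rw [abs_mul, abs_inv, Nat.abs_cast]
  exact mul_le_mul_of_nonneg_left (abs_sum_le_sum_abs _ _) (by positivity)

/-- The numerical choices for one point set. -/
theorem parameters {δ₁ : ℝ} (hδ₁ : 0 < δ₁) (hδ1 : δ₁ ≤ 1) {L : ℝ} (Q T : ℕ)
    (hL : ((T : ℝ) + 1) * 2 ^ Q ≤ δ₁ * L) :
    ∃ K₀ : ℕ, T ≤ K₀ ∧ 1 ≤ K₀ ∧ ((K₀ * 2 ^ Q : ℕ) : ℝ) ≤ δ₁ * L ∧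
      ∀ i < Q, 4 ≤ 4 * L / ((K₀ * 2 ^ i : ℕ) : ℝ) ∧
        4 * L / ((K₀ * 2 ^ i : ℕ) : ℝ) ≤ 8 / δ₁ * ((2 ^ (Q - i) : ℕ) : ℝ) ∧
        (4 * L / ((K₀ * 2 ^ i : ℕ) : ℝ))⁻¹ ≤ (2 : ℝ) ^ i / 2 ^ Q := by
  have h2 : (0 : ℝ) < 2 ^ Q := by positivity
  set x := δ₁ * L / 2 ^ Q with hx
  have hxT : (T : ℝ) + 1 ≤ x := (le_div_iff₀ h2).2 hL
  have hx1 : 1 ≤ x := by linarith [(Nat.cast_nonneg T : (0 : ℝ) ≤ T)]
  have hfl := Nat.floor_le (by linarith : 0 ≤ x)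
  have hfl' := Nat.lt_floor_add_one x
  refine ⟨⌊x⌋₊, Nat.le_floor (by linarith), Nat.le_floor (by simpa using hx1), ?_, ?_⟩
  · push_cast
    exact (le_div_iff₀ h2).1 hfl
  intro i hi
  set K₀ := ⌊x⌋₊
  have hK1 : (1 : ℝ) ≤ K₀ := by exact_mod_cast Nat.le_floor (by simpa using hx1)
  have hU : (K₀ : ℝ) * 2 ^ Q ≤ δ₁ * L := (le_div_iff₀ h2).1 hfl
  have hUlow : δ₁ * L ≤ 2 * ((K₀ : ℝ) * 2 ^ Q) := by
    have : x ≤ 2 * K₀ := by linarith
    calc δ₁ * L = x * 2 ^ Q := (div_mul_cancel₀ _ h2.ne').symm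
      _ ≤ 2 * K₀ * 2 ^ Q := mul_le_mul_of_nonneg_right this h2.le
      _ = _ := by ring
  have hL0 : 0 < L := by nlinarith [mul_le_mul hK1 (le_refl ((2 : ℝ) ^ Q)) h2.le (by linarith)]
  have hUL : (K₀ : ℝ) * 2 ^ Q ≤ L := hU.trans (mul_le_of_le_one_left hL0.le hδ1)
  have hsplit : (2 : ℝ) ^ Q = 2 ^ i * 2 ^ (Q - i) := by
    rw [← pow_add]; congr 1; omega
  push_cast
  have hiQ : (2 : ℝ) ^ i ≤ 2 ^ Q := pow_le_pow_right₀ one_le_two hi.le
  have hpos : 0 < (K₀ : ℝ) * 2 ^ i := by positivity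
  refine ⟨?_, ?_, ?_⟩
  · rw [le_div_iff₀ hpos]
    nlinarith
  · rw [div_le_iff₀ hpos]
    calc 4 * L = 4 / δ₁ * (δ₁ * L) := by field_simp
      _ ≤ 4 / δ₁ * (2 * ((K₀ : ℝ) * 2 ^ Q)) := mul_le_mul_of_nonneg_left hUlow (by positivity)
      _ = _ := by rw [hsplit]; ring
  · rw [inv_div, div_le_div_iff₀ (by linarith) h2]
    nlinarith [pow_pos (two_pos : (0 : ℝ) < 2) i]

theorem two_pow_le_rpow {δ₁ : ℝ} {n : ℝ} (hn : 0 < n) {U : ℕ} (hU : (U : ℝ) ≤ δ₁ * Real.log n)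
    (a : ℕ) : (2 : ℝ) ^ (a * U) ≤ n ^ ((a : ℝ) * δ₁) := by
  rw [Real.rpow_def_of_pos hn]
  calc (2 : ℝ) ^ (a * U) ≤ Real.exp 1 ^ (a * U) :=
        pow_le_pow_left₀ zero_le_two (by linarith [Real.exp_one_gt_d9]) _
    _ = Real.exp ((a * U : ℕ) : ℝ) := by rw [← Real.exp_nat_mul, mul_one]
    _ ≤ _ := Real.exp_le_exp.2 (by
        push_cast
        nlinarith [mul_le_mul_of_nonneg_left hU (Nat.cast_nonneg a : (0 : ℝ) ≤ a)])

/-- all positions of one block length -/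
theorem pos_total {C d a Z r : ℝ} (hC : 0 ≤ C) (hd : 0 ≤ d) (hr : 1 ≤ r) (hZ : 0 ≤ Z)
    (l : ℕ → ℝ) (hl : ∀ j, 0 ≤ l j) (hsp : ∀ j, 4 * r * l (j + 1) ≤ l j) (dv : ℕ → ℝ)
    (cl : ℕ → Prop) [DecidablePred cl] (hc : ∀ j, cl j → dv j = a)
    (hnc : ∀ j, ¬cl j → l j < Z ∧
      ∃ F : ℝ, |dv j| ≤ C * d * F ∧ 0 ≤ F ∧ F ≤ Z ∧ F ^ 2 ≤ r * l j * Z) (N : ℕ) :
    ∑ j ∈ range N, |dv j - (if cl j then 1 else 0) * a| ≤ 2 * C * d * Z := by
  have hF : ∀ j, ∃ F : ℝ, |dv j - (if cl j then 1 else 0) * a| ≤ C * d * F ∧ 0 ≤ F ∧ F ≤ Z ∧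
      F ^ 2 ≤ r * l j * Z ∧ (Z ≤ l j → F = 0) := by
    intro j
    by_cases h : cl j
    · refine ⟨0, ?_, le_rfl, hZ, ?_, fun _ => rfl⟩
      · rw [if_pos h, hc j h]; simp
      · have := hl j
        rw [zero_pow two_ne_zero]; positivity
    · obtain ⟨hlt, F, h1, h2, h3, h4⟩ := hnc j h
      exact ⟨F, by rw [if_neg h, zero_mul, sub_zero]; exact h1, h2, h3, h4,
        fun h => absurd h (not_le.2 hlt)⟩
  choose F hF1 hF2 hF3 hF4 hF5 using hF
  refine (sum_le_sum fun j _ => hF1 j).trans ?_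
  rw [← mul_sum]
  exact (mul_le_mul_of_nonneg_left (position_sum hr hZ N l F hl hsp hF2 hF3 hF4 hF5).1
    (mul_nonneg hC hd)).trans (le_of_eq (by ring))

/-- the error at one coordinate -/
theorem err_point {Q : ℕ} {N : ℕ → ℕ} (hQ : 0 < Q) (hN : ∀ i, 0 < N i) {lam Z : ℕ → ℝ}
    {C d a τ ν γ lmin : ℝ} (hC : 0 ≤ C) (hd : 0 ≤ d) (hν : 0 ≤ ν) (hτ : τ ≤ ν * lmin * d)
    (hZ : ∀ i, 0 ≤ Z i) (dv : ℕ → ℕ → ℝ) (cl : ℕ → ℕ → Prop) [∀ i j, Decidable (cl i j)]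
    (hsum : ∀ i < Q, ∑ j ∈ range (N i), |dv i j - (if cl i j then 1 else 0) * a| ≤
      2 * C * d * Z i)
    (hlow : ∀ i < Q, ∀ j < N i, ¬cl i j → lmin ≤ Z i)
    (hNγ : ∀ i < Q, (N i : ℝ)⁻¹ ≤ γ * (lam i)⁻¹) (hνγ : ∀ i < Q, ν ≤ γ * (lam i)⁻¹) :
    |pavg Q N dv -
        (if |a| ≤ τ then 1 else pavg Q N fun i j => if cl i j then 1 else 0) * a| ≤
      ∑ i ∈ range Q, d * (γ * (2 * C + 1) * (Q : ℝ)⁻¹ * (lam i)⁻¹) * Z i := by
  set θ₀ := pavg Q N fun i j => if cl i j then (1 : ℝ) else 0 with hθdef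
  have hθ1 : θ₀ ≤ 1 := (pavg_mono fun i _ j _ => by split_ifs <;> norm_num).trans
    (pavg_const hQ (fun i _ => hN i) 1).le
  have h1 : |pavg Q N dv - θ₀ * a| ≤
      (Q : ℝ)⁻¹ * ∑ i ∈ range Q, (N i : ℝ)⁻¹ * (2 * C * d * Z i) := by
    rw [hθdef, pavg_mul_const, pavg_sub]
    refine (abs_pavg_le _ _ _).trans ?_
    simp only [pavg]
    exact mul_le_mul_of_nonneg_left (sum_le_sum fun i hi =>
      mul_le_mul_of_nonneg_left (hsum i (mem_range.1 hi)) (by positivity)) (by positivity)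
  have h2 : |(θ₀ - (if |a| ≤ τ then 1 else θ₀)) * a| ≤
      (Q : ℝ)⁻¹ * ∑ i ∈ range Q, ν * d * Z i := by
    split_ifs with hle
    swap
    · simp only [sub_self, zero_mul, abs_zero]
      exact mul_nonneg (by positivity) (sum_nonneg fun i _ => by
        have := hZ i; positivity)
    rw [abs_mul, abs_of_nonpos (by linarith), neg_sub]
    refine (mul_le_mul_of_nonneg_left hle (by linarith)).trans ?_
    have e : 1 - θ₀ = pavg Q N fun i j => if cl i j then 0 else 1 := by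
      conv_lhs => rw [← pavg_const hQ (fun i _ => hN i) (1 : ℝ)]
      rw [hθdef, pavg_sub]
      exact pavg_congr fun i _ j _ => by split_ifs <;> norm_num
    rw [e, pavg_mul_const]
    refine (pavg_mono (g' := fun i _ => ν * d * Z i) fun i hi j hj => ?_).trans (le_of_eq ?_)
    · split_ifs with hc
      · simp only [zero_mul]
        have := hZ i; positivity
      · rw [one_mul]
        refine hτ.trans ?_
        rw [mul_right_comm]
        exact mul_le_mul_of_nonneg_left (hlow i hi j hj hc) (by positivity)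
    · simp only [pavg, sum_const, card_range, nsmul_eq_mul]
      congr 1
      exact sum_congr rfl fun i _ => inv_mul_cancel_left₀ (Nat.cast_ne_zero.2 (hN i).ne') _
  calc _ = |(pavg Q N dv - θ₀ * a) + (θ₀ - (if |a| ≤ τ then 1 else θ₀)) * a| := by
        congr 1; ring
    _ ≤ _ := (abs_add_le _ _).trans (add_le_add h1 h2)
    _ ≤ _ := by
        rw [mul_sum, mul_sum, ← sum_add_distrib]
        refine sum_le_sum fun i hi => ?_
        have hi' := mem_range.1 hi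
        have hc0 : 0 ≤ (Q : ℝ)⁻¹ * d * Z i := mul_nonneg (mul_nonneg (by positivity) hd) (hZ i)
        calc _ = ((N i : ℝ)⁻¹ * (2 * C) + ν) * ((Q : ℝ)⁻¹ * d * Z i) := by ring
          _ ≤ (γ * (lam i)⁻¹ * (2 * C) + γ * (lam i)⁻¹) * ((Q : ℝ)⁻¹ * d * Z i) :=
            mul_le_mul_of_nonneg_right (add_le_add
              (mul_le_mul_of_nonneg_right (hNγ i hi') (by linarith)) (hνγ i hi')) hc0
          _ = _ := by ring

/-- the error in norm -/
theorem err_norm {p : ℝ} (hp : 1 ≤ p) {m Q : ℕ} (hQ : 0 < Q) {lam : ℕ → ℝ}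
    (hlam : ∀ i < Q, 0 < lam i) {Z : ℕ → Fin m → ℝ} {x : Fin m → ℝ} {γ d CP : ℝ} (hγ : 0 ≤ γ)
    (hd : 0 ≤ d) (hCP : 0 ≤ CP) (hA : ∑ i ∈ range Q, (nrm p (Z i) / lam i) ^ p ≤ CP)
    (hx : ∀ ω, |x ω| ≤ ∑ i ∈ range Q, d * (γ * (Q : ℝ)⁻¹ * (lam i)⁻¹) * Z i ω) :
    nrm p x ≤ γ * CP ^ p⁻¹ / (Q : ℝ) ^ p⁻¹ * d := by
  have hp0 : 0 < p := by linarith
  set A := fun i => nrm p (Z i) / lam i
  have hA0 : ∀ i < Q, 0 ≤ A i := fun i hi => div_nonneg (nrm_nonneg _ _) (hlam i hi).le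
  set c := fun i => d * (γ * (Q : ℝ)⁻¹ * (lam i)⁻¹) with hcdef
  have hstep : nrm p x ≤ ∑ i ∈ range Q, |c i| * nrm p (Z i) := by
    refine (nrm_mono (y := fun ω => ∑ i ∈ range Q, c i * Z i ω) hp0 fun ω =>
      (hx ω).trans (le_abs_self _)).trans ((nrm_sum_le hp _ _).trans (le_of_eq ?_))
    exact sum_congr rfl fun i _ => nrm_smul hp0 _ _
  refine hstep.trans ?_
  have hQp : (0 : ℝ) < Q := by exact_mod_cast hQ
  have hmean : ∑ i ∈ range Q, A i ≤ CP ^ p⁻¹ * (Q : ℝ) * ((Q : ℝ) ^ p⁻¹)⁻¹ := by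
    have h := Real.rpow_sum_le_const_mul_sum_rpow_of_nonneg (range Q) (f := A) hp
      fun i hi => hA0 i (mem_range.1 hi)
    rw [card_range] at h
    have hs : 0 ≤ ∑ i ∈ range Q, A i := sum_nonneg fun i hi => hA0 i (mem_range.1 hi)
    have h' := Real.rpow_le_rpow (Real.rpow_nonneg hs _)
      (h.trans (mul_le_mul_of_nonneg_left hA (by positivity))) (inv_nonneg.2 hp0.le)
    rw [Real.rpow_rpow_inv hs hp0.ne', Real.mul_rpow (by positivity) hCP,
      ← Real.rpow_mul (Nat.cast_nonneg Q)] at h'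
    refine h'.trans (le_of_eq ?_)
    rw [show (p - 1) * p⁻¹ = 1 - p⁻¹ by field_simp, Real.rpow_sub hQp, Real.rpow_one]
    field_simp
  calc ∑ i ∈ range Q, |c i| * nrm p (Z i)
      = d * (γ * (Q : ℝ)⁻¹) * ∑ i ∈ range Q, A i := by
        rw [mul_sum]
        refine sum_congr rfl fun i hi => ?_
        rw [hcdef, abs_of_nonneg (by have := hlam i (mem_range.1 hi); positivity)]
        simp only [A]; ring
    _ ≤ d * (γ * (Q : ℝ)⁻¹) * (CP ^ p⁻¹ * (Q : ℝ) * ((Q : ℝ) ^ p⁻¹)⁻¹) :=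
        mul_le_mul_of_nonneg_left hmean (by positivity)
    _ = _ := by field_simp

/-- changed coordinates -/
theorem count_le {p : ℝ} (hp : 0 < p) {m Q : ℕ} (S : Finset (Fin m)) {Z : ℕ → Fin m → ℝ}
    (hZ : ∀ i ω, 0 ≤ Z i ω) {lmin lmax CP : ℝ} (hmax : 0 ≤ lmax) {lam : ℕ → ℝ}
    (hlam : ∀ i < Q, 0 < lam i ∧ lam i ≤ lmax)
    (hA : ∑ i ∈ range Q, (nrm p (Z i) / lam i) ^ p ≤ CP)
    (hmem : ∀ ω ∈ S, lmin ^ p ≤ ∑ i ∈ range Q, Z i ω ^ p) :
    (S.card : ℝ) * lmin ^ p ≤ lmax ^ p * CP := by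
  calc (S.card : ℝ) * lmin ^ p = ∑ ω ∈ S, lmin ^ p := by rw [sum_const, nsmul_eq_mul]
    _ ≤ ∑ ω ∈ S, ∑ i ∈ range Q, Z i ω ^ p := sum_le_sum hmem
    _ ≤ ∑ ω, ∑ i ∈ range Q, Z i ω ^ p :=
        sum_le_sum_of_subset_of_nonneg (subset_univ _) fun ω _ _ =>
          sum_nonneg fun i _ => Real.rpow_nonneg (hZ i ω) _
    _ = ∑ i ∈ range Q, nrm p (Z i) ^ p := by
        rw [sum_comm]
        refine sum_congr rfl fun i _ => ?_
        rw [nrm_rpow hp]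
        exact sum_congr rfl fun ω _ => by rw [abs_of_nonneg (hZ i ω)]
    _ ≤ ∑ i ∈ range Q, lmax ^ p * (nrm p (Z i) / lam i) ^ p := by
        refine sum_le_sum fun i hi => ?_
        obtain ⟨h1, h2⟩ := hlam i (mem_range.1 hi)
        rw [← Real.mul_rpow hmax (div_nonneg (nrm_nonneg _ _) h1.le)]
        refine Real.rpow_le_rpow (nrm_nonneg _ _) ?_ hp.le
        rw [mul_div_assoc', le_div_iff₀ h1, mul_comm lmax]
        exact mul_le_mul_of_nonneg_left h2 (nrm_nonneg _ _)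
    _ ≤ _ := by
        rw [← mul_sum]
        exact mul_le_mul_of_nonneg_left hA (by positivity)

/-- the totals of all block lengths -/
theorem totals {p : ℝ} (hp : 1 < p) {CD C L : ℝ} (hC : 0 ≤ C)
    {ι : Type} [Fintype ι] {m : ℕ} {f : ι → Fin m → ℝ} {R0 : ℝ} (hR0 : 0 < R0)
    {Q K₀ B : ℕ} (a b : ι)
    (hdiag : ∀ u : ι, ∑ i ∈ range Q, ∑ c ∈ Icc 1 B,
      (((K₀ * 2 ^ i : ℕ) : ℝ)⁻¹ * (∑ t ∈ blk (K₀ * 2 ^ i) c,
          gro p f R0 t u * Real.exp (-(gro p f R0 t u / (4 * L / ((K₀ * 2 ^ i : ℕ) : ℝ))))) /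
        (4 * L / ((K₀ * 2 ^ i : ℕ) : ℝ))) ^ p ≤ CD)
    (hpar : ∀ i < Q, 4 ≤ 4 * L / ((K₀ * 2 ^ i : ℕ) : ℝ) ∧
      (4 * L / ((K₀ * 2 ^ i : ℕ) : ℝ))⁻¹ ≤ (2 : ℝ) ^ i / 2 ^ Q)
    (Z : ℕ → Fin m → ℝ)
    (hZ : ∀ i < Q, nrm p (Z i) ^ p ≤ C * (1 + ∑ c ∈ Icc 1 B,
      (amp p f R0 (4 * L / ((K₀ * 2 ^ i : ℕ) : ℝ)) (K₀ * 2 ^ i) B c a ^ p +
        amp p f R0 (4 * L / ((K₀ * 2 ^ i : ℕ) : ℝ)) (K₀ * 2 ^ i) B c b ^ p))) :
    ∑ i ∈ range Q, (nrm p (Z i) / (4 * L / ((K₀ * 2 ^ i : ℕ) : ℝ))) ^ p ≤ C * (1 + 2 * CD) := by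
  have hp0 : 0 < p := by linarith
  let K : ℕ → ℕ := fun i => K₀ * 2 ^ i
  let lam : ℕ → ℝ := fun i => 4 * L / ((K₀ * 2 ^ i : ℕ) : ℝ)
  have hA' : ∀ i c u, 0 ≤ amp p f R0 (lam i) (K i) B c u := fun i c u => by
    simp only [amp]; split_ifs
    · exact mul_nonneg (by positivity) (sum_nonneg fun t _ =>
        mul_nonneg (gro_nonneg hR0 t u) (eta_pos t u).le)
    · exact le_rfl
  have hAle : ∀ i ∈ range Q, (nrm p (Z i) / lam i) ^ p ≤ C * ((2 : ℝ) ^ i / 2 ^ Q +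
      ∑ c ∈ Icc 1 B, ((amp p f R0 (lam i) (K i) B c a / lam i) ^ p +
        (amp p f R0 (lam i) (K i) B c b / lam i) ^ p)) := by
    intro i hi
    obtain ⟨h4, h⟩ := hpar i (mem_range.1 hi)
    have hlp : 0 < lam i := by simp only [lam]; linarith
    have hlpp := Real.rpow_pos_of_pos hlp p
    rw [Real.div_rpow (nrm_nonneg _ _) hlp.le, div_le_iff₀ hlpp]
    refine (hZ i (mem_range.1 hi)).trans ?_
    rw [mul_assoc]
    refine mul_le_mul_of_nonneg_left ?_ hC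
    rw [add_mul, sum_mul]
    refine add_le_add ?_ (le_of_eq (sum_congr rfl fun c _ => ?_))
    · rw [inv_le_iff_one_le_mul₀ (by linarith)] at h
      refine h.trans (mul_le_mul_of_nonneg_left ?_ (by positivity))
      exact Real.self_le_rpow_of_one_le (by linarith) hp.le
    · rw [Real.div_rpow (hA' i c a) hlp.le, Real.div_rpow (hA' i c b) hlp.le, add_mul,
        div_mul_cancel₀ _ hlpp.ne', div_mul_cancel₀ _ hlpp.ne']
  refine (sum_le_sum hAle).trans ?_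
  rw [← mul_sum]
  refine mul_le_mul_of_nonneg_left ?_ hC
  simp only [sum_add_distrib]
  have hgeo : ∑ i ∈ range Q, (2 : ℝ) ^ i / 2 ^ Q ≤ 1 := by
    rw [← sum_div, div_le_one (by positivity), geom_sum_eq (by norm_num) Q]
    linarith [pow_pos (two_pos : (0 : ℝ) < 2) Q]
  have hone : ∀ u, ∑ i ∈ range Q, ∑ c ∈ Icc 1 B,
      (amp p f R0 (lam i) (K i) B c u / lam i) ^ p ≤ CD := by
    intro u
    refine le_trans (le_of_eq (sum_congr rfl fun i _ => sum_congr rfl fun c hc => ?_)) (hdiag u)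
    rw [amp, if_pos (mem_Icc.1 hc)]
    rfl
  linarith [hone a, hone b]

/-- one entry -/
theorem entry_le {C d l lj P n Z q CZ e M lmin : ℝ} (hn : 1 ≤ n) (hC : 1 ≤ C) (hd : 0 ≤ d)
    (hP : 1 ≤ P) (hl : 0 ≤ l) (hlj : lj ≤ l) (hlj0 : 0 < lj) (hlmin : lmin ≤ lj)
    (hlow : n ^ (-M) ≤ lmin) (hPe : P ≤ n ^ e) (hZ : Z ≤ CZ) (hCZ : 1 ≤ CZ) (hM : 0 ≤ M)
    (hq0 : 0 ≤ q) (hq1 : q ≤ 1) (hq : M * q ≤ e) {F v : ℝ} (hv : v ≤ C * d * F)
    (hF : F ≤ C * P * lj * max 1 (Z / (C * P * lj)) ^ q) :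
    v ≤ C * C * CZ * (n ^ e * n ^ e) * l * d := by
  have hn0 : 0 < n := by linarith
  have hCP : 1 ≤ C * P := one_le_mul_of_one_le_of_one_le hC hP
  have hbase : C * P * lj ≤ C * n ^ e * l :=
    mul_le_mul (mul_le_mul_of_nonneg_left hPe (by linarith)) hlj hlj0.le (by positivity)
  have hx : max 1 (Z / (C * P * lj)) ≤ CZ * n ^ M := by
    refine max_le (one_le_mul_of_one_le_of_one_le hCZ (Real.one_le_rpow hn hM)) ?_
    refine (div_le_div₀ (by linarith) hZ (Real.rpow_pos_of_pos hn0 (-M)) (hlow.trans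
      (hlmin.trans (le_mul_of_one_le_left hlj0.le hCP)))).trans_eq ?_
    rw [Real.rpow_neg hn0.le, div_inv_eq_mul]
  have hpow : max 1 (Z / (C * P * lj)) ^ q ≤ CZ * n ^ e := by
    refine (Real.rpow_le_rpow (le_trans zero_le_one (le_max_left _ _)) hx hq0).trans ?_
    rw [Real.mul_rpow (by linarith) (Real.rpow_nonneg hn0.le _), ← Real.rpow_mul hn0.le]
    refine mul_le_mul ?_ (Real.rpow_le_rpow_of_exponent_le hn hq)
      (Real.rpow_nonneg hn0.le _) (by linarith)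
    calc CZ ^ q ≤ CZ ^ (1 : ℝ) := Real.rpow_le_rpow_of_exponent_le hCZ hq1
      _ = CZ := Real.rpow_one _
  calc v ≤ C * d * F := hv
    _ ≤ C * d * (C * n ^ e * l * (CZ * n ^ e)) := mul_le_mul_of_nonneg_left
        (hF.trans (mul_le_mul hbase hpow
          (Real.rpow_nonneg (le_trans zero_le_one (le_max_left _ _)) _) (by positivity)))
        (by positivity)
    _ = _ := by ring

/-- Regularisation of one point set at one level, parameters given. -/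
theorem reg_at {p δ δ₁ M : ℝ} (hp : 1 < p) (hδ₁ : 0 < δ₁) (hM : 0 ≤ M)
    (hδp : 64 * p * δ₁ ≤ δ) {k : ℕ} (hk : 2 * p ≤ k) (hMk : (M + δ) * (p / k) ≤ δ / 4)
    {C CD : ℝ} (hC : 1 ≤ C) (hCD : 0 ≤ CD)
    {Q K₀ : ℕ} (hQ : 0 < Q) (hK1 : 1 ≤ K₀) (hT : 4 * C * C ≤ (K₀ : ℝ))
    {ι : Type} [Fintype ι] [Nonempty ι] {m : ℕ} (f : ι → Fin m → ℝ) (n L : ℝ)
    (hn : n = (Fintype.card ι : ℝ)) (hL : L = Real.log n) (hn1 : 1 ≤ n)
    (hU : ((K₀ * 2 ^ Q : ℕ) : ℝ) ≤ δ₁ * L)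
    (hpar : ∀ i < Q, 4 ≤ 4 * L / ((K₀ * 2 ^ i : ℕ) : ℝ) ∧
        4 * L / ((K₀ * 2 ^ i : ℕ) : ℝ) ≤ 8 / δ₁ * ((2 ^ (Q - i) : ℕ) : ℝ) ∧
        (4 * L / ((K₀ * 2 ^ i : ℕ) : ℝ))⁻¹ ≤ (2 : ℝ) ^ i / 2 ^ Q)
    (hnQ : (2 : ℝ) ^ Q * n ^ (-(δ / 2)) ≤ 1)
    {R0 : ℝ} (hR0 : 0 < R0) {B : ℕ}
    (hdiam : ∀ u v, dst p f u v ≤ Rad R0 B)
    (hdiag : ∀ u : ι, ∑ i ∈ range Q, ∑ c ∈ Icc 1 B,
      (((K₀ * 2 ^ i : ℕ) : ℝ)⁻¹ * (∑ t ∈ blk (K₀ * 2 ^ i) c,
          gro p f R0 t u * Real.exp (-(gro p f R0 t u / (4 * L / ((K₀ * 2 ^ i : ℕ) : ℝ))))) /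
        (4 * L / ((K₀ * 2 ^ i : ℕ) : ℝ))) ^ p ≤ CD)
    (hscale : ∀ (lam : ℝ) (K : ℕ), 1 ≤ K → 4 ≤ lam →
      4 * Real.log (Fintype.card ι : ℝ) ≤ lam * (K : ℝ) →
      (∀ u v, dst p f u v ≤ Rad R0 (B * K)) →
      ∀ u v, 0 < dst p f u v → R0 ≤ dst p f u v →
      ∃ Z : Fin m → ℝ, (∀ ω, 0 ≤ Z ω) ∧
        ∑ ω, Z ω ^ p ≤ C * (1 + ∑ b ∈ Icc 1 B,
          (amp p f R0 lam K B b u ^ p + amp p f R0 lam K B b v ^ p)) ∧
        ∀ (l : ℝ) (ω : Fin m), 0 < l →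
          (Clean p f R0 lam K B l u v ω →
            stf p f R0 lam K B k l u ω - stf p f R0 lam K B k l v ω = f u ω - f v ω ∧
              |f u ω - f v ω| ≤ C * 2 ^ (3 * K) * l * dst p f u v) ∧
          (¬Clean p f R0 lam K B l u v ω → l < Z ω ∧
            ∃ F : ℝ, |stf p f R0 lam K B k l u ω - stf p f R0 lam K B k l v ω| ≤
                C * dst p f u v * F ∧
              0 ≤ F ∧ F ≤ Z ω ∧ F ^ 2 ≤ C * 2 ^ (3 * K) * l * Z ω ∧
              F ≤ C * 2 ^ (3 * K) * l *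
                max 1 (Z ω / (C * 2 ^ (3 * K) * l)) ^ (p / k)))
    (hsep : ∀ a b, a ≠ b → 0 < dst p f a b ∧ R0 ≤ dst p f a b)
    {l : ℝ} (hlM : n ^ (-M) ≤ l) :
    ∃ h : ι → Fin m → ℝ, ∀ a b, a ≠ b →
      ∃ θ : Fin m → ℝ, (∀ ω, 0 ≤ θ ω ∧ θ ω ≤ 1) ∧
        (∀ ω, |f a ω - f b ω| ≤ l * n ^ (-δ) * dst p f a b → θ ω = 1) ∧
        (∀ ω, l * dst p f a b < |f a ω - f b ω| → θ ω = 0) ∧
        nrm p (fun ω => h a ω - h b ω - θ ω * (f a ω - f b ω)) ≤
          8 / δ₁ * (2 * C + 1) * (C * (1 + 2 * CD)) ^ p⁻¹ / (Q : ℝ) ^ p⁻¹ * dst p f a b ∧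
        (∀ ω, |h a ω - h b ω| ≤
          C * C * max 1 (8 / δ₁ * 2 ^ Q * (C * (1 + 2 * CD)) ^ p⁻¹) * n ^ δ * l * dst p f a b) ∧
        ({ω | h a ω - h b ω ≠ f a ω - f b ω} : Finset (Fin m)).card * l ^ p ≤
          (8 / δ₁ * 2 ^ Q) ^ p * (C * (1 + 2 * CD)) * n ^ δ := by
  classical
  have hp0 : 0 < p := by linarith
  have hn0 : 0 < n := by linarith
  have hδ164 : 64 * δ₁ ≤ δ := le_trans (by nlinarith) hδp
  set CP := C * (1 + 2 * CD) with hCP
  have hCP0 : 0 ≤ CP := mul_nonneg (by linarith) (by linarith)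
  set lmax := 8 / δ₁ * 2 ^ Q with hlmax
  set U := K₀ * 2 ^ Q with hUdef
  let K : ℕ → ℕ := fun i => K₀ * 2 ^ i
  let N : ℕ → ℕ := fun i => 2 ^ (Q - i)
  let lam : ℕ → ℝ := fun i => 4 * L / (K i : ℝ)
  have hN : ∀ i, 0 < N i := fun i => Nat.two_pow_pos _
  have hKU : ∀ i < Q, K i * N i = U := fun i hi => by
    simp only [K, N, hUdef, mul_assoc, ← pow_add, Nat.add_sub_cancel' hi.le]
  have hKpos : ∀ i, 1 ≤ K i := fun i => Nat.mul_pos hK1 (Nat.two_pow_pos _)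
  have hlog : ∀ i, 4 * Real.log (Fintype.card ι : ℝ) ≤ lam i * (K i : ℝ) := fun i => by
    have : (0 : ℝ) < K i := by exact_mod_cast hKpos i
    rw [← hn, ← hL, div_mul_cancel₀ _ this.ne']
  refine ⟨fun u ω => pavg Q N fun i j => stf p f R0 (lam i) (K i) B k (lev l (K i) j) u ω,
    fun a b hab => ?_⟩
  obtain ⟨hd, hd0⟩ := hsep a b hab
  set d := dst p f a b with hddef
  choose Z hZ0 hZsum hZlev using fun i : Fin Q => hscale (lam i) (K i) (hKpos i) (hpar i i.2).1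
    (hlog i) (fun u v => (hdiam u v).trans (Rad_mono hR0 (Nat.le_mul_of_pos_right _ (hKpos i))))
    a b hd hd0
  let Zn : ℕ → Fin m → ℝ := fun i ω => if h : i < Q then Z ⟨i, h⟩ ω else 0
  have hZn0 : ∀ i ω, 0 ≤ Zn i ω := fun i ω => by
    simp only [Zn]; split_ifs; exacts [hZ0 _ _, le_rfl]
  have hl0 : 0 < l := (Real.rpow_pos_of_pos hn0 _).trans_le hlM
  have hlev0 : ∀ i j, 0 < lev l (K i) j := fun i j => by
    simp only [lev]; positivity
  have hA : ∑ i ∈ range Q, (nrm p (Zn i) / lam i) ^ p ≤ CP :=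
    totals hp (by linarith) hR0 a b hdiag
      (fun i hi => ⟨(hpar i hi).1, (hpar i hi).2.2⟩) Zn fun i hi => le_trans (le_of_eq (by
        rw [nrm_rpow hp0]
        refine sum_congr rfl fun ω _ => ?_
        rw [abs_of_nonneg (hZn0 i ω)]
        simp only [Zn, dif_pos hi])) (hZsum ⟨i, hi⟩)
  have hlampos : ∀ i < Q, 0 < lam i := fun i hi => lt_of_lt_of_le (by norm_num) (hpar i hi).1
  have hlamQ : ∀ i < Q, lam i ≤ lmax := fun i hi => (hpar i hi).2.1.trans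
    (mul_le_mul_of_nonneg_left (by
      push_cast; exact pow_le_pow_right₀ one_le_two (Nat.sub_le _ _)) (by positivity))
  have hZmax : ∀ i < Q, ∀ ω, Zn i ω ≤ lmax * CP ^ p⁻¹ := fun i hi ω => by
    refine (le_abs_self _).trans ((abs_le_nrm hp0 _ ω).trans ?_)
    have hAi : nrm p (Zn i) / lam i ≤ CP ^ p⁻¹ := by
      have h0 := div_nonneg (nrm_nonneg p (Zn i)) (hlampos i hi).le
      rw [← Real.rpow_rpow_inv h0 hp0.ne']
      exact Real.rpow_le_rpow (Real.rpow_nonneg h0 _) ((single_le_sum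
        (f := fun i => (nrm p (Zn i) / lam i) ^ p) (fun i hi => Real.rpow_nonneg
          (div_nonneg (nrm_nonneg _ _) (hlampos i (mem_range.1 hi)).le) _)
        (mem_range.2 hi)).trans hA) (by positivity)
    rw [div_le_iff₀ (hlampos i hi)] at hAi
    refine hAi.trans ?_
    rw [mul_comm]
    exact mul_le_mul_of_nonneg_right (hlamQ i hi) (by positivity)
  set lmin := l / 2 ^ (4 * U) with hlmindef
  have hlmin0 : 0 < lmin := by positivity
  have hlevmin : ∀ i < Q, ∀ j < N i, lmin ≤ lev l (K i) j := fun i hi j hj => by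
    refine div_le_div_of_nonneg_left hl0.le (by positivity) (pow_le_pow_right₀ one_le_two ?_)
    rw [mul_assoc, ← hKU i hi]
    exact Nat.mul_le_mul_left _ (Nat.mul_le_mul_left _ hj)
  have h2U : ∀ c : ℕ, (2 : ℝ) ^ (c * U) ≤ n ^ ((c : ℝ) * δ₁) := fun c =>
    two_pow_le_rpow hn0 (by rw [← hL]; exact hU) c
  have hC2 : ∀ i, 4 * C * C ≤ (2 : ℝ) ^ K i := fun i => by
    refine hT.trans ?_
    have h1 : K₀ ≤ 2 ^ K i :=
      (Nat.le_mul_of_pos_right _ (Nat.two_pow_pos i)).trans (Nat.lt_two_pow_self (n := K i)).le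
    exact_mod_cast h1
  have hclean : ∀ i < Q, ∀ j ω, Clean p f R0 (lam i) (K i) B (lev l (K i) j) a b ω →
      stf p f R0 (lam i) (K i) B k (lev l (K i) j) a ω -
          stf p f R0 (lam i) (K i) B k (lev l (K i) j) b ω = f a ω - f b ω ∧
        |f a ω - f b ω| ≤ C * 2 ^ (3 * K i) * lev l (K i) j * d := fun i hi j ω h =>
    (hZlev ⟨i, hi⟩ _ ω (hlev0 i j)).1 h
  have hdirty : ∀ i < Q, ∀ j ω, ¬Clean p f R0 (lam i) (K i) B (lev l (K i) j) a b ω →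
      lev l (K i) j < Zn i ω ∧ ∃ F : ℝ,
        |stf p f R0 (lam i) (K i) B k (lev l (K i) j) a ω -
          stf p f R0 (lam i) (K i) B k (lev l (K i) j) b ω| ≤ C * d * F ∧ 0 ≤ F ∧ F ≤ Zn i ω ∧
        F ^ 2 ≤ C * 2 ^ (3 * K i) * lev l (K i) j * Zn i ω ∧
        F ≤ C * 2 ^ (3 * K i) * lev l (K i) j *
          max 1 (Zn i ω / (C * 2 ^ (3 * K i) * lev l (K i) j)) ^ (p / k) := fun i hi j ω h => by
    simp only [Zn, dif_pos hi]
    exact (hZlev ⟨i, hi⟩ _ ω (hlev0 i j)).2 h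
  have hdh : ∀ ω, (pavg Q N fun i j => stf p f R0 (lam i) (K i) B k (lev l (K i) j) a ω) -
      (pavg Q N fun i j => stf p f R0 (lam i) (K i) B k (lev l (K i) j) b ω) =
        pavg Q N fun i j => stf p f R0 (lam i) (K i) B k (lev l (K i) j) a ω -
          stf p f R0 (lam i) (K i) B k (lev l (K i) j) b ω := fun ω => pavg_sub _ _ _ _
  refine ⟨fun ω => if |f a ω - f b ω| ≤ l * n ^ (-δ) * d then 1 else
    pavg Q N fun i j => if Clean p f R0 (lam i) (K i) B (lev l (K i) j) a b ω then 1 else 0,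
    fun ω => ?_, fun ω h => if_pos h, fun ω h => ?_, ?_, fun ω => ?_, ?_⟩
  · beta_reduce
    split_ifs
    exacts [⟨zero_le_one, le_rfl⟩,
      ⟨(pavg_const hQ (fun i _ => hN i) 0).ge.trans
        (pavg_mono fun i _ j _ => by split_ifs <;> norm_num),
      (pavg_mono fun i _ j _ => by split_ifs <;> norm_num).trans
        (pavg_const hQ (fun i _ => hN i) 1).le⟩]
  · -- above the level nothing is clean
    beta_reduce
    rw [if_neg (not_le.2 (lt_of_le_of_lt (mul_le_mul_of_nonneg_right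
      (mul_le_of_le_one_right hl0.le (Real.rpow_le_one_of_one_le_of_nonpos hn1 (by linarith)))
      hd.le) h))]
    refine (pavg_congr fun i hi j _ => ?_).trans (pavg_const hQ (fun i _ => hN i) 0)
    rw [if_neg]
    intro hc
    refine absurd ((hclean i hi j ω hc).2.trans (mul_le_mul_of_nonneg_right ?_ hd.le)) (not_le.2 h)
    rw [lev, mul_div_assoc', div_le_iff₀ (by positivity), mul_comm l]
    refine mul_le_mul_of_nonneg_right ?_ hl0.le
    refine le_trans ?_ (pow_le_pow_right₀ one_le_two (Nat.le_mul_of_pos_right _ (Nat.succ_pos j)))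
    rw [show 4 * K i = K i + 3 * K i by ring, pow_add _ (K i)]
    exact mul_le_mul_of_nonneg_right (le_trans (by nlinarith) (hC2 i)) (by positivity)
  · -- the error
    simp only [hdh]
    have hτ : l * n ^ (-δ) ≤ n ^ (-(δ / 2)) * lmin := by
      rw [hlmindef, mul_div_assoc', le_div_iff₀ (by positivity)]
      refine (mul_le_mul_of_nonneg_left (h2U 4) (by positivity)).trans ?_
      rw [mul_assoc, ← Real.rpow_add hn0, mul_comm _ l]
      exact mul_le_mul_of_nonneg_left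
        (Real.rpow_le_rpow_of_exponent_le hn1 (by push_cast; linarith)) hl0.le
    refine err_norm hp.le hQ hlampos (by positivity) hd.le hCP0 hA fun ω => ?_
    refine err_point hQ hN (γ := 8 / δ₁) (zero_le_one.trans hC) hd.le
      (Real.rpow_nonneg hn0.le _) (mul_le_mul_of_nonneg_right hτ hd.le) (fun i => hZn0 i ω)
      (fun i j => stf p f R0 (lam i) (K i) B k (lev l (K i) j) a ω -
          stf p f R0 (lam i) (K i) B k (lev l (K i) j) b ω)
      (fun i j => Clean p f R0 (lam i) (K i) B (lev l (K i) j) a b ω) (fun i hi => ?_)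
      (fun i hi j hj hc => (hlevmin i hi j hj).trans (hdirty i hi j ω hc).1.le)
      (fun i hi => ?_) (fun i hi => ?_)
    · refine pos_total (r := C * 2 ^ (3 * K i)) (zero_le_one.trans hC) hd.le
        (one_le_mul_of_one_le_of_one_le hC (one_le_pow₀ one_le_two)) (hZn0 i ω) (lev l (K i))
        (fun j => (hlev0 i j).le) (fun j => ?_) _ _ (fun j h => (hclean i hi j ω h).1)
        (fun j h => ?_) (N i)
      · simp only [lev]
        rw [show 4 * K i * (j + 1 + 1) = 4 * K i * (j + 1) + (K i + 3 * K i) by ring, pow_add,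
          pow_add _ (K i), mul_div_assoc', div_le_div_iff₀ (by positivity) (by positivity)]
        have h4C : 4 * C ≤ (2 : ℝ) ^ K i := le_trans (by nlinarith) (hC2 i)
        calc 4 * (C * 2 ^ (3 * K i)) * l * 2 ^ (4 * K i * (j + 1))
            = 4 * C * (2 ^ (3 * K i) * l * 2 ^ (4 * K i * (j + 1))) := by ring
          _ ≤ 2 ^ K i * (2 ^ (3 * K i) * l * 2 ^ (4 * K i * (j + 1))) :=
            mul_le_mul_of_nonneg_right h4C (by positivity)
          _ = _ := by ring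
      · obtain ⟨h0, F, h1, h2, h3, h4, -⟩ := hdirty i hi j ω h
        exact ⟨h0, F, h1, h2, h3, h4⟩
    · rw [← div_eq_mul_inv, le_div_iff₀ (hlampos i hi),
        inv_mul_le_iff₀ (by exact_mod_cast hN i), mul_comm]
      exact (hpar i hi).2.1
    · rw [← div_eq_mul_inv, le_div_iff₀ (hlampos i hi)]
      calc n ^ (-(δ / 2)) * lam i ≤ n ^ (-(δ / 2)) * lmax :=
            mul_le_mul_of_nonneg_left (hlamQ i hi) (Real.rpow_nonneg hn0.le _)
        _ = 8 / δ₁ * (2 ^ Q * n ^ (-(δ / 2))) := by rw [hlmax]; ring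
        _ ≤ 8 / δ₁ := mul_le_of_le_one_right (by positivity) hnQ
  · -- the entries
    simp only [hdh]
    refine (abs_pavg_le _ _ _).trans ((pavg_mono fun i hi j hj => ?_).trans
      (pavg_const hQ (fun i _ => hN i) _).le)
    have hlj : lev l (K i) j ≤ l := div_le_self hl0.le (one_le_pow₀ one_le_two)
    have hKle : K i ≤ U := by rw [← hKU i hi]; exact Nat.le_mul_of_pos_right _ (hN i)
    have h3 : (2 : ℝ) ^ (3 * K i) ≤ n ^ (δ / 4) :=
      ((pow_le_pow_right₀ one_le_two (Nat.mul_le_mul_left _ hKle)).trans (h2U 3)).trans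
        (Real.rpow_le_rpow_of_exponent_le hn1 (by push_cast; linarith))
    have hee : n ^ (δ / 4) * n ^ (δ / 4) ≤ n ^ δ := by
      rw [← Real.rpow_add hn0]
      exact Real.rpow_le_rpow_of_exponent_le hn1 (by linarith)
    refine le_trans ?_ (mul_le_mul_of_nonneg_right (mul_le_mul_of_nonneg_right
      (mul_le_mul_of_nonneg_left hee (by positivity)) hl0.le) hd.le)
    have hden : n ^ (-(M + δ)) ≤ lmin := by
      rw [hlmindef, le_div_iff₀ (by positivity)]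
      refine le_trans (mul_le_mul_of_nonneg_left (h2U 4) (Real.rpow_nonneg hn0.le _)) ?_
      rw [← Real.rpow_add hn0]
      exact (Real.rpow_le_rpow_of_exponent_le hn1 (by push_cast; linarith)).trans hlM
    have hq0 : 0 ≤ p / (k : ℝ) := by positivity
    have hq1 : p / (k : ℝ) ≤ 1 := div_le_one_of_le₀ (by linarith) (Nat.cast_nonneg k)
    by_cases hc : Clean p f R0 (lam i) (K i) B (lev l (K i) j) a b ω
    · refine entry_le (F := 2 ^ (3 * K i) * lev l (K i) j) (M := M + δ) hn1 hC hd.le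
        (one_le_pow₀ one_le_two) hl0.le hlj (hlev0 i j) (hlevmin i hi j hj) hden h3
        ((hZmax i hi ω).trans (le_max_right _ _)) (le_max_left _ _) (by linarith) hq0 hq1 hMk
        ?_ ?_
      · rw [(hclean i hi j ω hc).1]
        exact (hclean i hi j ω hc).2.trans_eq (by ring)
      · have := hlev0 i j
        refine le_trans ?_ (le_mul_of_one_le_right (by positivity)
          (Real.one_le_rpow (le_max_left _ _) hq0))
        rw [mul_assoc C]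
        exact le_mul_of_one_le_left (by positivity) hC
    · obtain ⟨-, F, h1, -, -, -, h5⟩ := hdirty i hi j ω hc
      exact entry_le (M := M + δ) hn1 hC hd.le (one_le_pow₀ one_le_two) hl0.le hlj (hlev0 i j)
        (hlevmin i hi j hj) hden h3 ((hZmax i hi ω).trans (le_max_right _ _)) (le_max_left _ _)
        (by linarith) hq0 hq1 hMk h1 h5
  · -- the changed coordinates
    simp only [hdh]
    set S := ({ω | (pavg Q N fun i j => stf p f R0 (lam i) (K i) B k (lev l (K i) j) a ω -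
      stf p f R0 (lam i) (K i) B k (lev l (K i) j) b ω) ≠ f a ω - f b ω} : Finset (Fin m)) with hS'
    have hcard : (S.card : ℝ) * lmin ^ p ≤ lmax ^ p * CP := by
      refine count_le hp0 S hZn0 (by positivity) (fun i hi => ⟨hlampos i hi, hlamQ i hi⟩) hA
        fun ω hω => ?_
      by_contra hlt
      apply (mem_filter.1 hω).2
      rw [← pavg_const hQ (fun i _ => hN i) (f a ω - f b ω)]
      refine pavg_congr fun i hi j hj => (hclean i hi j ω ?_).1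
      by_contra hc
      refine hlt ((Real.rpow_le_rpow hlmin0.le
        ((hlevmin i hi j hj).trans (hdirty i hi j ω hc).1.le) hp0.le).trans ?_)
      exact single_le_sum (f := fun i => Zn i ω ^ p)
        (fun i _ => Real.rpow_nonneg (hZn0 i ω) _) (mem_range.2 hi)
    have hl : l ^ p ≤ lmin ^ p * n ^ δ := by
      have e : l = lmin * 2 ^ (4 * U) := by rw [hlmindef]; field_simp
      conv_lhs => rw [e, Real.mul_rpow hlmin0.le (by positivity)]
      refine mul_le_mul_of_nonneg_left ?_ (Real.rpow_nonneg hlmin0.le _)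
      refine (Real.rpow_le_rpow (by positivity) (h2U 4) hp0.le).trans ?_
      rw [← Real.rpow_mul hn0.le]
      exact Real.rpow_le_rpow_of_exponent_le hn1 (by push_cast; nlinarith)
    calc (S.card : ℝ) * l ^ p ≤ (S.card : ℝ) * (lmin ^ p * n ^ δ) :=
          mul_le_mul_of_nonneg_left hl (Nat.cast_nonneg _)
      _ = (S.card : ℝ) * lmin ^ p * n ^ δ := by ring
      _ ≤ _ := mul_le_mul_of_nonneg_right hcard (Real.rpow_nonneg hn0.le _)

/-- One level, given the three building blocks. -/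
theorem regPin_of (hB : BlockPin) (hD : DiagPin) (hS : StopPin) : RegPin := by
  classical
  intro p hp δ ε M hδ hε hM
  have hp0 : 0 < p := by linarith
  set δ₁ := min 1 (δ / (64 * p)) with hδ₁def
  have hδ₁ : 0 < δ₁ := lt_min one_pos (by positivity)
  have hδp : 64 * p * δ₁ ≤ δ := by
    have := min_le_right 1 (δ / (64 * p))
    rw [← hδ₁def, le_div_iff₀ (by positivity)] at this
    linarith
  obtain ⟨k, hk1, hk2⟩ : ∃ k : ℕ, 2 * p ≤ k ∧ 4 * p * (M + δ) / δ ≤ k := by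
    obtain ⟨k, hk⟩ := exists_nat_ge (max (2 * p) (4 * p * (M + δ) / δ))
    exact ⟨k, (le_max_left _ _).trans hk, (le_max_right _ _).trans hk⟩
  have hMk : (M + δ) * (p / k) ≤ δ / 4 := by
    have := (div_le_iff₀ hδ).1 hk2
    rw [← mul_div_assoc, div_le_iff₀ (by linarith)]
    linarith
  obtain ⟨C, hC, hscale⟩ := scale_bound hB hS p hp.le k hk1
  obtain ⟨CD, hCD, hdiag⟩ := hD p hp
  set CP := C * (1 + 2 * CD) with hCP
  have hCP0 : 0 ≤ CP := mul_nonneg (by linarith) (by linarith)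
  set CE := 8 / δ₁ * (2 * C + 1) * CP ^ p⁻¹ with hCE
  have hCE0 : 0 ≤ CE := by positivity
  obtain ⟨Q, hQ1, hQε⟩ : ∃ Q : ℕ, 0 < Q ∧ CE / (Q : ℝ) ^ p⁻¹ ≤ ε := by
    refine ⟨⌈(CE / ε) ^ p⌉₊ + 1, Nat.succ_pos _, ?_⟩
    rw [div_le_iff₀ (by positivity), ← div_le_iff₀' hε]
    calc CE / ε = ((CE / ε) ^ p) ^ p⁻¹ := by
          rw [← Real.rpow_mul (by positivity), mul_inv_cancel₀ hp0.ne', Real.rpow_one]
      _ ≤ _ := Real.rpow_le_rpow (by positivity) (by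
          push_cast; linarith [Nat.le_ceil ((CE / ε) ^ p)]) (by positivity)
  set T := ⌈4 * C * C⌉₊ with hT
  set lmax := 8 / δ₁ * (2 : ℝ) ^ Q with hlmax
  set CZ := max 1 (lmax * CP ^ p⁻¹) with hCZ
  obtain ⟨n₀, hn₀⟩ := exists_nat_ge (max 2 (max (Real.exp (((T : ℝ) + 1) * 2 ^ Q / δ₁))
    (((2 : ℝ) ^ Q) ^ (2 / δ))))
  refine ⟨max (C * C * CZ) (lmax ^ p * CP), n₀,
    le_trans (one_le_mul_of_one_le_of_one_le (one_le_mul_of_one_le_of_one_le hC hC)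
      (le_max_left _ _)) (le_max_left _ _), fun ι _ hn m f hf l hlM hl1 => ?_⟩
  set n : ℝ := (Fintype.card ι : ℝ) with hndef
  have hn' := hn₀.trans (show (n₀ : ℝ) ≤ n by rw [hndef]; exact_mod_cast hn)
  simp only [max_le_iff] at hn'
  obtain ⟨hn2, hnexp, hnQ'⟩ := hn'
  have hn1 : 1 ≤ n := by linarith
  have hn0 : 0 < n := by linarith
  have hnQ : (2 : ℝ) ^ Q * n ^ (-(δ / 2)) ≤ 1 := by
    rw [Real.rpow_neg hn0.le, ← div_eq_mul_inv, div_le_one (Real.rpow_pos_of_pos hn0 _)]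
    calc (2 : ℝ) ^ Q = (((2 : ℝ) ^ Q) ^ (2 / δ)) ^ (δ / 2) := by
          rw [← Real.rpow_mul (by positivity), show 2 / δ * (δ / 2) = 1 by field_simp,
            Real.rpow_one]
      _ ≤ n ^ (δ / 2) := Real.rpow_le_rpow (by positivity) hnQ' (by positivity)
  have hL : ((T : ℝ) + 1) * 2 ^ Q ≤ δ₁ * Real.log n := by
    have := Real.log_le_log (Real.exp_pos _) hnexp
    rw [Real.log_exp, div_le_iff₀ hδ₁] at this
    linarith
  obtain ⟨K₀, hKT, hK1, hU, hpar⟩ := parameters hδ₁ (min_le_left _ _) Q T hL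
  have hLpos : 0 < Real.log n := Real.log_pos (by linarith)
  have hcard : 1 < Fintype.card ι := by
    have : (2 : ℝ) ≤ (Fintype.card ι : ℝ) := hn2
    exact_mod_cast this
  have : Nonempty ι := Fintype.card_pos_iff.1 (by omega)
  have hP0 : (univ : Finset ι).offDiag.Nonempty := by
    obtain ⟨a, b, hab⟩ := Fintype.exists_pair_of_one_lt_card hcard
    exact ⟨(a, b), by simp [hab]⟩
  obtain ⟨e₀, he₀, hmin⟩ := exists_min_image _ (fun e : ι × ι => dst p f e.1 e.2) hP0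
  set R0 := dst p f e₀.1 e₀.2
  have hR0 : 0 < R0 := dst_pos hp0 hf (by simpa using he₀)
  obtain ⟨B₁, hB₁⟩ := pow_unbounded_of_one_lt
    ((∑ a, ∑ b, dst p f a b) / R0) (one_lt_two (α := ℝ))
  have hdiam : ∀ u v, dst p f u v ≤ Rad R0 (B₁ + 1) := by
    intro u v
    refine le_trans ?_ (Rad_mono hR0 (Nat.le_succ B₁))
    rw [div_lt_iff₀ hR0] at hB₁
    rw [Rad, mul_comm]
    exact ((single_le_sum (f := fun b => dst p f u b) (fun _ _ => dst_nonneg _ _ _ _)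
      (mem_univ v)).trans (single_le_sum (f := fun a => ∑ b, dst p f a b)
        (fun _ _ => sum_nonneg fun _ _ => dst_nonneg _ _ _ _) (mem_univ u))).trans hB₁.le
  obtain ⟨h, hh⟩ := reg_at hp hδ₁ hM hδp hk1 hMk hC hCD hQ1 hK1
    ((Nat.le_ceil _).trans (by exact_mod_cast hKT)) f n (Real.log n) hndef rfl hn1 hU hpar
    hnQ hR0 hdiam
    (fun u => hdiag (fun t => gro p f R0 t u) _ hLpos (fun t => gro_nonneg hR0 t u)
      (fun T => by rw [range_eq_Ico, hndef]; exact sum_gro_le hp0 hR0 0 T u)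
      Q K₀ hK1 (fun _ => B₁ + 1))
    (fun lam K hK h4 hlog hdia => hscale ι m f R0 lam K _ hR0 hK (Nat.succ_pos B₁) h4 hlog hdia)
    (fun a b hab => ⟨dst_pos hp0 hf hab, hmin (a, b) (by simp [hab])⟩) hlM
  refine ⟨h, fun a b hab => ?_⟩
  obtain ⟨θ, h1, h2, h3, h4, h5, h6⟩ := hh a b hab
  refine ⟨θ, h1, h2, h3, h4.trans (mul_le_mul_of_nonneg_right hQε (dst_nonneg _ _ _ _)),
    fun ω => (h5 ω).trans ?_, h6.trans ?_⟩
  · refine mul_le_mul_of_nonneg_right (mul_le_mul_of_nonneg_right (mul_le_mul_of_nonneg_right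
      (le_max_left _ _) (Real.rpow_nonneg hn0.le _)) ?_) (dst_nonneg _ _ _ _)
    exact (Real.rpow_pos_of_pos hn0 _).le.trans hlM
  · exact mul_le_mul_of_nonneg_right (le_max_right _ _) (Real.rpow_nonneg hn0.le _)

end

end Vale.Agent.P249.AllD
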