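import Vale.Agent.P249.AllD.Time

/-!
# P249, every distortion: one block length

For one block length and one pair of points, a single majorant `Z` per coordinate controls the
stopped values at all levels `l`.
-/

open Finset

namespace Vale.Agent.P249.AllD

noncomputable section

/-- geometrically spaced levels pay only once -/
theorem position_sum {r Z : ℝ} (hr : 1 ≤ r) (hZ : 0 ≤ Z) :
    ∀ (N : ℕ) (l F : ℕ → ℝ), (∀ j, 0 ≤ l j) → (∀ j, 4 * r * l (j + 1) ≤ l j) →
      (∀ j, 0 ≤ F j) → (∀ j, F j ≤ Z) → (∀ j, F j ^ 2 ≤ r * l j * Z) →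
      (∀ j, Z ≤ l j → F j = 0) →
      ∑ j ∈ range N, F j ≤ 2 * Z ∧ ∑ j ∈ range N, F j ≤ 2 * Real.sqrt (r * l 0 * Z) := by
  intro N
  induction N with
  | zero =>
    intro l F _ _ _ _ _ _
    simp only [range_zero, sum_empty]
    exact ⟨by linarith, mul_nonneg zero_le_two (Real.sqrt_nonneg _)⟩
  | succ N ih =>
    intro l F hl hsp hF hFZ hFs hF0
    obtain ⟨h1, h2⟩ := ih (fun j => l (j + 1)) (fun j => F (j + 1)) (fun j => hl _)
      (fun j => hsp _) (fun j => hF _) (fun j => hFZ _) (fun j => hFs _) (fun j => hF0 _)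
    simp only [zero_add] at h2
    rw [sum_range_succ']
    have h4 : Real.sqrt (r * l 1 * Z) * 2 ≤ Real.sqrt (l 0 * Z) := by
      refine Real.le_sqrt_of_sq_le ?_
      rw [mul_pow, Real.sq_sqrt (by have := hl 1; positivity)]
      nlinarith [mul_le_mul_of_nonneg_right (hsp 0) hZ]
    have h5 : Real.sqrt (l 0 * Z) ≤ Real.sqrt (r * l 0 * Z) :=
      Real.sqrt_le_sqrt (mul_le_mul_of_nonneg_right (le_mul_of_one_le_left (hl 0) hr) hZ)
    constructor
    · rcases le_total Z (l 0) with h | h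
      · rw [hF0 0 h]; linarith
      · have : Real.sqrt (l 0 * Z) ≤ Z := by
          rw [Real.sqrt_le_left hZ]; nlinarith
        linarith [hFZ 0]
    · have : F 0 ≤ Real.sqrt (r * l 0 * Z) := Real.le_sqrt_of_sq_le (hFs 0)
      linarith

/-- truncated `k`-norms against `p`-norms -/
theorem trunc_norm {α : Type*} (s : Finset α) (X : α → ℝ) (hX : ∀ b ∈ s, 0 ≤ X b) {p Z R : ℝ}
    (hp : 1 ≤ p) {k : ℕ} (hk : 2 * p ≤ k) (hZ : 0 ≤ Z) (hR : 0 < R)
    (hsum : ∑ b ∈ s, X b ^ p ≤ Z ^ p) :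
    let H := (∑ b ∈ s, min (X b) R ^ k) ^ (k : ℝ)⁻¹
    0 ≤ H ∧ H ≤ Z ∧ H ^ 2 ≤ R * Z ∧ H ≤ R * max 1 (Z / R) ^ (p / k) := by
  intro H
  have hp0 : 0 < p := by linarith
  have hk0 : (0 : ℝ) < k := by linarith
  have hkn : k ≠ 0 := by
    rintro rfl
    simp at hk0
  have hH0 : 0 ≤ H :=
    Real.rpow_nonneg (sum_nonneg fun b hb => pow_nonneg (le_min (hX b hb) hR.le) _) _
  rcases hZ.eq_or_lt with rfl | hZp
  · have hz : ∀ b ∈ s, X b = 0 := fun b hb => by
      have := (sum_eq_zero_iff_of_nonneg fun b hb => Real.rpow_nonneg (hX b hb) p).1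
        (le_antisymm (by simpa [Real.zero_rpow hp0.ne'] using hsum)
          (sum_nonneg fun b hb => Real.rpow_nonneg (hX b hb) p)) b hb
      exact ((Real.rpow_eq_zero (hX b hb) hp0.ne').1 this)
    have : H = 0 := by
      have e : ∑ b ∈ s, min (X b) R ^ k = 0 :=
        sum_eq_zero fun b hb => by rw [hz b hb, min_eq_left hR.le, zero_pow hkn]
      simp only [H, e]
      exact Real.zero_rpow (inv_ne_zero hk0.ne')
    rw [this]
    refine ⟨le_rfl, le_rfl, by simp, ?_⟩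
    exact mul_nonneg hR.le (Real.rpow_nonneg (le_trans zero_le_one (le_max_left _ _)) _)
  set W := min Z R with hW
  have hW0 : 0 < W := lt_min hZp hR
  have hXZ : ∀ b ∈ s, X b ≤ Z := fun b hb =>
    (Real.rpow_le_rpow_iff (hX b hb) hZ hp0).1
      ((single_le_sum (f := fun b => X b ^ p) (fun b hb => Real.rpow_nonneg (hX b hb) p) hb).trans
        hsum)
  have hterm : ∀ b ∈ s, min (X b) R ^ k ≤ W ^ k * (X b / W) ^ p := by
    intro b hb
    have h0 : 0 ≤ min (X b) R / W := div_nonneg (le_min (hX b hb) hR.le) hW0.le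
    have h1 : min (X b) R / W ≤ 1 :=
      (div_le_one hW0).2 (le_min ((min_le_left _ _).trans (hXZ b hb)) (min_le_right _ _))
    have h2 : (min (X b) R / W) ^ k ≤ (X b / W) ^ p := by
      rw [← Real.rpow_natCast]
      refine le_trans ?_ (Real.rpow_le_rpow h0 (div_le_div_of_nonneg_right (min_le_left _ _)
        hW0.le) hp0.le)
      rcases h0.eq_or_lt with h | h
      · rw [← h, Real.zero_rpow hk0.ne', Real.zero_rpow hp0.ne']
      · exact Real.rpow_le_rpow_of_exponent_ge h h1 (by linarith)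
    calc min (X b) R ^ k = W ^ k * (min (X b) R / W) ^ k := by
          rw [← mul_pow, mul_div_cancel₀ _ hW0.ne']
      _ ≤ _ := mul_le_mul_of_nonneg_left h2 (pow_nonneg hW0.le _)
  have hZW : 1 ≤ Z / W := (one_le_div hW0).2 (min_le_left _ _)
  have hmain : H ≤ W * (Z / W) ^ (p / k) := by
    have h1 : ∑ b ∈ s, min (X b) R ^ k ≤ W ^ k * (Z / W) ^ p := by
      refine (sum_le_sum hterm).trans ?_
      rw [← mul_sum]
      refine mul_le_mul_of_nonneg_left ?_ (pow_nonneg hW0.le _)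
      rw [Real.div_rpow hZ hW0.le, sum_congr rfl fun b hb => Real.div_rpow (hX b hb) hW0.le p,
        ← sum_div]
      exact div_le_div_of_nonneg_right hsum (Real.rpow_nonneg hW0.le _)
    refine (Real.rpow_le_rpow (sum_nonneg fun b hb => pow_nonneg (le_min (hX b hb) hR.le) _) h1
      (inv_nonneg.2 hk0.le)).trans (le_of_eq ?_)
    rw [Real.mul_rpow (pow_nonneg hW0.le _) (Real.rpow_nonneg (by linarith) _),
      Real.pow_rpow_inv_natCast hW0.le hkn, ← Real.rpow_mul (by linarith), div_eq_mul_inv p]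
  have hhalf : (Z / W) ^ (p / k) ≤ Real.sqrt (Z / W) := by
    rw [Real.sqrt_eq_rpow]
    exact Real.rpow_le_rpow_of_exponent_le hZW (by rw [div_le_iff₀ hk0]; linarith)
  refine ⟨hH0, ?_, ?_, ?_⟩
  · refine hmain.trans ((mul_le_mul_of_nonneg_left (hhalf.trans ?_) hW0.le).trans_eq
      (mul_div_cancel₀ Z hW0.ne'))
    exact (Real.sqrt_le_left (by linarith)).2 (by nlinarith)
  · have h := hmain.trans (mul_le_mul_of_nonneg_left hhalf hW0.le)
    calc H ^ 2 ≤ (W * Real.sqrt (Z / W)) ^ 2 := pow_le_pow_left₀ hH0 h 2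
      _ = W * Z := by rw [mul_pow, Real.sq_sqrt (by linarith)]; field_simp
      _ ≤ R * Z := mul_le_mul_of_nonneg_right (min_le_right _ _) hZ
  · refine hmain.trans ?_
    rcases le_total Z R with h | h
    · have e : W = Z := min_eq_left h
      rw [e, div_self hZp.ne', Real.one_rpow, mul_one, max_eq_left ((div_le_one hR).2 h),
        Real.one_rpow, mul_one]
      exact h
    · rw [show W = R from min_eq_right h, max_eq_right ((one_le_div hR).2 h)]

theorem add3_rpow_le {x y z p : ℝ} (hx : 0 ≤ x) (hy : 0 ≤ y) (hz : 0 ≤ z) (hp : 0 ≤ p) :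
    (x + y + z) ^ p ≤ (3 : ℝ) ^ p * (x ^ p + y ^ p + z ^ p) := by
  have h1 := Real.rpow_nonneg hx p
  have h2 := Real.rpow_nonneg hy p
  have h3 := Real.rpow_nonneg hz p
  have h : ∀ w, 0 ≤ w → x + y + z ≤ 3 * w → w ^ p ≤ x ^ p + y ^ p + z ^ p →
      (x + y + z) ^ p ≤ (3 : ℝ) ^ p * (x ^ p + y ^ p + z ^ p) := by
    intro w hw h4 h5
    refine (Real.rpow_le_rpow (by linarith) h4 hp).trans ?_
    rw [Real.mul_rpow (by norm_num) hw]
    exact mul_le_mul_of_nonneg_left h5 (by positivity)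
  rcases le_total x y with a | a <;> rcases le_total y z with b | b <;>
    rcases le_total x z with c | c <;>
    first
      | exact h x hx (by linarith) (by linarith)
      | exact h y hy (by linarith) (by linarith)
      | exact h z hz (by linarith) (by linarith)

variable {ι : Type} [Fintype ι] {m : ℕ}

/-- the stopped map at level `l` -/
def stf (p : ℝ) (f : ι → Fin m → ℝ) (R0 lam : ℝ) (K B k : ℕ) (l : ℝ) (u : ι) (ω : Fin m) : ℝ :=
  stv k B l (fun b => zed p f R0 lam K B b u ω) (fun b => dev p f R0 lam K B b u ω)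
    (fun b => Rad R0 ((b + 1) * K))

/-- nothing is stopped at either end -/
def Clean (p : ℝ) (f : ι → Fin m → ℝ) (R0 lam : ℝ) (K B : ℕ) (l : ℝ) (u v : ι) (ω : Fin m) :
    Prop :=
  ∀ b, b ≤ B →
    siz l (fun b => zed p f R0 lam K B b u ω) (fun b => dev p f R0 lam K B b u ω)
        (fun b => Rad R0 ((b + 1) * K)) b ≤ 1 ∧
      siz l (fun b => zed p f R0 lam K B b v ω) (fun b => dev p f R0 lam K B b v ω)
        (fun b => Rad R0 ((b + 1) * K)) b ≤ 1

/-- first `b ≥ 1` whose block lies above `d` -/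
def cut (R0 d : ℝ) (K : ℕ) : ℕ := sInf {b | 1 ≤ b ∧ d ≤ Rad R0 ((b - 1) * K)}

/-- modulus of level `b` at one coordinate -/
def dlt (p : ℝ) (f : ι → Fin m → ℝ) (R0 lam : ℝ) (K B : ℕ) (u v : ι) (ω : Fin m) (b : ℕ) : ℝ :=
  (|zed p f R0 lam K B b u ω - zed p f R0 lam K B b v ω| +
    |dev p f R0 lam K B b u ω - dev p f R0 lam K B b v ω|) / dst p f u v

/-- size of band `b` at one coordinate -/
def bnd (p : ℝ) (f : ι → Fin m → ℝ) (R0 lam : ℝ) (K B : ℕ) (u : ι) (ω : Fin m) (b : ℕ) : ℝ :=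
  (|zed p f R0 lam K B b u ω - zed p f R0 lam K B (b + 1) u ω| +
    dev p f R0 lam K B b u ω + dev p f R0 lam K B (b + 1) u ω) / Rad R0 ((b + 1) * K)

/-- the majorant -/
def maj (p : ℝ) (f : ι → Fin m → ℝ) (R0 lam : ℝ) (K B : ℕ) (u v : ι) (ω : Fin m) : ℝ :=
  (∑ b ∈ Icc (cut R0 (dst p f u v) K - 2) (B + 1), dlt p f R0 lam K B u v ω b ^ p +
    ∑ b ∈ range (B + 1), (bnd p f R0 lam K B u ω b ^ p + bnd p f R0 lam K B v ω b ^ p)) ^ p⁻¹

theorem cut_spec {R0 d : ℝ} {K B : ℕ} (hd : d ≤ Rad R0 (B * K)) :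
    1 ≤ cut R0 d K ∧ d ≤ Rad R0 ((cut R0 d K - 1) * K) ∧ cut R0 d K ≤ B + 1 ∧
      ∀ b, 1 ≤ b → b < cut R0 d K → Rad R0 ((b - 1) * K) < d := by
  have hmem : B + 1 ∈ {b | 1 ≤ b ∧ d ≤ Rad R0 ((b - 1) * K)} := ⟨by omega, by simpa using hd⟩
  obtain ⟨h1, h2⟩ := Nat.sInf_mem ⟨_, hmem⟩
  exact ⟨h1, h2, Nat.sInf_le hmem, fun b hb hlt => not_le.1 fun h =>
    Nat.notMem_of_lt_sInf hlt ⟨hb, h⟩⟩

theorem scale_total {p : ℝ} {f : ι → Fin m → ℝ} {R0 lam : ℝ} {K B : ℕ} (hp : 1 ≤ p) {CB : ℝ} (hCB : 1 ≤ CB)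
    (hA0 : ∀ b u, 0 ≤ amp p f R0 lam K B b u) (hD0 : ∀ b u ω, 0 ≤ dev p f R0 lam K B b u ω)
    (hY : ∀ b, b ≤ B → ∀ u,
      nrm p (fun ω => |zed p f R0 lam K B b u ω - zed p f R0 lam K B (b + 1) u ω| +
          dev p f R0 lam K B b u ω + dev p f R0 lam K B (b + 1) u ω) ≤
        CB * Rad R0 ((b + 1) * K) * (amp p f R0 lam K B b u + amp p f R0 lam K B (b + 1) u +
          (if b = B then 1 else 0)))
    (hX : ∀ b, b ≤ B + 1 → ∀ u v,
      nrm p (fun ω => |zed p f R0 lam K B b u ω - zed p f R0 lam K B b v ω| +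
          |dev p f R0 lam K B b u ω - dev p f R0 lam K B b v ω|) ≤
        CB * dst p f u v * (amp p f R0 lam K B b u + amp p f R0 lam K B b v +
          (if b = 0 ∨ Rad R0 ((b - 1) * K) < dst p f u v then 1 else 0)))
    (hR0 : 0 < R0) {u v : ι} (hd : 0 < dst p f u v) (hdiam : dst p f u v ≤ Rad R0 (B * K))
    {C : ℝ} (hC : (3 * CB) ^ p * 8 ≤ C) :
    ∑ ω, maj p f R0 lam K B u v ω ^ p ≤ C * (1 + ∑ b ∈ Icc 1 B,
      (amp p f R0 lam K B b u ^ p + amp p f R0 lam K B b v ^ p)) := by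
  classical
  have hp0 : 0 < p := by linarith
  set d := dst p f u v with hdd
  obtain ⟨hc1, hcd, hcB, hbelow⟩ := cut_spec (K := K) (B := B) hdiam
  set c := cut R0 d K with hc
  -- the sequences
  let z : ι → Fin m → ℕ → ℝ := fun a ω b => zed p f R0 lam K B b a ω
  let D : ι → Fin m → ℕ → ℝ := fun a ω b => dev p f R0 lam K B b a ω
  let ρ : ℕ → ℝ := fun b => Rad R0 ((b + 1) * K)
  let X : Fin m → ℕ → ℝ := dlt p f R0 lam K B u v
  let Y : ι → Fin m → ℕ → ℝ := bnd p f R0 lam K B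
  have hρ : ∀ b, 0 < ρ b := fun b => Rad_pos hR0 _
  have hX0 : ∀ ω b, 0 ≤ X ω b := fun ω b =>
    div_nonneg (add_nonneg (abs_nonneg _) (abs_nonneg _)) (dst_nonneg _ _ _ _)
  have hY0 : ∀ a ω b, 0 ≤ Y a ω b := fun a ω b => div_nonneg
    (add_nonneg (add_nonneg (abs_nonneg _) (hD0 _ _ _)) (hD0 _ _ _)) (hρ b).le
  let s : Finset ℕ := Icc (c - 2) (B + 1)
  let P : Fin m → ℝ := fun ω =>
    ∑ b ∈ s, X ω b ^ p + ∑ b ∈ range (B + 1), (Y u ω b ^ p + Y v ω b ^ p)
  have hP1 : ∀ ω, 0 ≤ ∑ b ∈ s, X ω b ^ p := fun ω =>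
    sum_nonneg fun b _ => Real.rpow_nonneg (hX0 _ _) _
  have hP2 : ∀ ω, 0 ≤ ∑ b ∈ range (B + 1), (Y u ω b ^ p + Y v ω b ^ p) := fun ω =>
    sum_nonneg fun b _ => add_nonneg (Real.rpow_nonneg (hY0 _ _ _) _)
      (Real.rpow_nonneg (hY0 _ _ _) _)
  have hP0 : ∀ ω, 0 ≤ P ω := fun ω => add_nonneg (hP1 ω) (hP2 ω)
  have hPZ : ∀ ω, (P ω ^ p⁻¹) ^ p = P ω := fun ω => by
    rw [← Real.rpow_mul (hP0 ω), inv_mul_cancel₀ hp0.ne', Real.rpow_one]
  change ∑ ω, (P ω ^ p⁻¹) ^ p ≤ _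
  simp only [hPZ, P]
  rw [sum_add_distrib, sum_comm, sum_comm (t := range (B + 1))]
  simp only [sum_add_distrib]
  have hA : ∀ b a, 0 ≤ amp p f R0 lam K B b a ^ p := fun b a => Real.rpow_nonneg (hA0 b a) _
  set S := ∑ b ∈ Icc 1 B, (amp p f R0 lam K B b u ^ p + amp p f R0 lam K B b v ^ p) with hS'
  have hS0 : 0 ≤ S := sum_nonneg fun b _ => add_nonneg (hA b u) (hA b v)
  have hshift : ∀ a (t : Finset ℕ), ∑ b ∈ t, amp p f R0 lam K B b a ^ p ≤
      ∑ b ∈ Icc 1 B, amp p f R0 lam K B b a ^ p := by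
    intro a t
    rw [← sum_filter_add_sum_filter_not t (fun b => 1 ≤ b ∧ b ≤ B),
      sum_eq_zero (s := t.filter fun b => ¬(1 ≤ b ∧ b ≤ B)) fun b hb => by
        rw [amp, if_neg (mem_filter.1 hb).2, Real.zero_rpow hp0.ne'], add_zero]
    exact sum_le_sum_of_subset_of_nonneg
      (fun b hb => mem_Icc.2 (mem_filter.1 hb).2) fun b _ _ => hA b a
  have hS1 : ∀ t : Finset ℕ,
      ∑ b ∈ t, (amp p f R0 lam K B b u ^ p + amp p f R0 lam K B b v ^ p) ≤ S := fun t => by
    rw [hS', sum_add_distrib, sum_add_distrib]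
    exact add_le_add (hshift u t) (hshift v t)
  have h3 : (0 : ℝ) ≤ (3 * CB) ^ p := Real.rpow_nonneg (by linarith) _
  have hterm : ∀ (g : Fin m → ℝ) (x y e : ℝ), (∀ ω, 0 ≤ g ω) → 0 ≤ x → 0 ≤ y →
      (e = 0 ∨ e = 1) → nrm p g ≤ CB * (x + y + e) →
      ∑ ω, g ω ^ p ≤ (3 * CB) ^ p * (x ^ p + y ^ p + e) := by
    intro g x y e hg hx hy he hn
    have he0 : 0 ≤ e := by rcases he with rfl | rfl <;> norm_num
    calc ∑ ω, g ω ^ p = nrm p g ^ p := by
          rw [nrm_rpow hp0]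
          exact sum_congr rfl fun ω _ => by rw [abs_of_nonneg (hg ω)]
      _ ≤ (CB * (x + y + e)) ^ p := Real.rpow_le_rpow (nrm_nonneg _ _) hn hp0.le
      _ ≤ CB ^ p * ((3 : ℝ) ^ p * (x ^ p + y ^ p + e ^ p)) := by
          rw [Real.mul_rpow (by linarith) (by linarith)]
          exact mul_le_mul_of_nonneg_left (add3_rpow_le hx hy he0 hp0.le)
            (Real.rpow_nonneg (by linarith) _)
      _ = _ := by
          have : e ^ p = e := by
            rcases he with rfl | rfl <;> simp [Real.zero_rpow hp0.ne']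
          rw [this, Real.mul_rpow (by norm_num) (by linarith)]
          ring
  have hscale : ∀ (g : Fin m → ℝ) (q : ℝ), 0 < q → nrm p (fun ω => g ω / q) = nrm p g / q := by
    intro g q hq
    simp only [div_eq_inv_mul]
    rw [nrm_smul hp0, abs_of_pos (inv_pos.2 hq)]
  have hsX : ∑ b ∈ s, ∑ ω, X ω b ^ p ≤ (3 * CB) ^ p * (S + 2) := by
    refine (sum_le_sum fun b hb => hterm (fun ω => X ω b) _ _
      (if b < c then 1 else 0) (fun ω => hX0 ω b) (hA0 b u) (hA0 b v)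
      (by split_ifs <;> simp) ?_).trans ?_
    · have hb2 : b ≤ B + 1 := (mem_Icc.1 hb).2
      have h := hX b hb2 u v
      rw [show (fun ω => X ω b) = fun ω =>
        (|z u ω b - z v ω b| + |D u ω b - D v ω b|) / d from rfl, hscale _ d hd,
        div_le_iff₀ hd]
      refine h.trans ?_
      rw [← hdd]
      have hflag : (if b = 0 ∨ Rad R0 ((b - 1) * K) < d then (1 : ℝ) else 0) ≤
          if b < c then 1 else 0 := by
        by_cases hbc : b < c
        · rw [if_pos hbc]; split_ifs <;> norm_num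
        · have h1 : c ≤ b := not_lt.1 hbc
          rw [if_neg hbc, if_neg]
          rintro (h2 | h2)
          · omega
          · exact absurd h2 (not_lt.2 (hcd.trans (Rad_mono hR0
              (Nat.mul_le_mul_right K (by omega)))))
      nlinarith [mul_le_mul_of_nonneg_left hflag (mul_nonneg (zero_le_one.trans hCB) hd.le)]
    · rw [← mul_sum, sum_add_distrib]
      refine mul_le_mul_of_nonneg_left (add_le_add (hS1 s) ?_) h3
      rw [sum_boole]
      have : (s.filter fun b => b < c) ⊆ Ico (c - 2) c := fun b hb => by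
        simp only [s, mem_filter, mem_Icc, mem_Ico] at hb ⊢
        omega
      calc ((s.filter fun b => b < c).card : ℝ) ≤ ((Ico (c - 2) c).card : ℝ) := by
            exact_mod_cast card_le_card this
        _ ≤ 2 := by
            rw [Nat.card_Ico]
            exact_mod_cast (by omega : c - (c - 2) ≤ 2)
  have hsY : ∀ a, ∑ b ∈ range (B + 1), ∑ ω, Y a ω b ^ p ≤
      (3 * CB) ^ p * (2 * ∑ b ∈ Icc 1 B, amp p f R0 lam K B b a ^ p + 1) := by
    intro a
    refine (sum_le_sum fun b hb => hterm (fun ω => Y a ω b) _ _ (if b = B then 1 else 0)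
      (fun ω => hY0 a ω b) (hA0 b a) (hA0 (b + 1) a) (by split_ifs <;> simp) ?_).trans ?_
    · rw [show (fun ω => Y a ω b) = fun ω =>
        (|z a ω b - z a ω (b + 1)| + D a ω b + D a ω (b + 1)) / ρ b from rfl, hscale _ _ (hρ b),
        div_le_iff₀ (hρ b)]
      refine (hY b (Nat.lt_succ_iff.1 (mem_range.1 hb)) a).trans (le_of_eq ?_)
      ring
    · rw [← mul_sum, sum_add_distrib, sum_add_distrib]
      refine mul_le_mul_of_nonneg_left ?_ h3
      have h1 := hshift a (range (B + 1))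
      have h2 : ∑ b ∈ range (B + 1), amp p f R0 lam K B (b + 1) a ^ p ≤
          ∑ b ∈ Icc 1 B, amp p f R0 lam K B b a ^ p := by
        have := hshift a ((range (B + 1)).image fun b => b + 1)
        rwa [sum_image (fun x _ y _ h => by simpa using h)] at this
      have h4 : ∑ b ∈ range (B + 1), (if b = B then (1 : ℝ) else 0) ≤ 1 := by
        rw [sum_ite_eq' (range (B + 1)) B fun _ => (1 : ℝ)]
        split_ifs <;> norm_num
      linarith
  have hu := hsY u
  have hv := hsY v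
  have hSdef : S = ∑ b ∈ Icc 1 B, amp p f R0 lam K B b u ^ p +
      ∑ b ∈ Icc 1 B, amp p f R0 lam K B b v ^ p := by rw [hS', sum_add_distrib]
  calc _ ≤ (3 * CB) ^ p * (S + 2) +
        ((3 * CB) ^ p * (2 * ∑ b ∈ Icc 1 B, amp p f R0 lam K B b u ^ p + 1) +
          (3 * CB) ^ p * (2 * ∑ b ∈ Icc 1 B, amp p f R0 lam K B b v ^ p + 1)) :=
        add_le_add hsX (add_le_add hu hv)
    _ = (3 * CB) ^ p * (3 * S + 4) := by rw [hSdef]; ring
    _ ≤ (3 * CB) ^ p * (8 * (1 + S)) := mul_le_mul_of_nonneg_left (by linarith) h3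
    _ ≤ C * (1 + S) := by
        rw [← mul_assoc]
        exact mul_le_mul_of_nonneg_right hC (by linarith)
    _ = _ := by rw [hSdef]

theorem scale_level (hS : StopPin) (p : ℝ) (hp : 1 ≤ p) (k : ℕ) (hk : 2 * p ≤ k) :
    ∃ CS : ℝ, 1 ≤ CS ∧ ∀ (CB C : ℝ), 1 ≤ CB → 2 * CS * CB ≤ C →
      ∀ (ι : Type) [Fintype ι] (m : ℕ) (f : ι → Fin m → ℝ) (R0 lam : ℝ) (K B : ℕ), 0 < R0 → 1 ≤ K →
      (∀ b u ω, 0 ≤ dev p f R0 lam K B b u ω) →
      (∀ b, 1 ≤ b → b ≤ B → ∀ u v, dst p f u v ≤ Rad R0 ((b - 1) * K) → ∀ ω,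
        |zed p f R0 lam K B b u ω - zed p f R0 lam K B b v ω| +
            |dev p f R0 lam K B b u ω - dev p f R0 lam K B b v ω| ≤
          CB * 2 ^ K * (dst p f u v / Rad R0 ((b - 1) * K)) * dev p f R0 lam K B b u ω) →
      ∀ u v, 0 < dst p f u v → R0 ≤ dst p f u v → dst p f u v ≤ Rad R0 (B * K) →
      ∀ (l : ℝ) (ω : Fin m), 0 < l →
          (Clean p f R0 lam K B l u v ω →
            stf p f R0 lam K B k l u ω - stf p f R0 lam K B k l v ω = f u ω - f v ω ∧
              |f u ω - f v ω| ≤ C * 2 ^ (3 * K) * l * dst p f u v) ∧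
          (¬Clean p f R0 lam K B l u v ω → l < maj p f R0 lam K B u v ω ∧
            ∃ F : ℝ, |stf p f R0 lam K B k l u ω - stf p f R0 lam K B k l v ω| ≤
                C * dst p f u v * F ∧
              0 ≤ F ∧ F ≤ maj p f R0 lam K B u v ω ∧ F ^ 2 ≤ C * 2 ^ (3 * K) * l * maj p f R0 lam K B u v ω ∧
              F ≤ C * 2 ^ (3 * K) * l *
                max 1 (maj p f R0 lam K B u v ω / (C * 2 ^ (3 * K) * l)) ^ (p / k)) := by
  have hk2 : 2 ≤ k := by exact_mod_cast (show (2 : ℝ) ≤ k by linarith)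
  obtain ⟨CS, hCS, hstop⟩ := hS k hk2
  refine ⟨CS, hCS, fun CB C hCB hC ι _ m f R0 lam K B hR0 hK hD0 hcr u v hd hd0 hdiam l ω hl => ?_⟩
  classical
  have hp0 : 0 < p := by linarith
  set d := dst p f u v with hdd
  obtain ⟨hc1, hcd, hcB, hbelow⟩ := cut_spec (K := K) (B := B) hdiam
  set c := cut R0 d K with hc
  -- the sequences
  let z : ι → Fin m → ℕ → ℝ := fun a ω b => zed p f R0 lam K B b a ω
  let D : ι → Fin m → ℕ → ℝ := fun a ω b => dev p f R0 lam K B b a ω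
  let ρ : ℕ → ℝ := fun b => Rad R0 ((b + 1) * K)
  let X : Fin m → ℕ → ℝ := dlt p f R0 lam K B u v
  let Y : ι → Fin m → ℕ → ℝ := bnd p f R0 lam K B
  have hρ : ∀ b, 0 < ρ b := fun b => Rad_pos hR0 _
  have hX0 : ∀ ω b, 0 ≤ X ω b := fun ω b =>
    div_nonneg (add_nonneg (abs_nonneg _) (abs_nonneg _)) (dst_nonneg _ _ _ _)
  have hY0 : ∀ a ω b, 0 ≤ Y a ω b := fun a ω b => div_nonneg
    (add_nonneg (add_nonneg (abs_nonneg _) (hD0 _ _ _)) (hD0 _ _ _)) (hρ b).le
  let s : Finset ℕ := Icc (c - 2) (B + 1)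
  let P : Fin m → ℝ := fun ω =>
    ∑ b ∈ s, X ω b ^ p + ∑ b ∈ range (B + 1), (Y u ω b ^ p + Y v ω b ^ p)
  have hP1 : ∀ ω, 0 ≤ ∑ b ∈ s, X ω b ^ p := fun ω =>
    sum_nonneg fun b _ => Real.rpow_nonneg (hX0 _ _) _
  have hP2 : ∀ ω, 0 ≤ ∑ b ∈ range (B + 1), (Y u ω b ^ p + Y v ω b ^ p) := fun ω =>
    sum_nonneg fun b _ => add_nonneg (Real.rpow_nonneg (hY0 _ _ _) _)
      (Real.rpow_nonneg (hY0 _ _ _) _)
  have hP0 : ∀ ω, 0 ≤ P ω := fun ω => add_nonneg (hP1 ω) (hP2 ω)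
  have hPZ : ∀ ω, (P ω ^ p⁻¹) ^ p = P ω := fun ω => by
    rw [← Real.rpow_mul (hP0 ω), inv_mul_cancel₀ hp0.ne', Real.rpow_one]
  set r := CB * 2 ^ (3 * K) with hr
  have hr1 : 1 ≤ r := one_le_mul_of_one_le_of_one_le hCB (one_le_pow₀ one_le_two)
  have hrC : r ≤ C * 2 ^ (3 * K) :=
    mul_le_mul_of_nonneg_right (le_trans (by nlinarith) hC) (by positivity)
  have h2K : (2 : ℝ) ^ (2 * K) ≤ r := by
    refine le_trans ?_ (le_mul_of_one_le_left (by positivity) hCB)
    exact pow_le_pow_right₀ one_le_two (by omega)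
  obtain ⟨hS1, hS2⟩ := hstop B (c - 2) c l d r (z u ω) (z v ω) (D u ω) (D v ω) (X ω) ρ hl hd hr1
    (by omega) hcB (by omega) hρ
    (fun b => by
      simp only [ρ]
      rw [show (b + 1 + 1) * K = (b + 1) * K + K by ring, Rad_add, mul_comm]
      exact mul_le_mul_of_nonneg_left
        (by simpa using pow_le_pow_right₀ (one_le_two (α := ℝ)) hK) (Rad_pos hR0 _).le)
    (fun b hb => by
      have h := hbelow (c - 1) (by omega) (by omega)
      exact (Rad_mono hR0 (Nat.mul_le_mul_right K (by omega))).trans h.le)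
    (fun b hb => by
      refine (Rad_mono hR0 (Nat.mul_le_mul_right K (hb : b + 1 ≤ c))).trans ?_
      rcases Nat.lt_or_ge c 2 with h2 | h2
      · rw [show c * K = K by rw [show c = 1 by omega, one_mul], Rad, mul_comm r]
        exact mul_le_mul hd0 ((pow_le_pow_right₀ one_le_two (by omega)).trans h2K)
          (by positivity) hd.le
      · have h := hbelow (c - 1) (by omega) (by omega)
        rw [show c * K = (c - 1 - 1) * K + 2 * K by
          rw [← Nat.add_mul]; congr 1; omega, Rad_add, mul_comm r]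
        exact mul_le_mul h.le h2K (by positivity) hd.le)
    (fun b => hD0 b u ω) (fun b => hD0 b v ω)
    (by simp [z, zed])
    (by simp [D, dev])
    (fun b _ => le_of_eq (mul_div_cancel₀ _ hd.ne').symm)
    (fun b hb hbB => by
      have hb1 : 1 ≤ b := by omega
      have hdb : d ≤ Rad R0 ((b - 1) * K) :=
        hcd.trans (Rad_mono hR0 (Nat.mul_le_mul_right K (by omega)))
      have hrho : ρ b = Rad R0 ((b - 1) * K) * 2 ^ (2 * K) := by
        simp only [ρ]
        rw [← Rad_add]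
        congr 1
        rw [← Nat.add_mul]; congr 1; omega
      have h1 := hcr b hb1 hbB u v hdb ω
      have h2 := hcr b hb1 hbB v u (by rwa [dst_comm, ← hdd]) ω
      have e : ∀ x : ℝ, CB * 2 ^ K * (d / Rad R0 ((b - 1) * K)) * x = r * d * x / ρ b := by
        intro x
        rw [hr, hrho]
        have := (Rad_pos hR0 ((b - 1) * K)).ne'
        field_simp
        ring
      rw [abs_sub_comm (zed p f R0 lam K B b v ω), abs_sub_comm (dev p f R0 lam K B b v ω),
        dst_comm p f v u] at h2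
      exact ⟨h1.trans_eq (e _), h2.trans_eq (e _)⟩)
  have hz0 : ∀ a, z a ω 0 = f a ω := fun a => by simp [z, zed]
  constructor
  · intro hcl
    obtain ⟨e1, e2⟩ := hS2 hcl
    rw [hz0, hz0] at e1 e2
    refine ⟨e1, e2.trans ?_⟩
    have : CS * r ≤ C * 2 ^ (3 * K) := by
      rw [hr, ← mul_assoc]
      exact mul_le_mul_of_nonneg_right (le_trans (by nlinarith) hC) (by positivity)
    exact mul_le_mul_of_nonneg_right (mul_le_mul_of_nonneg_right this hl.le) hd.le
  · intro hcl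
    have hlZ : l < P ω ^ p⁻¹ := by
      simp only [Clean, not_forall, not_and_or, not_le] at hcl
      obtain ⟨b, hb, hb'⟩ := hcl
      obtain ⟨a, ha, hab⟩ : ∃ a, (a = u ∨ a = v) ∧
          1 < siz l (z a ω) (D a ω) ρ b := by
        rcases hb' with h | h
        · exact ⟨u, .inl rfl, h⟩
        · exact ⟨v, .inr rfl, h⟩
      have h1 : l < Y a ω b := (one_lt_div hl).1 hab
      refine h1.trans_le ((Real.rpow_le_rpow_iff (hY0 _ _ _)
        (Real.rpow_nonneg (hP0 ω) _) hp0).1 ?_)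
      rw [hPZ]
      refine le_trans ?_ (le_add_of_nonneg_left (hP1 ω))
      refine le_trans ?_ (single_le_sum (f := fun b => Y u ω b ^ p + Y v ω b ^ p)
        (fun b _ => add_nonneg (Real.rpow_nonneg (hY0 _ _ _) _)
          (Real.rpow_nonneg (hY0 _ _ _) _)) (mem_range.2 (Nat.lt_succ_of_le hb)))
      have hu := Real.rpow_nonneg (hY0 u ω b) p
      have hv := Real.rpow_nonneg (hY0 v ω b) p
      rcases ha with rfl | rfl <;> linarith
    refine ⟨hlZ, ?_⟩
    set Z := P ω ^ p⁻¹ with hZdef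
    have hZ0 : 0 ≤ Z := Real.rpow_nonneg (hP0 ω) _
    have hR : 0 < r * l := mul_pos (by linarith) hl
    obtain ⟨hH0, hH1, hH2, hH3⟩ := trunc_norm s (X ω) (fun b _ => hX0 ω b) hp hk hZ0 hR
      (by rw [hZdef, hPZ]; exact le_add_of_nonneg_right (hP2 ω))
    set H := (∑ b ∈ s, min (X ω b) (r * l) ^ k) ^ (k : ℝ)⁻¹ with hH
    rw [show maj p f R0 lam K B u v ω = Z from rfl]
    refine ⟨(l + H) / 2, ?_, by linarith, by linarith, ?_, ?_⟩
    · refine hS1.trans ?_
      rw [show C * d * ((l + H) / 2) = (C / 2) * d * (l + H) by ring]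
      refine mul_le_mul_of_nonneg_right (mul_le_mul_of_nonneg_right ?_ hd.le) (by linarith)
      nlinarith
    · have h1 : l ^ 2 ≤ r * l * Z := by nlinarith [mul_le_mul hr1 hlZ.le hl.le (by linarith)]
      have h2 : r * l * Z ≤ C * 2 ^ (3 * K) * l * Z := by gcongr
      nlinarith [sq_nonneg (l - H)]
    · have hRC : r * l ≤ C * 2 ^ (3 * K) * l := by gcongr
      set R' := C * 2 ^ (3 * K) * l with hR'
      have hq : 0 ≤ p / (k : ℝ) := by positivity
      have hq1 : p / (k : ℝ) ≤ 1 := by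
        rw [div_le_one (by exact_mod_cast (by omega : 0 < k))]; linarith
      have hmono : r * l * max 1 (Z / (r * l)) ^ (p / (k : ℝ)) ≤
          R' * max 1 (Z / R') ^ (p / (k : ℝ)) := by
        have hR'0 : 0 < R' := hR.trans_le hRC
        have hx : max 1 (Z / (r * l)) ≤ R' / (r * l) * max 1 (Z / R') := by
          refine max_le (one_le_mul_of_one_le_of_one_le ((one_le_div hR).2 hRC)
            (le_max_left _ _)) ?_
          calc Z / (r * l) = R' / (r * l) * (Z / R') := by field_simp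
            _ ≤ _ := mul_le_mul_of_nonneg_left (le_max_right _ _) (by positivity)
        refine (mul_le_mul_of_nonneg_left (Real.rpow_le_rpow
          (le_trans zero_le_one (le_max_left _ _)) hx hq) hR.le).trans ?_
        rw [Real.mul_rpow (by positivity) (le_trans zero_le_one (le_max_left _ _)), ← mul_assoc]
        refine mul_le_mul_of_nonneg_right ?_
          (Real.rpow_nonneg (le_trans zero_le_one (le_max_left _ _)) _)
        calc r * l * (R' / (r * l)) ^ (p / (k : ℝ)) ≤ r * l * (R' / (r * l)) ^ (1 : ℝ) :=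
              mul_le_mul_of_nonneg_left (Real.rpow_le_rpow_of_exponent_le
                ((one_le_div hR).2 hRC) hq1) hR.le
          _ = R' := by rw [Real.rpow_one]; field_simp
      have h1 : l ≤ R' * max 1 (Z / R') ^ (p / (k : ℝ)) :=
        le_trans (le_trans (le_mul_of_one_le_left hl.le hr1) hRC)
          (le_mul_of_one_le_right (le_trans hR.le hRC) (Real.one_le_rpow (le_max_left _ _) hq))
      linarith [hH3.trans hmono]

/-- The majorant of one block length. -/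
theorem scale_bound (hB : BlockPin) (hS : StopPin) (p : ℝ) (hp : 1 ≤ p) (k : ℕ) (hk : 2 * p ≤ k) :
    ∃ C : ℝ, 1 ≤ C ∧ ∀ (ι : Type) [Fintype ι] [Nonempty ι] (m : ℕ) (f : ι → Fin m → ℝ)
      (R0 lam : ℝ) (K B : ℕ), 0 < R0 → 1 ≤ K → 1 ≤ B → 4 ≤ lam →
      4 * Real.log (Fintype.card ι : ℝ) ≤ lam * (K : ℝ) →
      (∀ u v, dst p f u v ≤ Rad R0 (B * K)) →
      ∀ u v, 0 < dst p f u v → R0 ≤ dst p f u v →
      ∃ Z : Fin m → ℝ, (∀ ω, 0 ≤ Z ω) ∧
        ∑ ω, Z ω ^ p ≤ C * (1 + ∑ b ∈ Icc 1 B,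
          (amp p f R0 lam K B b u ^ p + amp p f R0 lam K B b v ^ p)) ∧
        ∀ (l : ℝ) (ω : Fin m), 0 < l →
          (Clean p f R0 lam K B l u v ω →
            stf p f R0 lam K B k l u ω - stf p f R0 lam K B k l v ω = f u ω - f v ω ∧
              |f u ω - f v ω| ≤ C * 2 ^ (3 * K) * l * dst p f u v) ∧
          (¬Clean p f R0 lam K B l u v ω → l < Z ω ∧
            ∃ F : ℝ, |stf p f R0 lam K B k l u ω - stf p f R0 lam K B k l v ω| ≤
                C * dst p f u v * F ∧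
              0 ≤ F ∧ F ≤ Z ω ∧ F ^ 2 ≤ C * 2 ^ (3 * K) * l * Z ω ∧
              F ≤ C * 2 ^ (3 * K) * l *
                max 1 (Z ω / (C * 2 ^ (3 * K) * l)) ^ (p / k)) := by
  classical
  obtain ⟨CB, hCB, hblk⟩ := hB
  obtain ⟨CS, hCS, hlev⟩ := scale_level hS p hp k hk
  refine ⟨max (2 * CS * CB) ((3 * CB) ^ p * 8), le_trans (by nlinarith) (le_max_left _ _),
    fun ι _ _ m f R0 lam K B hR0 hK hB1 hlam hlog hdiam u v hd hd0 => ?_⟩
  obtain ⟨hA0, hD0, hY, hX, hcr⟩ := hblk p hp ι m f R0 lam K B hR0 hK hB1 hlam hlog hdiam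
  refine ⟨maj p f R0 lam K B u v, fun ω => ?_,
    scale_total hp hCB hA0 hD0 hY hX hR0 hd (hdiam u v) (le_max_right _ _),
    fun l ω hl => hlev CB _ hCB (le_max_left _ _) ι m f R0 lam K B hR0 hK hD0 hcr u v hd hd0
      (hdiam u v) l ω hl⟩
  refine Real.rpow_nonneg (add_nonneg (sum_nonneg fun b _ => Real.rpow_nonneg ?_ _)
    (sum_nonneg fun b _ => add_nonneg (Real.rpow_nonneg ?_ _) (Real.rpow_nonneg ?_ _))) _
  · exact div_nonneg (add_nonneg (abs_nonneg _) (abs_nonneg _)) (dst_nonneg _ _ _ _)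
  all_goals
    exact div_nonneg (add_nonneg (add_nonneg (abs_nonneg _) (hD0 _ _ _)) (hD0 _ _ _))
      (Rad_pos hR0 _).le

end

end Vale.Agent.P249.AllD
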