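import Vale.Agent.P249.AllD.Base

/-!
# P249, every distortion: growths, weights and stopping times of the scales

Elementary facts about `gro`, `eta`, `bet`, `suf` and `tim`: signs, totals and Lipschitz moduli.
-/

open Finset

namespace Vale.Agent.P249.AllD

noncomputable section

variable {ι : Type*} [Fintype ι] {m : ℕ} {p : ℝ} {f : ι → Fin m → ℝ} {R0 lam : ℝ}

/-! ## Radii -/

theorem Rad_pos (hR : 0 < R0) (t : ℕ) : 0 < Rad R0 t := mul_pos hR (pow_pos two_pos t)

theorem Rad_succ (R0 : ℝ) (t : ℕ) : Rad R0 (t + 1) = 2 * Rad R0 t := by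
  rw [Rad, Rad, pow_succ]; ring

theorem Rad_add (R0 : ℝ) (s t : ℕ) : Rad R0 (s + t) = Rad R0 s * 2 ^ t := by
  rw [Rad, Rad, pow_add]; ring

theorem Rad_mono (hR : 0 < R0) {s t : ℕ} (h : s ≤ t) : Rad R0 s ≤ Rad R0 t :=
  mul_le_mul_of_nonneg_left (pow_le_pow_right₀ one_le_two h) hR.le

theorem sum_inv_Rad_le (hR : 0 < R0) (t N : ℕ) :
    ∑ q ∈ Ico t N, (Rad R0 q)⁻¹ ≤ 2 * (Rad R0 t)⁻¹ := by
  suffices h : t ≤ N → ∑ q ∈ Ico t N, (Rad R0 q)⁻¹ ≤ 2 * (Rad R0 t)⁻¹ - 2 * (Rad R0 N)⁻¹ by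
    rcases le_or_gt t N with htN | htN
    · linarith [h htN, inv_pos.2 (Rad_pos hR N)]
    · rw [Ico_eq_empty_of_le htN.le, sum_empty]
      linarith [inv_pos.2 (Rad_pos hR t)]
  intro htN
  induction N, htN using Nat.le_induction with
  | base => simp
  | succ N hN ih =>
    have e : (Rad R0 (N + 1))⁻¹ = (Rad R0 N)⁻¹ / 2 := by
      rw [Rad_succ, mul_inv, div_eq_mul_inv, mul_comm]
    rw [sum_Ico_succ_top hN, e]
    linarith

/-! ## Weights and kernels -/

theorem wgt_pos (t : ℕ) (u c : ι) : 0 < wgt p f R0 t u c := Real.exp_pos _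

theorem sum_wgt_pos (t : ℕ) (u : ι) : 0 < ∑ c, wgt p f R0 t u c :=
  sum_pos (fun c _ => wgt_pos t u c) ⟨u, mem_univ u⟩

theorem ker_pos (t : ℕ) (u c : ι) : 0 < ker p f R0 t u c :=
  div_pos (wgt_pos t u c) (sum_wgt_pos t u)

theorem sum_ker (t : ℕ) (u : ι) : ∑ c, ker p f R0 t u c = 1 := by
  simp only [ker, ← sum_div]
  exact div_self (sum_wgt_pos t u).ne'

theorem wgt_le_exp_mul (hp : 1 ≤ p) (hR : 0 < R0) (t : ℕ) (u v c : ι) :
    wgt p f R0 t v c ≤ Real.exp (dst p f u v / Rad R0 t) * wgt p f R0 t u c := by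
  rw [wgt, wgt, ← Real.exp_add, Real.exp_le_exp]
  have h := div_le_div_of_nonneg_right (dst_triangle hp f u v c) (Rad_pos hR t).le
  rw [add_div] at h
  linarith

theorem abs_log_sum_wgt_sub (hp : 1 ≤ p) (hR : 0 < R0) (t : ℕ) (u v : ι) :
    |Real.log (∑ c, wgt p f R0 t u c) - Real.log (∑ c, wgt p f R0 t v c)| ≤
      dst p f u v / Rad R0 t := by
  have key : ∀ a b, Real.log (∑ c, wgt p f R0 t a c) ≤
      dst p f b a / Rad R0 t + Real.log (∑ c, wgt p f R0 t b c) := by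
    intro a b
    rw [← Real.log_exp (dst p f b a / Rad R0 t),
      ← Real.log_mul (Real.exp_pos _).ne' (sum_wgt_pos t b).ne']
    exact Real.log_le_log (sum_wgt_pos t a)
      (by rw [mul_sum]; exact sum_le_sum fun c _ => wgt_le_exp_mul hp hR t b a c)
  have h1 := key u v
  have h2 := key v u
  rw [dst_comm p f v u] at h1
  rw [abs_le]
  constructor <;> linarith

/-- the kernels of two points at distance `d` are comparable by `exp (2 d / R)` -/
theorem ker_le_exp_mul (hp : 1 ≤ p) (hR : 0 < R0) (t : ℕ) (u v c : ι) :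
    ker p f R0 t v c ≤ Real.exp (2 * (dst p f u v / Rad R0 t)) * ker p f R0 t u c := by
  have h2 : ∑ e, wgt p f R0 t u e ≤
      Real.exp (dst p f u v / Rad R0 t) * ∑ e, wgt p f R0 t v e := by
    rw [mul_sum]
    refine sum_le_sum fun e _ => ?_
    rw [dst_comm p f u v]
    exact wgt_le_exp_mul hp hR t v u e
  rw [ker, ker, two_mul, Real.exp_add, ← mul_div_assoc,
    div_le_div_iff₀ (sum_wgt_pos t v) (sum_wgt_pos t u)]
  refine (mul_le_mul (wgt_le_exp_mul hp hR t u v c) h2 (sum_wgt_pos t u).le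
    (mul_nonneg (Real.exp_pos _).le (wgt_pos t u c).le)).trans_eq ?_
  ring

theorem abs_ker_sub_le (hp : 1 ≤ p) (hR : 0 < R0) {t : ℕ} {u v : ι}
    (hd : dst p f u v ≤ Rad R0 t) (c : ι) :
    |ker p f R0 t u c - ker p f R0 t v c| ≤
      16 * (dst p f u v / Rad R0 t) * ker p f R0 t u c := by
  set x := dst p f u v / Rad R0 t with hx
  have hx0 : 0 ≤ x := div_nonneg (dst_nonneg p f u v) (Rad_pos hR t).le
  have hx1 : x ≤ 1 := (div_le_one (Rad_pos hR t)).2 hd
  have h1 := ker_le_exp_mul (f := f) hp hR t u v c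
  have h2 := ker_le_exp_mul (f := f) hp hR t v u c
  rw [dst_comm p f v u] at h2
  rw [← hx] at h1 h2
  have h3 : Real.exp (2 * x) ≤ 1 + 16 * x := by
    have h4 : Real.exp x ≤ 1 + 2 * x := by
      have h5 := abs_le.1 (Real.abs_exp_sub_one_le (show |x| ≤ 1 by rwa [abs_of_nonneg hx0]))
      rw [abs_of_nonneg hx0] at h5
      linarith
    rw [two_mul, Real.exp_add]
    nlinarith [Real.exp_pos x]
  have h0 := (ker_pos (p := p) (f := f) (R0 := R0) t u c).le
  have h0' := (ker_pos (p := p) (f := f) (R0 := R0) t v c).le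
  have h6 := mul_le_mul_of_nonneg_right h3 h0
  have h7 := mul_le_mul_of_nonneg_right h3 h0'
  rw [abs_le]
  refine ⟨by linarith, ?_⟩
  rcases le_total (ker p f R0 t v c) (ker p f R0 t u c) with h | h
  · have h8 := mul_le_mul_of_nonneg_left h (show 0 ≤ 16 * x by linarith)
    linarith
  · linarith [mul_nonneg (show 0 ≤ 16 * x by linarith) h0]

/-! ## Growth -/

theorem gro_nonneg (hR : 0 < R0) (t : ℕ) (u : ι) : 0 ≤ gro p f R0 t u := by
  refine sub_nonneg.2 (Real.log_le_log (sum_wgt_pos t u) (sum_le_sum fun c _ => ?_))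
  exact Real.exp_le_exp.2 (neg_le_neg (div_le_div_of_nonneg_left (dst_nonneg p f u c)
    (Rad_pos hR t) (Rad_mono hR t.le_succ)))

theorem sum_gro_le (hp : 0 < p) (hR : 0 < R0) (a b : ℕ) (u : ι) :
    ∑ t ∈ Ico a b, gro p f R0 t u ≤ Real.log (Fintype.card ι : ℝ) := by
  have hn : (1 : ℝ) ≤ Fintype.card ι := by exact_mod_cast Fintype.card_pos_iff.2 ⟨u⟩
  rcases lt_or_ge b a with h | h
  · rw [Ico_eq_empty_of_le h.le, sum_empty]
    exact Real.log_nonneg hn
  simp only [gro]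
  rw [sum_Ico_sub (f := fun t => Real.log (∑ c, wgt p f R0 t u c)) h]
  have h1 : ∀ t c, wgt p f R0 t u c ≤ 1 := fun t c => Real.exp_le_one_iff.2
    (neg_nonpos.2 (div_nonneg (dst_nonneg p f u c) (Rad_pos hR t).le))
  have h2 : Real.log (∑ c, wgt p f R0 b u c) ≤ Real.log (Fintype.card ι : ℝ) :=
    Real.log_le_log (sum_wgt_pos b u) ((sum_le_sum fun c _ => h1 b c).trans_eq (by simp))
  have h3 : 0 ≤ Real.log (∑ c, wgt p f R0 a u c) := by
    refine Real.log_nonneg (le_trans ?_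
      (single_le_sum (fun c _ => (wgt_pos a u c).le) (mem_univ u)))
    simp [wgt, dst_self hp]
  linarith

theorem abs_gro_sub_le (hp : 1 ≤ p) (hR : 0 < R0) (t : ℕ) (u v : ι) :
    |gro p f R0 t u - gro p f R0 t v| ≤ 2 * (dst p f u v / Rad R0 t) := by
  have h1 := abs_le.1 (abs_log_sum_wgt_sub (f := f) hp hR t u v)
  have h2 := abs_le.1 (abs_log_sum_wgt_sub (f := f) hp hR (t + 1) u v)
  have h3 : dst p f u v / Rad R0 (t + 1) ≤ dst p f u v / Rad R0 t :=
    div_le_div_of_nonneg_left (dst_nonneg p f u v) (Rad_pos hR t) (Rad_mono hR t.le_succ)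
  rw [gro, gro, abs_le]
  constructor <;> linarith

/-! ## Soft weight -/

theorem eta_pos (t : ℕ) (u : ι) : 0 < eta p f R0 lam t u := Real.exp_pos _

theorem eta_le_one (hR : 0 < R0) (hlam : 4 ≤ lam) (t : ℕ) (u : ι) :
    eta p f R0 lam t u ≤ 1 :=
  Real.exp_le_one_iff.2 (neg_nonpos.2 (div_nonneg (gro_nonneg hR t u) (by linarith)))

theorem abs_eta_sub_le (hp : 1 ≤ p) (hR : 0 < R0) (hlam : 4 ≤ lam) {t : ℕ} {u v : ι}
    (hd : dst p f u v ≤ Rad R0 t) :
    |eta p f R0 lam t u - eta p f R0 lam t v| ≤ dst p f u v / Rad R0 t * eta p f R0 lam t u := by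
  have hl : 0 < lam := by linarith
  set x := dst p f u v / Rad R0 t
  have hx0 : 0 ≤ x := div_nonneg (dst_nonneg p f u v) (Rad_pos hR t).le
  have hx1 : x ≤ 1 := (div_le_one (Rad_pos hR t)).2 hd
  set s := (gro p f R0 t u - gro p f R0 t v) / lam with hs
  have hs1 : |s| ≤ x / 2 := by
    rw [hs, abs_div, abs_of_pos hl, div_le_iff₀ hl]
    nlinarith [abs_gro_sub_le (f := f) hp hR t u v]
  have e : eta p f R0 lam t v = eta p f R0 lam t u * Real.exp s := by
    rw [eta, eta, ← Real.exp_add, hs]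
    congr 1
    ring
  rw [e, show eta p f R0 lam t u - eta p f R0 lam t u * Real.exp s
      = eta p f R0 lam t u * (1 - Real.exp s) by ring, abs_mul, abs_of_pos (eta_pos t u),
    mul_comm x]
  refine mul_le_mul_of_nonneg_left ?_ (eta_pos t u).le
  rw [abs_sub_comm]
  exact (Real.abs_exp_sub_one_le (by linarith)).trans (by linarith)

theorem eta_le_two_mul (hp : 1 ≤ p) (hR : 0 < R0) (hlam : 4 ≤ lam) {t : ℕ} {u v : ι}
    (hd : dst p f u v ≤ Rad R0 t) : eta p f R0 lam t v ≤ 2 * eta p f R0 lam t u := by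
  have h := abs_le.1 (abs_eta_sub_le hp hR hlam hd)
  have h2 := mul_le_of_le_one_left (eta_pos (p := p) (f := f) (R0 := R0) (lam := lam) t u).le
    ((div_le_one (Rad_pos hR t)).2 hd)
  linarith

theorem exp_neg_two_le_eta (hlam : 4 ≤ lam) {t : ℕ} {u : ι} (h : gro p f R0 t u ≤ lam + 3) :
    Real.exp (-2) ≤ eta p f R0 lam t u := by
  rw [eta, Real.exp_le_exp, neg_le_neg_iff, div_le_iff₀ (by linarith)]
  linarith

theorem gro_le_mul_eta (hR : 0 < R0) (hlam : 4 ≤ lam) {t : ℕ} {u : ι}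
    (h : gro p f R0 t u ≤ lam + 3) :
    gro p f R0 t u ≤ Real.exp 2 * (gro p f R0 t u * eta p f R0 lam t u) := by
  have h1 := mul_le_mul_of_nonneg_left (exp_neg_two_le_eta (lam := lam) hlam h) (Real.exp_pos 2).le
  rw [← Real.exp_add, add_neg_cancel, Real.exp_zero] at h1
  calc gro p f R0 t u ≤ gro p f R0 t u * (Real.exp 2 * eta p f R0 lam t u) :=
        le_mul_of_one_le_right (gro_nonneg hR t u) h1
    _ = _ := by ring

/-! ## Cut weight and stopping times -/

theorem bet_nonneg (t : ℕ) (u : ι) : 0 ≤ bet p f R0 lam t u := le_max_left _ _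

theorem bet_le_one (t : ℕ) (u : ι) : bet p f R0 lam t u ≤ 1 :=
  max_le zero_le_one (min_le_left _ _)

theorem gro_lt_of_bet_ne_zero {t : ℕ} {u : ι} (h : bet p f R0 lam t u ≠ 0) :
    gro p f R0 t u < lam + 1 := by
  by_contra hc
  exact h (max_eq_left (le_trans (min_le_right _ _) (by linarith [not_lt.1 hc])))

theorem abs_bet_sub_le (hp : 1 ≤ p) (hR : 0 < R0) (t : ℕ) (u v : ι) :
    |bet p f R0 lam t u - bet p f R0 lam t v| ≤ 2 * (dst p f u v / Rad R0 t) := by
  refine le_trans ?_ (abs_gro_sub_le (f := f) hp hR t u v)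
  have h1 : |bet p f R0 lam t u - bet p f R0 lam t v| ≤
      |min 1 (lam + 1 - gro p f R0 t u) - min 1 (lam + 1 - gro p f R0 t v)| :=
    (abs_max_sub_max_le_max _ _ _ _).trans (by simp)
  refine h1.trans ((abs_min_sub_min_le_max _ _ _ _).trans ?_)
  rw [sub_self, abs_zero, max_eq_right (abs_nonneg _), sub_sub_sub_cancel_left, abs_sub_comm]

variable {K : ℕ}

theorem suf_succ_le (b t : ℕ) (u : ι) :
    suf p f R0 lam K b (t + 1) u ≤ suf p f R0 lam K b t u :=
  min_le_min le_rfl (mul_le_mul_of_nonneg_left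
    (sum_le_sum_of_subset_of_nonneg (Ico_subset_Ico_left t.le_succ) fun q _ _ => bet_nonneg q u)
    (by positivity))

theorem tim_nonneg (b t : ℕ) (u : ι) : 0 ≤ tim p f R0 lam K b t u :=
  sub_nonneg.2 (suf_succ_le b t u)

theorem tim_le (b t : ℕ) (u : ι) :
    tim p f R0 lam K b t u ≤ 2 / (K : ℝ) * bet p f R0 lam t u := by
  rw [tim, suf, suf]
  have hk : (0 : ℝ) ≤ 2 / (K : ℝ) * bet p f R0 lam t u :=
    mul_nonneg (by positivity) (bet_nonneg t u)
  rcases lt_or_ge t (b * K) with h | h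
  · rw [sum_eq_sum_Ico_succ_bot h, mul_add]
    generalize 2 / (K : ℝ) * ∑ q ∈ Ico (t + 1) (b * K), bet p f R0 lam q u = s
    rcases le_total 1 s with hs | hs
    · rw [min_eq_left hs]
      linarith [min_le_left 1 (2 / (K : ℝ) * bet p f R0 lam t u + s)]
    · rw [min_eq_right hs]
      linarith [min_le_right 1 (2 / (K : ℝ) * bet p f R0 lam t u + s)]
  · rw [Ico_eq_empty_of_le h, Ico_eq_empty_of_le (h.trans t.le_succ), sub_self]
    exact hk

theorem tim_le_two_div (b t : ℕ) (u : ι) : tim p f R0 lam K b t u ≤ 2 / (K : ℝ) :=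
  (tim_le b t u).trans (mul_le_of_le_one_right (by positivity) (bet_le_one t u))

theorem gro_lt_of_tim_ne_zero {b t : ℕ} {u : ι} (h : tim p f R0 lam K b t u ≠ 0) :
    gro p f R0 t u < lam + 1 :=
  gro_lt_of_bet_ne_zero fun hb => h (le_antisymm
    ((tim_le b t u).trans_eq (by rw [hb, mul_zero])) (tim_nonneg b t u))

theorem sum_tim (hp : 0 < p) (hR : 0 < R0) (hK : 1 ≤ K) (hlam : 4 ≤ lam)
    (hcard : 4 * Real.log (Fintype.card ι : ℝ) ≤ lam * (K : ℝ)) {b : ℕ} (hb : 1 ≤ b) (u : ι) :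
    ∑ t ∈ blk K b, tim p f R0 lam K b t u = 1 := by
  have hle : (b - 1) * K ≤ b * K := Nat.mul_le_mul_right K (Nat.sub_le b 1)
  have htel := sum_Ico_sub (f := fun t => -suf p f R0 lam K b t u) hle
  simp only [sub_neg_eq_add, neg_add_eq_sub] at htel
  simp only [blk, tim]
  rw [htel, suf, suf, Ico_self, sum_empty, mul_zero, min_eq_right zero_le_one, sub_zero,
    min_eq_left]
  have hl : 0 < lam := by linarith
  have hK0 : (0 : ℝ) < K := by exact_mod_cast hK
  have hbet : ∀ t, 1 - gro p f R0 t u / lam ≤ bet p f R0 lam t u := by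
    intro t
    rcases le_or_gt (gro p f R0 t u) lam with h | h
    · rw [bet, min_eq_left (by linarith), max_eq_right zero_le_one]
      linarith [div_nonneg (gro_nonneg (p := p) (f := f) hR t u) hl.le]
    · exact le_trans (by linarith [(one_le_div hl).2 h.le]) (bet_nonneg t u)
  have hsum := sum_le_sum fun t (_ : t ∈ Ico ((b - 1) * K) (b * K)) => hbet t
  rw [sum_sub_distrib, sum_const, Nat.card_Ico, ← Nat.sub_mul, Nat.sub_sub_self hb, one_mul,
    nsmul_eq_mul, mul_one, ← sum_div] at hsum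
  have h4 : (∑ t ∈ Ico ((b - 1) * K) (b * K), gro p f R0 t u) / lam ≤ (K : ℝ) / 4 := by
    rw [div_le_iff₀ hl]
    linarith [sum_gro_le (f := f) hp hR ((b - 1) * K) (b * K) u]
  rw [div_mul_eq_mul_div, le_div_iff₀ hK0]
  linarith

theorem abs_suf_sub_le (hp : 1 ≤ p) (hR : 0 < R0) (b t : ℕ) (u v : ι) :
    |suf p f R0 lam K b t u - suf p f R0 lam K b t v| ≤
      8 * (dst p f u v / ((K : ℝ) * Rad R0 t)) := by
  refine (abs_min_sub_min_le_max _ _ _ _).trans ?_
  rw [sub_self, abs_zero, max_eq_right (abs_nonneg _), ← mul_sub, ← sum_sub_distrib, abs_mul,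
    abs_of_nonneg (show (0 : ℝ) ≤ 2 / (K : ℝ) by positivity)]
  have hd := dst_nonneg p f u v
  have h := (abs_sum_le_sum_abs _ _).trans
    (sum_le_sum fun q (_ : q ∈ Ico t (b * K)) => abs_bet_sub_le (f := f) (lam := lam) hp hR q u v)
  simp only [div_eq_mul_inv (dst p f u v), ← mul_sum] at h
  refine (mul_le_mul_of_nonneg_left (h.trans (mul_le_mul_of_nonneg_left
    (mul_le_mul_of_nonneg_left (sum_inv_Rad_le hR t (b * K)) hd) zero_le_two))
    (by positivity)).trans_eq ?_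
  ring

theorem abs_tim_sub_le (hp : 1 ≤ p) (hR : 0 < R0) (b t : ℕ) (u v : ι) :
    |tim p f R0 lam K b t u - tim p f R0 lam K b t v| ≤
      16 * (dst p f u v / ((K : ℝ) * Rad R0 t)) := by
  have h1 := abs_le.1 (abs_suf_sub_le (f := f) (lam := lam) (K := K) hp hR b t u v)
  have h2 := abs_le.1 (abs_suf_sub_le (f := f) (lam := lam) (K := K) hp hR b (t + 1) u v)
  have h3 : dst p f u v / ((K : ℝ) * Rad R0 (t + 1)) = dst p f u v / ((K : ℝ) * Rad R0 t) / 2 := by
    rw [Rad_succ, div_div]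
    congr 1
    ring
  have h4 : 0 ≤ dst p f u v / ((K : ℝ) * Rad R0 t) :=
    div_nonneg (dst_nonneg p f u v) (mul_nonneg (Nat.cast_nonneg K) (Rad_pos hR t).le)
  rw [h3] at h2
  rw [tim, tim, abs_le]
  constructor <;> linarith

theorem gro_le_of_tim_ne (hp : 1 ≤ p) (hR : 0 < R0) {b t : ℕ} {u v : ι}
    (hd : dst p f u v ≤ Rad R0 t) (h : tim p f R0 lam K b t u ≠ tim p f R0 lam K b t v) :
    gro p f R0 t u ≤ lam + 3 := by
  rcases eq_or_ne (tim p f R0 lam K b t u) 0 with hu | hu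
  · have h1 := gro_lt_of_tim_ne_zero (fun hv => h (hu.trans hv.symm))
    have h2 := abs_le.1 (abs_gro_sub_le (f := f) hp hR t u v)
    have h3 := (div_le_one (Rad_pos hR t)).2 hd
    linarith
  · linarith [gro_lt_of_tim_ne_zero hu]

end

end Vale.Agent.P249.AllD
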